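import Vale.Agent.P219.D6.Ident

/-! # The certificate in dimension 6: values and fractions -/

open Set

namespace Vale.Agent.P219.D6

open Vale.Agent.P219.C5

variable {r e T x y a b : ℝ}

/-! ### Values -/

theorem v_r (r e : ℝ) : e2 r e pr = r := by simp [e2, pr, evz]
theorem v_e (r e : ℝ) : e2 r e pe = e := by simp [e2, pe, evz]
theorem v_1 (r e : ℝ) : e2 r e p1 = 1 := by simp [e2, p1, evz]
theorem v_L1 (r e : ℝ) : e2 r e pL1 = r + e := by simp [e2, pL1, evz]; ring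
theorem v_L0 (r e : ℝ) : e2 r e pL0 = 1 + r := by simp [e2, pL0, evz]
theorem v_v (r e : ℝ) : e2 r e pv = 1 - r := by simp [e2, pv, evz]; ring
theorem v_Y (r e : ℝ) : e2 r e pY = 1 - r ^ 2 := by simp [e2, pY, evz]; ring
theorem v_T (r e : ℝ) : e2 r e pT = 1 - e ^ 2 := by simp [e2, pT, evz]; ring
theorem v_C (r e : ℝ) : e2 r e pC = 2 - r ^ 2 := by simp [e2, pC, evz]; ring
theorem v_G (r e : ℝ) : e2 r e pG = r ^ 2 - e ^ 2 := by simp [e2, pG, evz]; ring

/-- `N`. -/
noncomputable def pNr (e : ℝ) : ℝ := e ^ 5 * (4320 + 1120 * e)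

/-- `s`. -/
noncomputable def sE (e : ℝ) : ℝ := 3600 * (1 - e ^ 2)

theorem v_s (r e : ℝ) : e2 r e ps = sE e := by simp [e2, ps, evz, sE]; ring
theorem v_N (r e : ℝ) : e2 r e pN = pNr e := by simp [e2, pN, evz, pNr]; ring

theorem v_pow (r e : ℝ) (p : P2) (n : ℕ) : e2 r e (ppow p n) = e2 r e p ^ n := by
  induction n with
  | zero => simp [e2, ppow, evz]
  | succ n ih => rw [pow_succ, ← ih]; exact e2_mul r e _ _

theorem v_opD (r e : ℝ) (P : P2) (i j l : ℤ) : e2 r e (opD P i j l) =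
    r * (r + e) * (1 + r) * e2 r e (dx P) -
      e2 r e P * (i * ((r + e) * (1 + r)) + j * (r * (1 + r)) + l * (r * (r + e))) := by
  simp only [opD, e2_add, e2_mul, e2_smul, v_r, v_L1, v_L0]
  push_cast
  ring

/-! ### Fractions -/

/-- `P/(ρ^i L1^j (1+ρ)^l)`. -/
noncomputable def fq (e : ℝ) (P : P2) (i j l : ℕ) (r : ℝ) : ℝ :=
  e2 r e P / (r ^ i * (r + e) ^ j * (1 + r) ^ l)

theorem hasDerivAt_lin (c d : ℝ) (n : ℕ) (h : c * r + d ≠ 0) :
    HasDerivAt (fun r : ℝ => (c * r + d) ^ n) (n * c * (c * r + d) ^ n / (c * r + d)) r := by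
  have h1 := (((hasDerivAt_id r).const_mul c).add_const d).pow n
  refine h1.congr_deriv ?_
  simp only [id, mul_one]
  cases n with
  | zero => simp
  | succ n => rw [Nat.add_sub_cancel, pow_succ (c * r + d) n]; field_simp

theorem hasDerivAt_fq (P : P2) (i j l : ℕ) (h0 : r ≠ 0) (h1 : r + e ≠ 0) (h3 : 1 + r ≠ 0) :
    HasDerivAt (fq e P i j l) (fq e (opD P i j l) (i + 1) (j + 1) (l + 1) r) r := by
  have d0 : HasDerivAt (fun r : ℝ => r ^ i) (i * r ^ i / r) r := by
    have := hasDerivAt_lin (r := r) 1 0 i (by simpa using h0)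
    simpa using this
  have d1 : HasDerivAt (fun r : ℝ => (r + e) ^ j) (j * (r + e) ^ j / (r + e)) r := by
    have := hasDerivAt_lin (r := r) 1 e j (by simpa using h1)
    simpa using this
  have d3 : HasDerivAt (fun r : ℝ => (1 + r) ^ l) (l * (1 + r) ^ l / (1 + r)) r := by
    have := hasDerivAt_lin (r := r) 1 1 l (by simpa [add_comm] using h3)
    simpa [add_comm] using this
  have hd := (hasDerivAt_e2 r e P).fun_div ((d0.mul d1).mul d3)
    (mul_ne_zero (mul_ne_zero (pow_ne_zero _ h0) (pow_ne_zero _ h1)) (pow_ne_zero _ h3))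
  refine hd.congr_deriv ?_
  clear hd d0 d1 d3
  rw [fq, v_opD, pow_succ r i, pow_succ (r + e) j, pow_succ (1 + r) l]
  have p0 : r ^ i ≠ 0 := pow_ne_zero _ h0
  have p1 : (r + e) ^ j ≠ 0 := pow_ne_zero _ h1
  have p3 : (1 + r) ^ l ≠ 0 := pow_ne_zero _ h3
  simp only [Pi.mul_apply]
  generalize r ^ i = Q0 at *
  generalize (r + e) ^ j = Q1 at *
  generalize (1 + r) ^ l = Q3 at *
  generalize e2 r e P = P0
  generalize e2 r e (dx P) = P1
  generalize (r + e) = R1 at *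
  generalize (1 + r) = R3 at *
  push_cast
  field_simp

/-! ### The profile: definitions -/

/-- `ρ(y)`. -/
noncomputable def ro (T y : ℝ) : ℝ := √(1 - T ^ 2 * y ^ 2)

/-- `γ`. -/
noncomputable def gam (e r : ℝ) : ℝ := fq e gN 8 3 1 r / 10

/-- `φ`. -/
noncomputable def fph (e r : ℝ) : ℝ := fq e fN 10 4 1 r / 10

/-- `2 artanh (T y)`. -/
noncomputable def L4 (T y : ℝ) : ℝ := Real.log ((1 + T * y) / (1 - T * y))

/-- The kernel on the ball. -/
noncomputable def G4 (T e y : ℝ) : ℝ := T * y * gam e (ro T y) / sE e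

/-- The profile. -/
noncomputable def f4 (T e y : ℝ) : ℝ := L4 T y - G4 T e y

/-- Its derivative. -/
noncomputable def f4' (T e y : ℝ) : ℝ := T * fph e (ro T y) / sE e

/-- `u`. -/
noncomputable def uq (e r : ℝ) : ℝ := fq e uN 8 3 0 r / 10

end Vale.Agent.P219.D6
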