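import Vale.Agent.P219.C5.Poly
import Vale.Agent.P219.TP.Kron

/-!
# Fast tests of positivity on boxes

A polynomial in three variables, given as a nested list of integers, is evaluated at one point with
natural coordinates (Kronecker substitution, in homogeneous coordinates adapted to the box), so
that all its Bernstein coefficients on the box are the digits of one natural number. The kernel
does only few operations with large natural numbers.
-/

open Set MvPolynomial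

namespace Vale.Agent.P219.D6.BoxK

open Vale.Agent.P219.C5

/-! ### Weights and scalar products -/

section generic

variable {R S α : Type} [CommSemiring R] [CommSemiring S]

/-- `A^k C^n, A^(k+1) C^(n-1), …, A^(k+n)`. -/
def ws (A C : R) : ℕ → ℕ → List R
  | 0, k => [A ^ k]
  | n + 1, k => A ^ k * C ^ (n + 1) :: ws A C n (k + 1)

/-- Scalar product. -/
def dot (g : α → R) : List R → List α → R
  | w :: W, a :: l => g a * w + dot g W l
  | [], _ => 0
  | _ :: _, [] => 0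

theorem map_ws (φ : R →+* S) (A C : R) (n : ℕ) : ∀ k, (ws A C n k).map φ = ws (φ A) (φ C) n k := by
  induction n with
  | zero => intro k; simp [ws]
  | succ n ih => intro k; simp [ws, ih]

theorem map_dot (φ : R →+* S) (g : α → R) (l : List α) :
    ∀ W : List R, φ (dot g W l) = dot (fun a => φ (g a)) (W.map φ) l := by
  induction l with
  | nil => intro W; cases W <;> simp [dot]
  | cons a l ih =>
    intro W
    cases W with
    | nil => simp [dot]
    | cons w W => simp [dot, ih]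

theorem dot_congr {g g' : α → R} (l : List α) (h : ∀ a ∈ l, g a = g' a) :
    ∀ W : List R, dot g W l = dot g' W l := by
  induction l with
  | nil => intro W; cases W <;> rfl
  | cons a l ih =>
    intro W
    cases W with
    | nil => rfl
    | cons w W =>
      rw [dot, dot, h a (by simp), ih (fun b hb => h b (by simp [hb]))]

/-- Value at homogeneous coordinates. -/
def val (f : ℤ → ℕ) (Wa Wx Wy : List R) (Q : List P2) : R :=
  dot (fun p : P2 => dot (fun r : List ℤ => dot (fun c : ℤ => ((f c : ℕ) : R)) Wy r) Wx p) Wa Q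

theorem map_val (φ : R →+* S) (f : ℤ → ℕ) (Wa Wx Wy : List R) (Q : List P2) :
    φ (val f Wa Wx Wy Q) = val f (Wa.map φ) (Wx.map φ) (Wy.map φ) Q := by
  simp only [val, map_dot, map_natCast]

end generic

/-! ### Kernel versions -/

/-- `ws` for the kernel -/
def kws (A C : ℕ) (n : ℕ) : ℕ → List ℕ :=
  Nat.rec (motive := fun _ => ℕ → List ℕ) (fun k => [Nat.pow A k])
    (fun n ih k => Nat.mul (Nat.pow A k) (Nat.pow C (Nat.succ n)) :: ih (Nat.succ k)) n

theorem kws_eq (A C n : ℕ) : ∀ k, kws A C n k = ws A C n k := by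
  induction n with
  | zero => intro k; rfl
  | succ n ih =>
    intro k
    change Nat.mul (Nat.pow A k) (Nat.pow C (Nat.succ n)) :: kws A C n (k + 1) = _
    rw [ih]; rfl

/-- `dot` for the kernel -/
def kdot {α : Type} (g : α → ℕ) (l : List α) : List ℕ → ℕ :=
  List.rec (motive := fun _ => List ℕ → ℕ) (fun _ => 0)
    (fun a _ ih W => List.rec (motive := fun _ => ℕ) 0
      (fun w W _ => Nat.add (Nat.mul (g a) w) (ih W)) W) l

theorem kdot_eq {α : Type} (g : α → ℕ) (l : List α) : ∀ W, kdot g l W = dot g W l := by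
  induction l with
  | nil => intro W; cases W <;> rfl
  | cons a l ih =>
    intro W
    cases W with
    | nil => rfl
    | cons w W =>
      change Nat.add (Nat.mul (g a) w) (kdot g l W) = _
      rw [ih]; rfl

/-- `val` for the kernel -/
def kval (f : ℤ → ℕ) (Wa Wx Wy : List ℕ) (Q : List P2) : ℕ :=
  kdot (fun p : P2 => kdot (fun r : List ℤ => kdot f r Wy) p Wx) Q Wa

theorem kval_eq (f : ℤ → ℕ) (Wa Wx Wy : List ℕ) (Q : List P2) :
    kval f Wa Wx Wy Q = val f Wa Wx Wy Q := by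
  simp only [kval, val, kdot_eq, Nat.cast_id]

/-! ### Real values -/

theorem dot_real {α : Type} (g : α → ℝ) {A C : ℝ} (hC : C ≠ 0) (l : List α) :
    ∀ n k, l.length ≤ n + 1 → dot g (ws A C n k) l = A ^ k * C ^ n * ev g (A / C) l := by
  induction l with
  | nil => intro n k _; cases n <;> simp [ws, dot]
  | cons a l ih =>
    intro n k h
    cases n with
    | zero =>
      have : l = [] := by simpa using h
      subst this
      simp [ws, dot]; ring
    | succ n =>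
      rw [ws, dot, ih n (k + 1) (by simpa using h), ev_cons, pow_succ, pow_succ]
      field_simp

theorem val_real (f : ℤ → ℕ) {A C B E F G : ℝ} (hC : C ≠ 0) (hE : E ≠ 0) (hG : G ≠ 0)
    {na nx ny : ℕ} {Q : List P2} (h1 : Q.length ≤ na + 1) (h2 : ∀ p ∈ Q, p.length ≤ nx + 1)
    (h3 : ∀ p ∈ Q, ∀ r ∈ p, r.length ≤ ny + 1) :
    val f (ws F G na 0) (ws A C nx 0) (ws B E ny 0) Q = G ^ na * (C ^ nx * (E ^ ny *
      ev (fun p => ev (fun r => ev (fun c : ℤ => ((f c : ℕ) : ℝ)) (B / E) r) (A / C) p)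
        (F / G) Q)) := by
  have e1 : ∀ p ∈ Q, dot (fun r : List ℤ => dot (fun c : ℤ => ((f c : ℕ) : ℝ)) (ws B E ny 0) r)
      (ws A C nx 0) p = C ^ nx * E ^ ny *
        ev (fun r => ev (fun c : ℤ => ((f c : ℕ) : ℝ)) (B / E) r) (A / C) p := by
    intro p hp
    rw [dot_congr (g' := fun r => E ^ ny * ev (fun c : ℤ => ((f c : ℕ) : ℝ)) (B / E) r) p
      (fun r hr => by rw [dot_real _ hE _ _ _ (h3 p hp r hr), pow_zero, one_mul]),
      dot_real _ hC _ _ _ (h2 p hp), ev_mul_left]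
    ring
  rw [val, dot_congr Q e1, dot_real _ hG _ _ _ h1, ev_mul_left]
  ring

theorem e3_sub (a x y : ℝ) (Q : List P2) : e3 a x y Q =
    ev (fun p => ev (fun r => ev (fun c : ℤ => ((posz c : ℕ) : ℝ)) y r) x p) a Q -
    ev (fun p => ev (fun r => ev (fun c : ℤ => ((negz c : ℕ) : ℝ)) y r) x p) a Q := by
  rw [← ev_sub]
  unfold e3 e2
  congr 1
  funext p
  rw [← ev_sub]
  congr 1
  funext r
  rw [← ev_sub]
  congr 1
  funext c
  exact evz_eq_sub' c

/-! ### Degrees -/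

open Vale.Agent.P219.TP.Kron (Bd) in
theorem bd_ws {A C : MvPolynomial (Fin 3) ℕ} {d e f : ℕ} (hA : Bd d e f A) (hC : Bd d e f C)
    (n : ℕ) : ∀ k m, n + k = m → ∀ w ∈ ws A C n k, Bd (m * d) (m * e) (m * f) w := by
  induction n with
  | zero =>
    intro k m hm w hw
    rw [ws, List.mem_singleton] at hw
    subst hw
    have := hA.pow k
    rwa [show m = k by omega]
  | succ n ih =>
    intro k m hm w hw
    rw [ws, List.mem_cons] at hw
    rcases hw with rfl | hw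
    · have := (hA.pow k).mul (hC.pow (n + 1))
      rw [← add_mul, ← add_mul, ← add_mul] at this
      rwa [show m = k + (n + 1) by omega]
    · exact ih (k + 1) m (by omega) w hw

open Vale.Agent.P219.TP.Kron (Bd) in
theorem bd_dot {α : Type} {g : α → MvPolynomial (Fin 3) ℕ} {d e f d' e' f' : ℕ} (l : List α)
    (hg : ∀ a, Bd d' e' f' (g a)) : ∀ W : List (MvPolynomial (Fin 3) ℕ),
    (∀ w ∈ W, Bd d e f w) → Bd (d' + d) (e' + e) (f' + f) (dot g W l) := by
  have h0 : Bd 0 0 0 (0 : MvPolynomial (Fin 3) ℕ) := by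
    simpa using TP.Kron.Bd.C 0
  induction l with
  | nil => intro W _; cases W <;> exact h0.mono (Nat.zero_le _) (Nat.zero_le _) (Nat.zero_le _)
  | cons a l ih =>
    intro W hW
    cases W with
    | nil => exact h0.mono (Nat.zero_le _) (Nat.zero_le _) (Nat.zero_le _)
    | cons w W =>
      rw [dot]
      exact ((hg a).mul (hW w (by simp))).add (ih W fun w hw => hW w (by simp [hw]))

/-! ### Charts -/

/-- `D x = (q00 (1-u) + q10 u) (1-v) + (q01 (1-u) + q11 u) v` if `s = 1`, `D x = q00 (1-u) + q10 u`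
if `s = 0`; `E y = y0 (1-v) + y1 v`; `F a = a0 (1-w) + a1 w`. -/
structure Ch where
  q00 : ℕ
  q10 : ℕ
  q01 : ℕ
  q11 : ℕ
  D : ℕ
  s : ℕ
  y0 : ℕ
  y1 : ℕ
  E : ℕ
  a0 : ℕ
  a1 : ℕ
  F : ℕ

section

variable {R : Type} [CommSemiring R] (g : Ch)

def fA (X Y : R) : R := ((g.q00 : R) + g.q10 * X) + ((g.q01 : R) + g.q11 * X) * Y
def fC (X Y : R) : R := (g.D : R) * ((1 + X) * (1 + Y) ^ g.s)
def fB (Y : R) : R := (g.y0 : R) + g.y1 * Y
def fE (Y : R) : R := (g.E : R) * (1 + Y)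
def fF (Z : R) : R := (g.a0 : R) + g.a1 * Z
def fG (Z : R) : R := (g.F : R) * (1 + Z)

/-- Value of the positive or negative part. -/
def cv (f : ℤ → ℕ) (na nx ny : ℕ) (X Y Z : R) (Q : List P2) : R :=
  val f (ws (fF g Z) (fG g Z) na 0) (ws (fA g X Y) (fC g X Y) nx 0) (ws (fB g Y) (fE g Y) ny 0) Q

/-- The lower bound. -/
def lb (na nx ny i j k l : ℕ) (X Y Z : R) : R :=
  (X ^ i * (1 + X) ^ (nx - (i + j))) * (Y ^ k * (1 + Y) ^ (g.s * nx + ny - (k + l))) *
    (1 + Z) ^ na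

end

theorem map_cv {R S : Type} [CommSemiring R] [CommSemiring S] (φ : R →+* S) (g : Ch) (f : ℤ → ℕ)
    (na nx ny : ℕ) (X Y Z : R) (Q : List P2) :
    φ (cv g f na nx ny X Y Z Q) = cv g f na nx ny (φ X) (φ Y) (φ Z) Q := by
  simp only [cv, map_val, map_ws, fA, fC, fB, fE, fF, fG, map_add, map_mul, map_natCast, map_one,
    map_pow]

theorem map_lb {R S : Type} [CommSemiring R] [CommSemiring S] (φ : R →+* S) (g : Ch)
    (na nx ny i j k l : ℕ) (X Y Z : R) :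
    φ (lb g na nx ny i j k l X Y Z) = lb g na nx ny i j k l (φ X) (φ Y) (φ Z) := by
  simp only [lb, map_add, map_mul, map_one, map_pow]

/-! ### The check -/

/-- Bounds of the lengths. -/
def lens (na nx ny : ℕ) (Q : List P2) : Bool :=
  and (Nat.ble (klen Q) (Nat.succ na)) (kall (fun p : P2 => and (Nat.ble (klen p) (Nat.succ nx))
    (kall (fun r : List ℤ => Nat.ble (klen r) (Nat.succ ny)) p)) Q)

theorem lens_spec {na nx ny : ℕ} {Q : List P2} (h : lens na nx ny Q = true) :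
    Q.length ≤ na + 1 ∧ (∀ p ∈ Q, p.length ≤ nx + 1) ∧ ∀ p ∈ Q, ∀ r ∈ p, r.length ≤ ny + 1 := by
  rw [lens, Bool.and_eq_true, klen_eq] at h
  have h2 : ∀ p ∈ Q, p.length ≤ nx + 1 ∧ ∀ r ∈ p, r.length ≤ ny + 1 := by
    intro p hp
    have h3 := mem_of_kall h.2 p hp
    rw [Bool.and_eq_true, klen_eq] at h3
    refine ⟨Nat.le_of_ble_eq_true h3.1, fun r hr => ?_⟩
    have h4 := mem_of_kall h3.2 r hr
    rw [klen_eq] at h4
    exact Nat.le_of_ble_eq_true h4
  exact ⟨Nat.le_of_ble_eq_true h.1, fun p hp => (h2 p hp).1, fun p hp => (h2 p hp).2⟩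

/-- weights for the kernel -/
def kA (g : Ch) (X Y : ℕ) : ℕ :=
  Nat.add (Nat.add g.q00 (Nat.mul g.q10 X)) (Nat.mul (Nat.add g.q01 (Nat.mul g.q11 X)) Y)
def kC (g : Ch) (X Y : ℕ) : ℕ :=
  Nat.mul g.D (Nat.mul (Nat.succ X) (Nat.pow (Nat.succ Y) g.s))
def kB (g : Ch) (Y : ℕ) : ℕ := Nat.add g.y0 (Nat.mul g.y1 Y)
def kE (g : Ch) (Y : ℕ) : ℕ := Nat.mul g.E (Nat.succ Y)
def kF (g : Ch) (Z : ℕ) : ℕ := Nat.add g.a0 (Nat.mul g.a1 Z)
def kG (g : Ch) (Z : ℕ) : ℕ := Nat.mul g.F (Nat.succ Z)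

/-- `cv` for the kernel -/
def kcv (g : Ch) (f : ℤ → ℕ) (na nx ny : ℕ) (X Y Z : ℕ) (Q : List P2) : ℕ :=
  kval f (kws (kF g Z) (kG g Z) na 0) (kws (kA g X Y) (kC g X Y) nx 0)
    (kws (kB g Y) (kE g Y) ny 0) Q

/-- `lb` for the kernel -/
def klb (g : Ch) (na nx ny i j k l : ℕ) (X Y Z : ℕ) : ℕ :=
  Nat.mul (Nat.mul (Nat.mul (Nat.pow X i) (Nat.pow (Nat.succ X) (Nat.sub nx (Nat.add i j))))
    (Nat.mul (Nat.pow Y k) (Nat.pow (Nat.succ Y)
      (Nat.sub (Nat.add (Nat.mul g.s nx) ny) (Nat.add k l))))) (Nat.pow (Nat.succ Z) na)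

theorem kcv_eq (g : Ch) (f : ℤ → ℕ) (na nx ny : ℕ) (X Y Z : ℕ) (Q : List P2) :
    kcv g f na nx ny X Y Z Q = cv g f na nx ny X Y Z Q := by
  have hA : kA g X Y = fA g X Y := by simp only [fA, Nat.cast_id]; rfl
  have hC : kC g X Y = fC g X Y := by
    simp only [fC, Nat.cast_id, add_comm 1]; rfl
  have hB : kB g Y = fB g Y := by simp only [fB, Nat.cast_id]; rfl
  have hE : kE g Y = fE g Y := by simp only [fE, Nat.cast_id, add_comm 1]; rfl
  have hF : kF g Z = fF g Z := by simp only [fF, Nat.cast_id]; rfl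
  have hG : kG g Z = fG g Z := by simp only [fG, Nat.cast_id, add_comm 1]; rfl
  rw [kcv, kval_eq, kws_eq, kws_eq, kws_eq, hA, hC, hB, hE, hF, hG, cv]

theorem klb_eq (g : Ch) (na nx ny i j k l : ℕ) (X Y Z : ℕ) :
    klb g na nx ny i j k l X Y Z = lb g na nx ny i j k l X Y Z := by
  simp only [lb, add_comm 1]; rfl

/-- last step: comparison of the digits -/
def c3 (P N M : ℕ) : Bool := Nat.beq (Nat.land (Nat.sub (Nat.add P M) N) M) M

/-- second step -/
def c2 (g : Ch) (na nx ny K i j k l : ℕ) (Q : List P2) (T H : ℕ) (Y Z : ℕ) (e1 : ℕ) : Bool :=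
  c3 (Nat.mul K (kcv g posz na nx ny T Y Z Q))
    (Nat.add (Nat.mul K (kcv g negz na nx ny T Y Z Q)) (klb g na nx ny i j k l T Y Z))
    (Nat.mul H (Nat.div (Nat.sub (Nat.pow T (Nat.mul (Nat.succ nx)
      (Nat.mul e1 (Nat.succ na)))) 1) (Nat.sub T 1)))

/-- first step: `b` is the number of binary digits -/
def c1 (g : Ch) (na nx ny K i j k l : ℕ) (Q : List P2) (b : ℕ) : Bool :=
  and (Nat.ble (Nat.succ (Nat.add (Nat.mul K (kcv g posz na nx ny 1 1 1 Q))
    (Nat.add (Nat.mul K (kcv g negz na nx ny 1 1 1 Q)) (klb g na nx ny i j k l 1 1 1))))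
      (Nat.pow 2 b))
    (c2 g na nx ny K i j k l Q (Nat.pow 2 (Nat.succ b)) (Nat.pow 2 b)
      (Nat.pow (Nat.pow 2 (Nat.succ b)) (Nat.succ nx))
      (Nat.pow (Nat.pow (Nat.pow 2 (Nat.succ b)) (Nat.succ nx))
        (Nat.succ (Nat.add (Nat.mul g.s nx) ny)))
      (Nat.succ (Nat.add (Nat.mul g.s nx) ny)))

/-- Side conditions. -/
def sc (g : Ch) (nx ny i j k l : ℕ) : Bool :=
  and (or (Nat.beq g.s 1) (and (Nat.beq g.s 0) (and (Nat.beq g.q01 0) (Nat.beq g.q11 0))))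
    (and (and (Nat.ble 1 g.D) (and (Nat.ble 1 g.E) (Nat.ble 1 g.F)))
    (and (Nat.ble (Nat.add i j) nx) (Nat.ble (Nat.add k l) (Nat.add (Nat.mul g.s nx) ny))))

/-- The check. -/
def chk (g : Ch) (na nx ny K i j k l b : ℕ) (Q : List P2) : Bool :=
  and (sc g nx ny i j k l) (c1 g na nx ny K i j k l Q b)

section sound

open Vale.Agent.P219.TP.Kron (Bd)

variable {g : Ch} {na nx ny K i j k l b : ℕ} {Q : List P2}

/-- Shape of the chart. -/
def Shape (g : Ch) : Prop := g.s = 1 ∨ (g.s = 0 ∧ g.q01 = 0 ∧ g.q11 = 0)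

theorem bdC (n : ℕ) : Bd 0 0 0 (n : MvPolynomial (Fin 3) ℕ) := by
  have := TP.Kron.Bd.C n
  simpa using this

theorem bdX (n m : ℕ) :
    Bd 1 0 0 ((n : MvPolynomial (Fin 3) ℕ) + (m : MvPolynomial (Fin 3) ℕ) * X 0) := by
  have := TP.Kron.Bd.lin0 n m
  simpa [TP.Kron.lin] using this

theorem bdY (n m : ℕ) :
    Bd 0 1 0 ((n : MvPolynomial (Fin 3) ℕ) + (m : MvPolynomial (Fin 3) ℕ) * X 1) := by
  have := TP.Kron.Bd.lin1 n m
  simpa [TP.Kron.lin] using this

theorem bdZ (n m : ℕ) :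
    Bd 0 0 1 ((n : MvPolynomial (Fin 3) ℕ) + (m : MvPolynomial (Fin 3) ℕ) * X 2) := by
  have := TP.Kron.Bd.lin2 n m
  simpa [TP.Kron.lin] using this

theorem bd1X : Bd 1 0 0 ((1 : MvPolynomial (Fin 3) ℕ) + X 0) := by simpa using bdX 1 1
theorem bd1Y : Bd 0 1 0 ((1 : MvPolynomial (Fin 3) ℕ) + X 1) := by simpa using bdY 1 1
theorem bd1Z : Bd 0 0 1 ((1 : MvPolynomial (Fin 3) ℕ) + X 2) := by simpa using bdZ 1 1
theorem bdX0 : Bd 1 0 0 (X 0 : MvPolynomial (Fin 3) ℕ) := by simpa using bdX 0 1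
theorem bdX1 : Bd 0 1 0 (X 1 : MvPolynomial (Fin 3) ℕ) := by simpa using bdY 0 1

theorem bd_fA (h : Shape g) : Bd 1 g.s 0 (fA g (X 0 : MvPolynomial (Fin 3) ℕ) (X 1)) := by
  unfold fA
  rcases h with h | ⟨h, h1, h2⟩
  · rw [h]
    exact ((bdX _ _).mono le_rfl (by norm_num) le_rfl).add ((bdX _ _).mul bdX1)
  · rw [h, h1, h2]
    simpa using bdX g.q00 g.q10

theorem bd_fC : Bd 1 g.s 0 (fC g (X 0 : MvPolynomial (Fin 3) ℕ) (X 1)) := by
  unfold fC
  have := (bdC g.D).mul (bd1X.mul (bd1Y.pow g.s))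
  simpa using this

theorem bd_fB : Bd 0 1 0 (fB g (X 1 : MvPolynomial (Fin 3) ℕ)) := bdY _ _
theorem bd_fF : Bd 0 0 1 (fF g (X 2 : MvPolynomial (Fin 3) ℕ)) := bdZ _ _

theorem bd_fE : Bd 0 1 0 (fE g (X 1 : MvPolynomial (Fin 3) ℕ)) := by
  have := (bdC g.E).mul bd1Y
  simpa [fE] using this

theorem bd_fG : Bd 0 0 1 (fG g (X 2 : MvPolynomial (Fin 3) ℕ)) := by
  have := (bdC g.F).mul bd1Z
  simpa [fG] using this

theorem bd_cv (h : Shape g) (f : ℤ → ℕ) :
    Bd nx (g.s * nx + ny) na (cv g f na nx ny (X 0 : MvPolynomial (Fin 3) ℕ) (X 1) (X 2) Q) := by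
  unfold cv val
  have h1 : ∀ r : List ℤ, Bd (0 + ny * 0) (0 + ny * 1) (0 + ny * 0)
      (dot (fun c : ℤ => ((f c : ℕ) : MvPolynomial (Fin 3) ℕ)) (ws (fB g (X 1)) (fE g (X 1)) ny 0)
        r) := fun r =>
    bd_dot r (fun c => bdC _) _ (bd_ws bd_fB bd_fE ny 0 ny rfl)
  have h2 := fun p : P2 => bd_dot p h1 _ (bd_ws (bd_fA h) bd_fC nx 0 nx rfl)
  have h3 := bd_dot Q h2 _ (bd_ws (bd_fF (g := g)) (bd_fG (g := g)) na 0 na rfl)
  refine h3.mono ?_ ?_ ?_
  · simp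
  · rw [mul_comm g.s nx]; omega
  · simp

theorem bd_lb (h1 : i + j ≤ nx) (h2 : k + l ≤ g.s * nx + ny) :
    Bd nx (g.s * nx + ny) na
      (lb g na nx ny i j k l (X 0 : MvPolynomial (Fin 3) ℕ) (X 1) (X 2)) := by
  unfold lb
  have := (((bdX0.pow i).mul (bd1X.pow (nx - (i + j)))).mul
    ((bdX1.pow k).mul (bd1Y.pow (g.s * nx + ny - (k + l))))).mul (bd1Z.pow na)
  refine this.mono ?_ ?_ ?_
  · simp only [mul_one, mul_zero, add_zero]; omega
  · simp only [mul_one, mul_zero, add_zero, zero_add]; omega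
  · simp

theorem sc_spec (h : sc g nx ny i j k l = true) :
    Shape g ∧ (0 < g.D ∧ 0 < g.E ∧ 0 < g.F) ∧ i + j ≤ nx ∧ k + l ≤ g.s * nx + ny := by
  simp only [sc, Bool.and_eq_true, Bool.or_eq_true] at h
  obtain ⟨h1, ⟨h2, h3, h4⟩, h5, h6⟩ := h
  refine ⟨?_, ⟨Nat.le_of_ble_eq_true h2, Nat.le_of_ble_eq_true h3, Nat.le_of_ble_eq_true h4⟩,
    Nat.le_of_ble_eq_true h5, Nat.le_of_ble_eq_true h6⟩
  rcases h1 with h1 | ⟨h1, h7, h8⟩
  · exact Or.inl (Nat.eq_of_beq_eq_true h1)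
  · exact Or.inr ⟨Nat.eq_of_beq_eq_true h1, Nat.eq_of_beq_eq_true h7, Nat.eq_of_beq_eq_true h8⟩

theorem ev_cv (x y z : ℕ) (f : ℤ → ℕ) : eval ![x, y, z]
    (cv g f na nx ny (X 0 : MvPolynomial (Fin 3) ℕ) (X 1) (X 2) Q) = kcv g f na nx ny x y z Q := by
  rw [kcv_eq, map_cv]
  simp

theorem ev_lb (x y z : ℕ) : eval ![x, y, z]
    (lb g na nx ny i j k l (X 0 : MvPolynomial (Fin 3) ℕ) (X 1) (X 2)) =
      klb g na nx ny i j k l x y z := by
  rw [klb_eq, map_lb]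
  simp

/-- the two sides of the inequality -/
noncomputable def uP (g : Ch) (na nx ny K : ℕ) (Q : List P2) : MvPolynomial (Fin 3) ℕ :=
  (K : MvPolynomial (Fin 3) ℕ) * cv g posz na nx ny (X 0) (X 1) (X 2) Q

noncomputable def uN (g : Ch) (na nx ny K i j k l : ℕ) (Q : List P2) : MvPolynomial (Fin 3) ℕ :=
  (K : MvPolynomial (Fin 3) ℕ) * cv g negz na nx ny (X 0) (X 1) (X 2) Q +
      lb g na nx ny i j k l (X 0) (X 1) (X 2)

theorem ev_uP (x y z : ℕ) : eval ![x, y, z] (uP g na nx ny K Q) =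
    Nat.mul K (kcv g posz na nx ny x y z Q) := by
  rw [uP, map_mul, ev_cv, map_natCast, Nat.cast_id]; rfl

theorem ev_uN (x y z : ℕ) : eval ![x, y, z] (uN g na nx ny K i j k l Q) =
    Nat.add (Nat.mul K (kcv g negz na nx ny x y z Q)) (klb g na nx ny i j k l x y z) := by
  rw [uN, map_add, map_mul, ev_cv, ev_lb, map_natCast, Nat.cast_id]; rfl

theorem chk_coeff (h : chk g na nx ny K i j k l b Q = true) (m : Fin 3 →₀ ℕ) :
    coeff m (uN g na nx ny K i j k l Q) ≤ coeff m (uP g na nx ny K Q) := by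
  rw [chk, Bool.and_eq_true] at h
  obtain ⟨hs, -, hij, hkl⟩ := sc_spec h.1
  have h2 := h.2
  rw [c1, Bool.and_eq_true, c2, c3, ← ev_uP, ← ev_uN, ← ev_uP, ← ev_uN] at h2
  have h3 : eval ![1, 1, 1] (uP g na nx ny K Q) + eval ![1, 1, 1] (uN g na nx ny K i j k l Q)
    < 2 ^ b := by
    have h3 := Nat.le_of_ble_eq_true h2.1
    exact h3
  have hP : Bd nx (g.s * nx + ny) na (uP g na nx ny K Q) := by
    have := (bdC K).mul (bd_cv (g := g) (na := na) (nx := nx) (ny := ny) (Q := Q) hs posz)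
    simpa [uP] using this
  have hN : Bd nx (g.s * nx + ny) na (uN g na nx ny K i j k l Q) := by
    have := (bdC K).mul (bd_cv (g := g) (na := na) (nx := nx) (ny := ny) (Q := Q) hs negz)
    refine Bd.add ?_ (bd_lb hij hkl)
    simpa using this
  exact TP.Kron.coeff_le hP hN (b := b) (by omega) (by omega) rfl rfl
    (Nat.eq_of_beq_eq_true h2.2) m

theorem chk_real (h : chk g na nx ny K i j k l b Q = true) {x y z : ℝ} (hx : 0 ≤ x)
    (hy : 0 ≤ y) (hz : 0 ≤ z) : (K : ℝ) * cv g negz na nx ny x y z Q +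
      lb g na nx ny i j k l x y z ≤ (K : ℝ) * cv g posz na nx ny x y z Q := by
  have h1 := TP.Kron.real_le (chk_coeff h) (v := ![x, y, z]) (by
    intro i; fin_cases i <;> simpa)
  have h2 : ∀ f : ℤ → ℕ, eval₂Hom (Nat.castRingHom ℝ) ![x, y, z]
      (cv g f na nx ny (X 0 : MvPolynomial (Fin 3) ℕ) (X 1) (X 2) Q) = cv g f na nx ny x y z Q := by
    intro f
    rw [map_cv]
    simp
  have h3 : eval₂Hom (Nat.castRingHom ℝ) ![x, y, z]
      (lb g na nx ny i j k l (X 0 : MvPolynomial (Fin 3) ℕ) (X 1) (X 2)) =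
      lb g na nx ny i j k l x y z := by
    rw [map_lb]
    simp
  rw [← coe_eval₂Hom, uN, uP, map_add, map_mul, map_mul, h2, h2, h3, map_natCast] at h1
  exact h1

/-- coordinates -/
noncomputable def gx (g : Ch) (u v : ℝ) : ℝ :=
  ((g.q00 * (1 - u) + g.q10 * u) * (if g.s = 0 then 1 else 1 - v) +
    (g.q01 * (1 - u) + g.q11 * u) * v) / g.D

noncomputable def gy (g : Ch) (v : ℝ) : ℝ := (g.y0 * (1 - v) + g.y1 * v) / g.E

noncomputable def ga (g : Ch) (w : ℝ) : ℝ := (g.a0 * (1 - w) + g.a1 * w) / g.F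

theorem chk_open (hl : lens na nx ny Q = true) (h : chk g na nx ny K i j k l b Q = true)
    {u v w : ℝ} (hu : u ∈ Ico (0 : ℝ) 1) (hv : v ∈ Ico (0 : ℝ) 1) (hw : w ∈ Ico (0 : ℝ) 1) :
    u ^ i * (1 - u) ^ j * (v ^ k * (1 - v) ^ l) ≤
      K * g.F ^ na * g.D ^ nx * g.E ^ ny * e3 (ga g w) (gx g u v) (gy g v) Q := by
  have hsc : sc g nx ny i j k l = true := by
    rw [chk, Bool.and_eq_true] at h; exact h.1
  obtain ⟨hs, ⟨hD, hE, hF⟩, hij, hkl⟩ := sc_spec hsc
  obtain ⟨l1, l2, l3⟩ := lens_spec hl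
  have hD' : (0 : ℝ) < g.D := by exact_mod_cast hD
  have hE' : (0 : ℝ) < g.E := by exact_mod_cast hE
  have hF' : (0 : ℝ) < g.F := by exact_mod_cast hF
  have u1 : 0 < 1 - u := by linarith [hu.2]
  have v1 : 0 < 1 - v := by linarith [hv.2]
  have w1 : 0 < 1 - w := by linarith [hw.2]
  have hX : 0 ≤ u / (1 - u) := div_nonneg hu.1 u1.le
  have hY : 0 ≤ v / (1 - v) := div_nonneg hv.1 v1.le
  have hZ : 0 ≤ w / (1 - w) := div_nonneg hw.1 w1.le
  have h1 := chk_real h hX hY hZ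
  have eX : 1 + u / (1 - u) = 1 / (1 - u) := by field_simp; ring
  have eY : 1 + v / (1 - v) = 1 / (1 - v) := by field_simp; ring
  have eZ : 1 + w / (1 - w) = 1 / (1 - w) := by field_simp; ring
  have hC : fC g (u / (1 - u)) (v / (1 - v)) ≠ 0 := by
    unfold fC; rw [eX, eY]; positivity
  have hEE : fE g (v / (1 - v)) ≠ 0 := by
    unfold fE; rw [eY]; positivity
  have hGG : fG g (w / (1 - w)) ≠ 0 := by
    unfold fG; rw [eZ]; positivity
  have r1 : fA g (u / (1 - u)) (v / (1 - v)) / fC g (u / (1 - u)) (v / (1 - v)) = gx g u v := by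
    unfold fA fC gx
    rw [eX, eY]
    rcases hs with hs | ⟨hs, q1, q2⟩
    · rw [hs]; simp; field_simp
    · rw [hs, q1, q2]; simp; field_simp
  have r2 : fB g (v / (1 - v)) / fE g (v / (1 - v)) = gy g v := by
    unfold fB fE gy
    rw [eY]; field_simp
  have r3 : fF g (w / (1 - w)) / fG g (w / (1 - w)) = ga g w := by
    unfold fF fG ga
    rw [eZ]; field_simp
  unfold cv at h1
  rw [val_real _ hC hEE hGG l1 l2 l3, val_real _ hC hEE hGG l1 l2 l3, r1, r2, r3] at h1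
  have h4 := e3_sub (ga g w) (gx g u v) (gy g v) Q
  set p1 := ev (fun p => ev (fun r => ev (fun c : ℤ => ((posz c : ℕ) : ℝ)) (gy g v) r) (gx g u v) p)
    (ga g w) Q
  set n1 := ev (fun p => ev (fun r => ev (fun c : ℤ => ((negz c : ℕ) : ℝ)) (gy g v) r) (gx g u v) p)
    (ga g w) Q
  rw [h4]
  have h5 : lb g na nx ny i j k l (u / (1 - u)) (v / (1 - v)) (w / (1 - w)) ≤
      K * (fG g (w / (1 - w)) ^ na * (fC g (u / (1 - u)) (v / (1 - v)) ^ nx *
        (fE g (v / (1 - v)) ^ ny * (p1 - n1)))) := by linarith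
  have h6 : 0 < (1 - u) ^ nx * (1 - v) ^ (g.s * nx + ny) * (1 - w) ^ na := by positivity
  have h7 := mul_le_mul_of_nonneg_left h5 h6.le
  have h8 : (1 - u) ^ nx * (1 - v) ^ (g.s * nx + ny) * (1 - w) ^ na *
      lb g na nx ny i j k l (u / (1 - u)) (v / (1 - v)) (w / (1 - w)) =
      u ^ i * (1 - u) ^ j * (v ^ k * (1 - v) ^ l) := by
    unfold lb
    rw [eX, eY, eZ]
    obtain ⟨a, ha⟩ : ∃ a, nx = i + j + a := ⟨nx - (i + j), by omega⟩
    obtain ⟨c, hc⟩ : ∃ c, g.s * nx + ny = k + l + c := ⟨g.s * nx + ny - (k + l), by omega⟩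
    have a1 : nx - (i + j) = a := by omega
    have c1 : g.s * nx + ny - (k + l) = c := by omega
    rw [a1, c1, hc, ha, div_pow, div_pow, div_pow, div_pow, div_pow, pow_add, pow_add, pow_add,
      pow_add, one_pow, one_pow, one_pow]
    field_simp
  have h9 : (1 - u) ^ nx * (1 - v) ^ (g.s * nx + ny) * (1 - w) ^ na *
      (K * (fG g (w / (1 - w)) ^ na * (fC g (u / (1 - u)) (v / (1 - v)) ^ nx *
        (fE g (v / (1 - v)) ^ ny * (p1 - n1))))) =
      K * g.F ^ na * g.D ^ nx * g.E ^ ny * (p1 - n1) := by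
    unfold fG fC fE
    rw [eX, eY, eZ]
    rw [pow_add, pow_mul, mul_pow, mul_pow, mul_pow, mul_pow, div_pow, div_pow, div_pow, div_pow,
      one_pow, one_pow, one_pow, one_pow, div_pow, one_pow]
    field_simp
  rw [h8, h9] at h7
  exact h7

theorem cont_ev {α : Type} {e : α → ℝ → ℝ} {x : ℝ → ℝ} (he : ∀ a, Continuous (e a))
    (hx : Continuous x) (p : List α) : Continuous fun t => ev (fun a => e a t) (x t) p := by
  induction p with
  | nil => exact continuous_const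
  | cons a p ih => exact (he a).add (hx.mul ih)

theorem cont_e3 {a x y : ℝ → ℝ} (ha : Continuous a) (hx : Continuous x) (hy : Continuous y)
    (Q : List P2) : Continuous fun t => e3 (a t) (x t) (y t) Q :=
  cont_ev (fun p => cont_ev (fun r => cont_ev (fun _ => continuous_const) hy r) hx p) ha Q

theorem cont_gx : Continuous fun u => gx g u 0 := by unfold gx; fun_prop

theorem chk_closed (hl : lens na nx ny Q = true) (h : chk g na nx ny K i j k l b Q = true)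
    {u v w : ℝ} (hu : u ∈ Icc (0 : ℝ) 1) (hv : v ∈ Icc (0 : ℝ) 1) (hw : w ∈ Icc (0 : ℝ) 1) :
    u ^ i * (1 - u) ^ j * (v ^ k * (1 - v) ^ l) ≤
      K * g.F ^ na * g.D ^ nx * g.E ^ ny * e3 (ga g w) (gx g u v) (gy g v) Q := by
  have hif : ∀ t : ℝ → ℝ, Continuous t → Continuous fun s => if g.s = 0 then (1 : ℝ) else t s := by
    intro t ht
    split_ifs
    · exact continuous_const
    · exact ht
  have s1 : ∀ v ∈ Ico (0 : ℝ) 1, ∀ w ∈ Ico (0 : ℝ) 1, ∀ u ∈ Icc (0 : ℝ) 1,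
      0 ≤ K * g.F ^ na * g.D ^ nx * g.E ^ ny * e3 (ga g w) (gx g u v) (gy g v) Q -
        u ^ i * (1 - u) ^ j * (v ^ k * (1 - v) ^ l) := by
    intro v hv w hw
    refine nonneg_Icc_of_Ico ?_ fun u hu => sub_nonneg.2 (chk_open hl h hu hv hw)
    refine (continuous_const.mul (cont_e3 continuous_const ?_ continuous_const Q)).sub
      (by fun_prop)
    unfold gx
    fun_prop
  have s2 : ∀ w ∈ Ico (0 : ℝ) 1, ∀ u ∈ Icc (0 : ℝ) 1, ∀ v ∈ Icc (0 : ℝ) 1,
      0 ≤ K * g.F ^ na * g.D ^ nx * g.E ^ ny * e3 (ga g w) (gx g u v) (gy g v) Q -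
        u ^ i * (1 - u) ^ j * (v ^ k * (1 - v) ^ l) := by
    intro w hw u hu
    refine nonneg_Icc_of_Ico ?_ fun v hv => s1 v hv w hw u hu
    refine (continuous_const.mul (cont_e3 continuous_const ?_ ?_ Q)).sub
      (by fun_prop)
    · unfold gx
      have := hif (fun s => 1 - s) (by fun_prop)
      fun_prop
    · unfold gy
      fun_prop
  have s3 : ∀ u ∈ Icc (0 : ℝ) 1, ∀ v ∈ Icc (0 : ℝ) 1, ∀ w ∈ Icc (0 : ℝ) 1,
      0 ≤ K * g.F ^ na * g.D ^ nx * g.E ^ ny * e3 (ga g w) (gx g u v) (gy g v) Q -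
        u ^ i * (1 - u) ^ j * (v ^ k * (1 - v) ^ l) := by
    intro u hu v hv
    refine nonneg_Icc_of_Ico ?_ fun w hw => s2 w hw u hu v hv
    refine (continuous_const.mul (cont_e3 ?_ continuous_const continuous_const Q)).sub
      (by fun_prop)
    unfold ga
    fun_prop
  linarith [s3 u hu v hv w hw]

theorem chk_pos (hl : lens na nx ny Q = true) (h : chk g na nx ny K i j k l b Q = true)
    {u v w : ℝ} (hu : u ∈ Icc (0 : ℝ) 1) (hv : v ∈ Icc (0 : ℝ) 1) (hw : w ∈ Icc (0 : ℝ) 1)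
    (hm : 0 < u ^ i * (1 - u) ^ j * (v ^ k * (1 - v) ^ l)) :
    0 < e3 (ga g w) (gx g u v) (gy g v) Q := by
  have h1 := chk_closed hl h hu hv hw
  exact pos_of_mul_pos_right (lt_of_lt_of_le hm h1) (by positivity)

end sound

/-! ### Boxes -/

/-- The box `[x0/D, x1/D] × [y0/E, y1/E]`, `a ∈ [0, 1]`. -/
def box (x0 x1 D y0 y1 E : ℕ) : Ch := ⟨x0, x1, 0, 0, D, 0, y0, y1, E, 0, 1, 1⟩

/-- The chart `D x = v (x0 (1-u) + x1 u)`, `E y = y0 (1-v) + y1 v`, `a ∈ [0, 1]`. -/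
def cone (x0 x1 D y0 y1 E : ℕ) : Ch := ⟨0, 0, x0, x1, D, 1, y0, y1, E, 0, 1, 1⟩

section

variable {na nx ny K i j k l b x0 x1 D y0 y1 E : ℕ} {Q : List P2}

theorem sc_box (h : chk (box x0 x1 D y0 y1 E) na nx ny K i j k l b Q = true) :
    (0 : ℝ) < D ∧ (0 : ℝ) < E := by
  rw [chk, Bool.and_eq_true] at h
  obtain ⟨-, ⟨hD, hE, -⟩, -⟩ := sc_spec h.1
  exact ⟨by exact_mod_cast hD, by exact_mod_cast hE⟩

/-- Positivity on a box, local coordinates `u`, `v` given. -/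
theorem box_pos (hl : lens na nx ny Q = true)
    (h : chk (box x0 x1 D y0 y1 E) na nx ny K i j k l b Q = true) {a x y u v : ℝ}
    (ha : a ∈ Icc (0 : ℝ) 1) (hu : u ∈ Icc (0 : ℝ) 1) (hv : v ∈ Icc (0 : ℝ) 1)
    (hx : (D : ℝ) * x = x0 * (1 - u) + x1 * u) (hy : (E : ℝ) * y = y0 * (1 - v) + y1 * v)
    (hm : 0 < u ^ i * (1 - u) ^ j * (v ^ k * (1 - v) ^ l)) : 0 < e3 a x y Q := by
  obtain ⟨hD, hE⟩ := sc_box h
  have h1 := chk_pos hl h hu hv ha hm
  have e1 : ga (box x0 x1 D y0 y1 E) a = a := by simp [ga, box]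
  have e2 : gx (box x0 x1 D y0 y1 E) u v = x := by
    simp only [gx, box, if_true, mul_one, Nat.cast_zero, zero_mul, add_zero]
    rw [← hx]; field_simp
  have e3 : gy (box x0 x1 D y0 y1 E) v = y := by
    simp only [gy, box]
    rw [← hy]; field_simp
  rwa [e1, e2, e3] at h1

/-- Positivity on the closed box `[x0/D, x1/D] × [y0/E, y1/E]`. -/
theorem box_pos_closed (hl : lens na nx ny Q = true)
    (h : chk (box x0 x1 D y0 y1 E) na nx ny K 0 0 0 0 b Q = true) (hx01 : x0 < x1)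
    (hy01 : y0 < y1) {a x y : ℝ} (ha : a ∈ Icc (0 : ℝ) 1)
    (hx : x ∈ Icc ((x0 : ℝ) / D) (x1 / D)) (hy : y ∈ Icc ((y0 : ℝ) / E) (y1 / E)) :
    0 < e3 a x y Q := by
  obtain ⟨hD, hE⟩ := sc_box h
  have h1 : (0 : ℝ) < x1 - x0 := by
    have : (x0 : ℝ) < x1 := by exact_mod_cast hx01
    linarith
  have h2 : (0 : ℝ) < y1 - y0 := by
    have : (y0 : ℝ) < y1 := by exact_mod_cast hy01
    linarith
  have hx1 := (div_le_iff₀ hD).1 hx.1
  have hx2 := (le_div_iff₀ hD).1 hx.2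
  have hy1 := (div_le_iff₀ hE).1 hy.1
  have hy2 := (le_div_iff₀ hE).1 hy.2
  refine box_pos hl h (u := (D * x - x0) / (x1 - x0)) (v := (E * y - y0) / (y1 - y0)) ha
    ⟨div_nonneg (by linarith) h1.le, (div_le_one h1).2 (by linarith)⟩
    ⟨div_nonneg (by linarith) h2.le, (div_le_one h2).2 (by linarith)⟩ ?_ ?_ (by simp)
  · field_simp; ring
  · field_simp; ring

/-- Positivity on a cone. -/
theorem cone_pos (hl : lens na nx ny Q = true)
    (h : chk (cone x0 x1 D y0 y1 E) na nx ny K i j k l b Q = true) {a x y u v : ℝ}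
    (ha : a ∈ Icc (0 : ℝ) 1) (hu : u ∈ Icc (0 : ℝ) 1) (hv : v ∈ Icc (0 : ℝ) 1)
    (hx : (D : ℝ) * x = v * (x0 * (1 - u) + x1 * u)) (hy : (E : ℝ) * y = y0 * (1 - v) + y1 * v)
    (hm : 0 < u ^ i * (1 - u) ^ j * (v ^ k * (1 - v) ^ l)) : 0 < e3 a x y Q := by
  have hsc : sc (cone x0 x1 D y0 y1 E) nx ny i j k l = true := by
    rw [chk, Bool.and_eq_true] at h; exact h.1
  obtain ⟨-, ⟨hD, hE, -⟩, -⟩ := sc_spec hsc
  have hD : (0 : ℝ) < D := by exact_mod_cast hD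
  have hE : (0 : ℝ) < E := by exact_mod_cast hE
  have h1 := chk_pos hl h hu hv ha hm
  have e1 : ga (cone x0 x1 D y0 y1 E) a = a := by simp [ga, cone]
  have e2 : gx (cone x0 x1 D y0 y1 E) u v = x := by
    have : gx (cone x0 x1 D y0 y1 E) u v = (x0 * (1 - u) + x1 * u) * v / D := by
      simp [gx, cone]
    rw [this, mul_comm, ← hx]; field_simp
  have e3 : gy (cone x0 x1 D y0 y1 E) v = y := by
    simp only [gy, cone]
    rw [← hy]; field_simp
  rwa [e1, e2, e3] at h1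

end

/-- two variables -/
theorem e3_single (a x y : ℝ) (p : P2) : e3 a x y [p] = e2 x y p := by
  unfold e3; rw [ev_cons, ev_nil, mul_zero, add_zero]

theorem e2_box {nx ny K i j k l b x0 x1 D y0 y1 E : ℕ} {p : P2} (hl : lens 0 nx ny [p] = true)
    (h : chk (box x0 x1 D y0 y1 E) 0 nx ny K i j k l b [p] = true) {x y u v : ℝ}
    (hu : u ∈ Icc (0 : ℝ) 1) (hv : v ∈ Icc (0 : ℝ) 1)
    (hx : (D : ℝ) * x = x0 * (1 - u) + x1 * u) (hy : (E : ℝ) * y = y0 * (1 - v) + y1 * v)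
    (hm : 0 < u ^ i * (1 - u) ^ j * (v ^ k * (1 - v) ^ l)) : 0 < e2 x y p := by
  rw [← e3_single 0 x y p]
  exact box_pos hl h ⟨le_rfl, zero_le_one⟩ hu hv hx hy hm

theorem e2_box_closed {nx ny K b x0 x1 D y0 y1 E : ℕ} {p : P2} (hl : lens 0 nx ny [p] = true)
    (h : chk (box x0 x1 D y0 y1 E) 0 nx ny K 0 0 0 0 b [p] = true) (hx01 : x0 < x1)
    (hy01 : y0 < y1) {x y : ℝ} (hx : x ∈ Icc ((x0 : ℝ) / D) (x1 / D))
    (hy : y ∈ Icc ((y0 : ℝ) / E) (y1 / E)) : 0 < e2 x y p := by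
  rw [← e3_single 0 x y p]
  exact box_pos_closed hl h hx01 hy01 ⟨le_rfl, zero_le_one⟩ hx hy

end Vale.Agent.P219.D6.BoxK
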