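import Vale.Agent.P219.D6.BoxK
import Vale.Agent.P219.D4.Tools

/-! # Positivity on boxes in several charts -/

open Set

namespace Vale.Agent.P219.D6

open Vale.Agent.P219.C5 Vale.Agent.P219.D4
open Vale.Agent.P219.D6.BoxK (Ch chk lens gx gy ga chk_pos sc sc_spec)

theorem mon_pos' {u v : ℝ} {i j k l : ℕ} (hi : i = 0 ∨ 0 < u) (hj : j = 0 ∨ u < 1) (hk : k = 0 ∨ 0 < v) (hl : l = 0 ∨ v < 1) :
    0 < u ^ i * (1 - u) ^ j * (v ^ k * (1 - v) ^ l) := by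
  have h1 : 0 < u ^ i := by
    rcases hi with h | h
    · rw [h, pow_zero]; exact one_pos
    · exact pow_pos h _
  have h2 : 0 < (1 - u) ^ j := by
    rcases hj with h | h
    · rw [h, pow_zero]; exact one_pos
    · exact pow_pos (sub_pos.2 h) _
  have h3 : 0 < v ^ k := by
    rcases hk with h | h
    · rw [h, pow_zero]; exact one_pos
    · exact pow_pos h _
  have h4 : 0 < (1 - v) ^ l := by
    rcases hl with h | h
    · rw [h, pow_zero]; exact one_pos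
    · exact pow_pos (sub_pos.2 h) _
  positivity

theorem Icc_div {s t w : ℝ} (h0 : s ≤ t) (h1 : t ≤ w) (h : s < w) :
    (t - s) / (w - s) ∈ Icc (0 : ℝ) 1 :=
  ⟨div_nonneg (sub_nonneg.2 h0) (sub_nonneg.2 h.le), (div_le_one (sub_pos.2 h)).2 (by linarith)⟩

theorem pos_div {s t w : ℝ} {i : ℕ} (h : s < w) (hi : i = 0 ∨ s < t) :
    i = 0 ∨ 0 < (t - s) / (w - s) :=
  hi.imp id fun h' => div_pos (sub_pos.2 h') (sub_pos.2 h)

theorem div_lt_one' {s t w : ℝ} {i : ℕ} (h : s < w) (hi : i = 0 ∨ t < w) :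
    i = 0 ∨ (t - s) / (w - s) < 1 :=
  hi.imp id fun h' => (div_lt_one (sub_pos.2 h)).2 (by linarith)

section

variable {na nx ny K i j k l b : ℕ} {Q : List P2}

/-- Box `x0 ≤ D x ≤ x1`, `y0 ≤ E y ≤ y1`, `a0 ≤ F a ≤ a1`. -/
def cB (x0 x1 D y0 y1 E a0 a1 F : ℕ) : Ch := ⟨x0, x1, 0, 0, D, 0, y0, y1, E, a0, a1, F⟩

theorem reg_B {x0 x1 D y0 y1 E a0 a1 F : ℕ} (hl : lens na nx ny Q = true)
    (h : chk (cB x0 x1 D y0 y1 E a0 a1 F) na nx ny K i j k l b Q = true) {a x y : ℝ}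
    (hx01 : (x0 : ℝ) < x1) (hy01 : (y0 : ℝ) < y1) (ha01 : (a0 : ℝ) < a1)
    (ha0 : (a0 : ℝ) ≤ F * a) (ha1 : F * a ≤ (a1 : ℝ))
    (hx0 : (x0 : ℝ) ≤ D * x) (hx1 : D * x ≤ (x1 : ℝ))
    (hy0 : (y0 : ℝ) ≤ E * y) (hy1 : E * y ≤ (y1 : ℝ))
    (hi : i = 0 ∨ (x0 : ℝ) < D * x) (hj : j = 0 ∨ D * x < (x1 : ℝ))
    (hk : k = 0 ∨ (y0 : ℝ) < E * y) (hl' : l = 0 ∨ E * y < (y1 : ℝ)) : 0 < e3 a x y Q := by
  have hsc : sc (cB x0 x1 D y0 y1 E a0 a1 F) nx ny i j k l = true := by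
    rw [chk, Bool.and_eq_true] at h; exact h.1
  obtain ⟨-, ⟨hD, hE, hF⟩, -⟩ := sc_spec hsc
  have hD : (0 : ℝ) < D := by exact_mod_cast hD
  have hE : (0 : ℝ) < E := by exact_mod_cast hE
  have hF : (0 : ℝ) < F := by exact_mod_cast hF
  have hx2 : (0 : ℝ) < x1 - x0 := sub_pos.2 hx01
  have hy2 : (0 : ℝ) < y1 - y0 := sub_pos.2 hy01
  have ha2 : (0 : ℝ) < a1 - a0 := sub_pos.2 ha01
  have h1 := chk_pos hl h (Icc_div hx0 hx1 hx01) (Icc_div hy0 hy1 hy01) (Icc_div ha0 ha1 ha01)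
    (mon_pos' (pos_div hx01 hi) (div_lt_one' hx01 hj)
      (pos_div hy01 hk) (div_lt_one' hy01 hl'))
  have e1 : ga (cB x0 x1 D y0 y1 E a0 a1 F) ((F * a - a0) / (a1 - a0)) = a := by
    simp only [ga, cB]
    field_simp
    ring
  have e2 : gx (cB x0 x1 D y0 y1 E a0 a1 F) ((D * x - x0) / (x1 - x0))
      ((E * y - y0) / (y1 - y0)) = x := by
    simp only [gx, cB, if_true, mul_one, Nat.cast_zero, zero_mul, add_zero]
    field_simp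
    ring
  have e3 : gy (cB x0 x1 D y0 y1 E a0 a1 F) ((E * y - y0) / (y1 - y0)) = y := by
    simp only [gy, cB]
    field_simp
    ring
  rwa [e1, e2, e3] at h1

/-- Cone `x0 E y ≤ D y1 x ≤ x1 E y`, `0 < E y ≤ y1`. -/
def cC (x0 x1 D y1 E a0 a1 F : ℕ) : Ch := ⟨0, 0, x0, x1, D, 1, 0, y1, E, a0, a1, F⟩

theorem reg_C {x0 x1 D y1 E a0 a1 F : ℕ} (hl : lens na nx ny Q = true)
    (h : chk (cC x0 x1 D y1 E a0 a1 F) na nx ny K i j k l b Q = true) {a x y : ℝ}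
    (hx01 : (x0 : ℝ) < x1) (hy01 : (0 : ℝ) < y1) (ha01 : (a0 : ℝ) < a1)
    (ha0 : (a0 : ℝ) ≤ F * a) (ha1 : F * a ≤ (a1 : ℝ)) (hy0 : 0 < y)
    (hx0 : (x0 : ℝ) * (E * y) ≤ D * y1 * x) (hx1 : D * y1 * x ≤ (x1 : ℝ) * (E * y))
    (hy1 : E * y ≤ (y1 : ℝ))
    (hi : i = 0 ∨ (x0 : ℝ) * (E * y) < D * y1 * x) (hj : j = 0 ∨ D * y1 * x < (x1 : ℝ) * (E * y))
    (hl' : l = 0 ∨ E * y < (y1 : ℝ)) : 0 < e3 a x y Q := by
  have hsc : sc (cC x0 x1 D y1 E a0 a1 F) nx ny i j k l = true := by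
    rw [chk, Bool.and_eq_true] at h; exact h.1
  obtain ⟨-, ⟨hD, hE, hF⟩, -⟩ := sc_spec hsc
  have hD : (0 : ℝ) < D := by exact_mod_cast hD
  have hE : (0 : ℝ) < E := by exact_mod_cast hE
  have hF : (0 : ℝ) < F := by exact_mod_cast hF
  have hx2 : (0 : ℝ) < x1 - x0 := sub_pos.2 hx01
  have ha2 : (0 : ℝ) < a1 - a0 := sub_pos.2 ha01
  have hEy : 0 < E * y := mul_pos hE hy0
  have hxy : (x0 : ℝ) * (E * y) < x1 * (E * y) := mul_lt_mul_of_pos_right hx01 hEy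
  have hu := Icc_div hx0 hx1 hxy
  have hv : E * y / y1 ∈ Icc (0 : ℝ) 1 := ⟨by positivity, (div_le_one hy01).2 hy1⟩
  have h1 := chk_pos hl h hu hv (Icc_div ha0 ha1 ha01)
    (mon_pos' (pos_div hxy hi) (div_lt_one' hxy hj)
      (Or.inr (by positivity)) (hl'.imp id fun h' => (div_lt_one hy01).2 h'))
  have e1 : ga (cC x0 x1 D y1 E a0 a1 F) ((F * a - a0) / (a1 - a0)) = a := by
    simp only [ga, cC]
    field_simp
    ring
  have hne : (x1 : ℝ) * (E * y) - x0 * (E * y) ≠ 0 := (sub_pos.2 hxy).ne'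
  have e2 : gx (cC x0 x1 D y1 E a0 a1 F)
      ((D * y1 * x - x0 * (E * y)) / (x1 * (E * y) - x0 * (E * y))) (E * y / y1) = x := by
    have h2 : (x1 : ℝ) * (E * y) - x0 * (E * y) = (x1 - x0) * (E * y) := by ring
    simp only [gx, cC]
    rw [h2]
    simp only [Nat.cast_zero, zero_mul, one_ne_zero, if_false, zero_add]
    field_simp
    ring
  have e3 : gy (cC x0 x1 D y1 E a0 a1 F) (E * y / y1) = y := by
    simp only [gy, cC]
    rw [Nat.cast_zero, zero_mul, zero_add]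
    field_simp
  rwa [e1, e2, e3] at h1

/-- The chart `x = y + q (1 - y)`, `q0 ≤ D q ≤ q1`, `e0 ≤ E y ≤ e1`. -/
def cP (q0 q1 D e0 f0 e1 f1 E a0 a1 F : ℕ) : Ch :=
  ⟨q0 * f0 + e0 * D, q1 * f0 + e0 * D, q0 * f1 + e1 * D, q1 * f1 + e1 * D, D * E, 1, e0, e1, E,
    a0, a1, F⟩

theorem reg_P {q0 q1 D e0 f0 e1 f1 E a0 a1 F : ℕ} (hl : lens na nx ny Q = true)
    (h : chk (cP q0 q1 D e0 f0 e1 f1 E a0 a1 F) na nx ny K i j k l b Q = true) {a x y : ℝ}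
    (hq01 : (q0 : ℝ) < q1) (hy01 : (e0 : ℝ) < e1) (ha01 : (a0 : ℝ) < a1) (hf0 : e0 + f0 = E)
    (hf1 : e1 + f1 = E)
    (ha0 : (a0 : ℝ) ≤ F * a) (ha1 : F * a ≤ (a1 : ℝ)) (hy : y < 1)
    (hx0 : (q0 : ℝ) * (1 - y) ≤ D * (x - y)) (hx1 : D * (x - y) ≤ (q1 : ℝ) * (1 - y))
    (hy0 : (e0 : ℝ) ≤ E * y) (hy1 : E * y ≤ (e1 : ℝ))
    (hi : i = 0 ∨ (q0 : ℝ) * (1 - y) < D * (x - y)) (hj : j = 0 ∨ D * (x - y) < (q1 : ℝ) * (1 - y))
    (hk : k = 0 ∨ (e0 : ℝ) < E * y) (hl' : l = 0 ∨ E * y < (e1 : ℝ)) : 0 < e3 a x y Q := by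
  have hsc : sc (cP q0 q1 D e0 f0 e1 f1 E a0 a1 F) nx ny i j k l = true := by
    rw [chk, Bool.and_eq_true] at h; exact h.1
  obtain ⟨-, ⟨hDE, hE, hF⟩, -⟩ := sc_spec hsc
  have hDE : (0 : ℝ) < (D * E : ℕ) := by exact_mod_cast hDE
  have hE : (0 : ℝ) < E := by exact_mod_cast hE
  have hD : (0 : ℝ) < D := by
    rw [Nat.cast_mul] at hDE
    exact pos_of_mul_pos_left hDE hE.le
  have hF : (0 : ℝ) < F := by exact_mod_cast hF
  have hq2 : (0 : ℝ) < q1 - q0 := sub_pos.2 hq01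
  have hy2 : (0 : ℝ) < e1 - e0 := sub_pos.2 hy01
  have ha2 : (0 : ℝ) < a1 - a0 := sub_pos.2 ha01
  have h1y : 0 < 1 - y := sub_pos.2 hy
  have hxy : (q0 : ℝ) * (1 - y) < q1 * (1 - y) := mul_lt_mul_of_pos_right hq01 h1y
  have hu := Icc_div hx0 hx1 hxy
  have hv := Icc_div hy0 hy1 hy01
  have h1 := chk_pos hl h hu hv (Icc_div ha0 ha1 ha01)
    (mon_pos' (pos_div hxy hi) (div_lt_one' hxy hj) (pos_div hy01 hk)
      (div_lt_one' hy01 hl'))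
  have e1' : ga (cP q0 q1 D e0 f0 e1 f1 E a0 a1 F) ((F * a - a0) / (a1 - a0)) = a := by
    simp only [ga, cP]
    field_simp
    ring
  have hf0' : (f0 : ℝ) = E - e0 := by rw [← hf0]; push_cast; ring
  have hf1' : (f1 : ℝ) = E - e1 := by rw [← hf1]; push_cast; ring
  have e2' : gx (cP q0 q1 D e0 f0 e1 f1 E a0 a1 F)
      ((D * (x - y) - q0 * (1 - y)) / (q1 * (1 - y) - q0 * (1 - y)))
      ((E * y - e0) / (e1 - e0)) = x := by
    have h2 : (q1 : ℝ) * (1 - y) - q0 * (1 - y) = (q1 - q0) * (1 - y) := by ring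
    simp only [gx, cP]
    rw [h2]
    push_cast
    rw [hf0', hf1']
    field_simp
    ring
  have e3' : gy (cP q0 q1 D e0 f0 e1 f1 E a0 a1 F) ((E * y - e0) / (e1 - e0)) = y := by
    simp only [gy, cP]
    field_simp
    ring
  rwa [e1', e2', e3'] at h1

end

/-! ### Substitutions for the third variable -/

/-- `Q(q0 + q1 a)`. -/
def kaP (q0 q1 : P2) (Q : List P2) : List P2 :=
  List.rec (motive := fun _ => List P2) [] (fun a _ ih =>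
    kadd add2 [a] (kadd add2 (kmap (mul2 q0) ih) ([] :: kmap (mul2 q1) ih))) Q

theorem e3_kaP (q0 q1 : P2) (a x T : ℝ) (Q : List P2) :
    e3 a x T (kaP q0 q1 Q) = e3 (e2 x T q0 + e2 x T q1 * a) x T Q := by
  induction Q with
  | nil => simp [kaP, e3]
  | cons p Q ih =>
    change e3 a x T (kadd add2 [p] (kadd add2 (kmap (mul2 q0) (kaP q0 q1 Q))
      ([] :: kmap (mul2 q1) (kaP q0 q1 Q)))) = _
    have h1 : e3 a x T ([] :: kmap (mul2 q1) (kaP q0 q1 Q)) =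
        a * (e2 x T q1 * e3 a x T (kaP q0 q1 Q)) := by
      rw [← e3_kmap_mul]
      simp [e3, e2]
    have h2 : e3 a x T [p] = e2 x T p := by simp [e3]
    have h4 : e3 (e2 x T q0 + e2 x T q1 * a) x T (p :: Q) =
        e2 x T p + (e2 x T q0 + e2 x T q1 * a) * e3 (e2 x T q0 + e2 x T q1 * a) x T Q := rfl
    rw [e3_add, e3_add, h1, h2, h4, e3_kmap_mul, ih]
    ring

end Vale.Agent.P219.D6
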