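import Vale.Agent.P219.D6.Cert
import Vale.Agent.P219.D4.CertR
import Vale.Agent.P219.TPHR.CertHR

/-! # The strict certificate in dimension 6, curvature `≤ -1`, all radii -/

open Set MeasureTheory Metric

namespace Vale.Agent.P219.D6

open Vale.Agent.P219.TP Vale.Agent.P219.TPH Vale.Agent.P219.C5
open Vale.Agent.P219.D4 (curve_of_eq)

/-- The strict certificate for every radius. -/
noncomputable def certHR6' {R : ℝ} (hR : 0 < R) (h : Ineqs (Real.tanh R) (1 / Real.cosh R)) :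
    CertHR 6 1 R where
  lam := lam6 (Real.tanh R) (1 / Real.cosh R)
  s := 1
  F := 8 * Real.pi ^ 2 / 3 * ∫ t in (0 : ℝ)..1, fE (Real.tanh R) (1 / Real.cosh R) t * t *
    ((1 - t ^ 2) * √(1 - t ^ 2))
  f := fE (Real.tanh R) (1 / Real.cosh R)
  φ := phi (Real.tanh R) (1 / Real.cosh R)
  φr := phir (Real.tanh R) (1 / Real.cosh R)
  φa := phia (Real.tanh R) (1 / Real.cosh R)
  lam_pos := (certH6' hR h).lam_pos
  s_nonneg := (certH6' hR h).s_nonneg
  f_cont := (certH6' hR h).f_cont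
  f_nonneg := (certH6' hR h).f_nonneg
  hF := (certH6' hR h).hF
  balance := (certH6' hR h).balance
  nice := by
    rw [H0_six]
    exact nice6 h
  c1s r a b hr ha0 ha1 hb0 hb1 := by
    rw [H0_six]
    exact c1_lt h hr ⟨ha0, ha1⟩ ⟨hb0, hb1⟩
  c7s r a b hr ha0 ha1 hb0 hb1 := by
    rw [H0_six]
    exact c7_lt h hr ⟨ha0.le, ha1⟩ ⟨hb0.le, hb1⟩
  c6s r a b hr ha0 ha1 hb0 hb1 he := by
    rw [H0_six] at he
    have h3 := PI6_eq h hr ⟨ha0.le, ha1⟩ ⟨hb0.le, hb1⟩ ha0 hb0 he.symm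
    exact ⟨curve_of_eq rfl h.hT h3.1, curve_of_eq rfl h.hT h3.2⟩

end Vale.Agent.P219.D6
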