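import Vale.Agent.P219.TPHR.CoRigH
import Vale.Agent.P219.D6.CertR

/-! # The generalized Cartan-Hadamard conjecture in dimension 6, `K < 0` -/

namespace Vale.Agent.P219.Co

/-- Dimension 6, `K < 0`, from the list of inequalities `D6.Ineqs`. -/
theorem ch_six_of (hI : ∀ R : ℝ, 0 < R → D6.Ineqs (Real.tanh R) (1 / Real.cosh R)) {K : ℝ}
    (hK : K < 0) (M : RiemMetric 6) (hM : GeodesicallyComplete M) (hs : SecLE M K) :
    IsoperimetricIneq M K ∧
      ∀ (D : SmoothDomain 6) (r : ℝ), 0 ≤ r →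
        riemVol M D.carrier = ENNReal.ofReal (modelVol 6 K r) →
        riemArea M D = ENNReal.ofReal (modelArea 6 K r) → IsometricToBallK M K D r := by
  have hC : ∀ R : ℝ, 0 < R → Nonempty (TPH.CertH 6 1 R) := fun R hR => ⟨D6.certH6' hR (hI R hR)⟩
  exact ⟨isopH_of_cert (by norm_num) hC M hM hK hs, fun D r hr hV hA =>
    equality_hyp (by norm_num) hC (fun R hR => ⟨D6.certHR6' hR (hI R hR)⟩) M hM hK hs D r hr hV hA⟩

end Vale.Agent.P219.Co
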