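import Vale.Agent.P219.C5.Poly

/-! # The certificate in dimension 6: reduced polynomials (generated) -/

namespace Vale.Agent.P219.D6

open Vale.Agent.P219.C5

/-- `S12a`, reduced. -/
def S12al : List P2 :=
  [[[.ofNat 0, .ofNat 0, .ofNat 0, .ofNat 0, .ofNat 0, .ofNat 0, .ofNat 28980, .ofNat 45780,
      .negSucc 213389, .ofNat 241850],
    [.ofNat 0, .ofNat 0, .ofNat 0, .ofNat 0, .ofNat 0, .ofNat 107775, .ofNat 108705,
      .negSucc 560369, .ofNat 743860, .ofNat 241850],
    [.ofNat 0, .ofNat 0, .ofNat 0, .ofNat 0, .ofNat 140151, .ofNat 40380, .ofNat 36873,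
      .ofNat 66710, .ofNat 1208440, .negSucc 232049],
    [.ofNat 0, .ofNat 0, .ofNat 0, .ofNat 67350, .negSucc 21398, .ofNat 1496333, .negSucc 2115085,
      .ofNat 2058363, .negSucc 559591, .negSucc 401834],
    [.ofNat 0, .ofNat 0, .ofNat 4290, .ofNat 83172, .ofNat 1965319, .negSucc 2957188,
      .ofNat 869115, .ofNat 959463, .negSucc 1650985, .negSucc 96179],
    [.ofNat 0, .ofNat 0, .ofNat 127890, .ofNat 1219652, .negSucc 1788670, .negSucc 1251523,
      .ofNat 4814195, .negSucc 2583016, .negSucc 593215, .ofNat 186795],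
    [.ofNat 0, .ofNat 55200, .ofNat 466245, .negSucc 825822, .negSucc 1413885, .ofNat 6793076,
      .negSucc 1893559, .negSucc 1804701, .ofNat 766279, .ofNat 78295],
    [.ofNat 11040, .ofNat 91164, .negSucc 367022, .negSucc 381739, .ofNat 4869715, .negSucc 774329,
      .negSucc 3427565, .ofNat 1226399, .ofNat 377250, .negSucc 18724],
    [.negSucc 3155, .negSucc 33339, .negSucc 31643, .ofNat 2284765, .negSucc 604084,
      .negSucc 4200957, .ofNat 993618, .ofNat 737429, .negSucc 78644],
    [.ofNat 14016, .ofNat 15464, .ofNat 840316, .negSucc 632373, .negSucc 3244376, .ofNat 402012,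
      .ofNat 749832, .negSucc 123584],
    [.ofNat 45276, .ofNat 160744, .negSucc 143528, .negSucc 1515203, .ofNat 31448, .ofNat 496617,
      .negSucc 112512, .negSucc 11234],
    [.ofNat 6476, .ofNat 88904, .negSucc 392548, .ofNat 94221, .ofNat 328238, .negSucc 71532,
      .negSucc 18887, .negSucc 11234],
    [.negSucc 8787, .negSucc 39823, .ofNat 99770, .ofNat 179213, .ofNat 44083, .ofNat 5811,
      .negSucc 33704],
    [.negSucc 863, .negSucc 18311, .ofNat 36234, .ofNat 66768, .ofNat 13464, .negSucc 22469]]]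

/-- `S12b`, reduced. -/
def S12bl : List P2 :=
  [[[.ofNat 0, .ofNat 0, .ofNat 0, .ofNat 0, .ofNat 0, .ofNat 0, .ofNat 0, .ofNat 82980,
      .ofNat 59780, .negSucc 267389, .ofNat 227850],
    [.ofNat 0, .ofNat 0, .ofNat 0, .ofNat 0, .ofNat 0, .ofNat 0, .ofNat 294795, .ofNat 172925,
      .negSucc 548979, .ofNat 392010, .ofNat 227850],
    [.ofNat 0, .ofNat 0, .ofNat 0, .ofNat 0, .ofNat 0, .ofNat 381444, .ofNat 235623, .ofNat 350981,
      .negSucc 950507, .ofNat 679374, .ofNat 24990],
    [.ofNat 0, .ofNat 0, .ofNat 0, .ofNat 0, .ofNat 246771, .ofNat 372341, .ofNat 1336975,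
      .negSucc 2573524, .ofNat 369461, .ofNat 195002, .negSucc 144794],
    [.ofNat 0, .ofNat 0, .ofNat 0, .ofNat 159216, .ofNat 492851, .ofNat 329661, .negSucc 1192860,
      .negSucc 640208, .ofNat 765073, .negSucc 469341, .negSucc 69614],
    [.ofNat 0, .ofNat 0, .ofNat 134874, .ofNat 296166, .negSucc 924913, .ofNat 1118252,
      .negSucc 641126, .ofNat 1418759, .negSucc 387487, .negSucc 268426, .ofNat 11235],
    [.ofNat 0, .ofNat 65856, .ofNat 69498, .negSucc 692873, .ofNat 1072382, .ofNat 71368,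
      .ofNat 889465, .ofNat 256539, .negSucc 296303, .ofNat 31609, .negSucc 3744],
    [.ofNat 16464, .ofNat 30672, .negSucc 135202, .ofNat 413939, .negSucc 29132, .negSucc 743915,
      .ofNat 504266, .ofNat 37266, .ofNat 57621, .negSucc 5840, .negSucc 3744],
    [.ofNat 10944, .ofNat 41280, .ofNat 308037, .negSucc 302790, .negSucc 1534750, .ofNat 77520,
      .ofNat 271826, .ofNat 49809, .negSucc 279],
    [.ofNat 26964, .ofNat 116876, .negSucc 10780, .negSucc 1041664, .negSucc 157940, .ofNat 261390,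
      .negSucc 99992, .negSucc 32589, .ofNat 37450],
    [.ofNat 9468, .ofNat 99324, .negSucc 368436, .ofNat 112215, .ofNat 261159, .negSucc 246475,
      .negSucc 75278, .ofNat 59920],
    [.negSucc 5795, .negSucc 49295, .ofNat 144578, .ofNat 173071, .negSucc 67152, .negSucc 27408,
      .ofNat 3745],
    [.negSucc 863, .negSucc 18311, .ofNat 36234, .ofNat 66768, .ofNat 13464, .negSucc 22469]]]

/-- `S13`, reduced. -/
def S13l : List P2 :=
  [[[.ofNat 0, .ofNat 0, .ofNat 0, .ofNat 0, .ofNat 0, .ofNat 0, .ofNat 0, .ofNat 414900,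
      .ofNat 298900, .negSucc 1336949, .ofNat 1139250],
    [.ofNat 0, .ofNat 0, .ofNat 0, .ofNat 0, .ofNat 0, .ofNat 0, .ofNat 1453350, .ofNat 1196650,
      .negSucc 2189999, .ofNat 483100, .ofNat 2278500],
    [.ofNat 0, .ofNat 0, .ofNat 0, .ofNat 0, .ofNat 0, .ofNat 1859004, .ofNat 2493744,
      .ofNat 3859353, .negSucc 8245694, .ofNat 4099175, .ofNat 2149875],
    [.ofNat 0, .ofNat 0, .ofNat 0, .ofNat 0, .ofNat 1275516, .ofNat 3919084, .ofNat 9589750,
      .negSucc 11341223, .negSucc 5899339, .ofNat 4979950, .ofNat 808500],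
    [.ofNat 0, .ofNat 0, .ofNat 0, .ofNat 1006630, .ofNat 4173326, .ofNat 3731665, .ofNat 3796841,
      .negSucc 14950995, .ofNat 840540, .ofNat 1133025, .ofNat 93625],
    [.ofNat 0, .ofNat 0, .ofNat 905320, .ofNat 2651556, .negSucc 3480887, .ofNat 12543510,
      .negSucc 929405, .negSucc 2263015, .negSucc 1084719, .negSucc 1205949, .ofNat 187250],
    [.ofNat 0, .ofNat 470400, .ofNat 1267040, .negSucc 2815629, .ofNat 5133238, .ofNat 11617116,
      .ofNat 3036060, .ofNat 1370777, .negSucc 2853514, .negSucc 602974, .ofNat 93625],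
    [.ofNat 117600, .ofNat 652160, .ofNat 116092, .ofNat 1949500, .ofNat 3016076, .negSucc 2268385,
      .ofNat 6955942, .ofNat 1961482, .negSucc 1681349, .negSucc 374499],
    [.ofNat 186440, .ofNat 1018608, .ofNat 3386308, .negSucc 1430926, .negSucc 17292942,
      .negSucc 650458, .ofNat 9570477, .ofNat 599292, .negSucc 1527959],
    [.ofNat 419536, .ofNat 2003264, .ofNat 3201054, .negSucc 16458235, .negSucc 10990201,
      .ofNat 7741564, .ofNat 2500948, .negSucc 1225061, .negSucc 7489],
    [.ofNat 428208, .ofNat 2499936, .negSucc 4171767, .negSucc 7332404, .ofNat 1863931,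
      .ofNat 1249302, .negSucc 224761, .negSucc 35800, .negSucc 3744],
    [.ofNat 169976, .ofNat 625896, .negSucc 1510401, .ofNat 1069358, .ofNat 943234,
      .negSucc 444851, .negSucc 45833, .negSucc 14979],
    [.ofNat 54444, .negSucc 348679, .ofNat 867008, .ofNat 748963, .negSucc 379756, .negSucc 19902,
      .negSucc 11234],
    [.negSucc 7711, .negSucc 27919, .ofNat 54836, .negSucc 23927, .negSucc 22135, .ofNat 14980],
    [.negSucc 2991, .ofNat 10336, .negSucc 29487, .negSucc 19755, .ofNat 14980]]]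

/-- `S14`, reduced. -/
def S14l : List P2 :=
  [[[.ofNat 0, .ofNat 0, .ofNat 0, .ofNat 0, .ofNat 0, .ofNat 0, .ofNat 0, .ofNat 143820,
      .negSucc 979, .ofNat 253422, .negSucc 292697, .ofNat 427824, .negSucc 364559],
    [.ofNat 0, .ofNat 0, .ofNat 0, .ofNat 0, .ofNat 0, .ofNat 0, .ofNat 616530, .ofNat 449470,
      .ofNat 557478, .negSucc 151897, .ofNat 409100, .negSucc 210591, .negSucc 729119],
    [.ofNat 0, .ofNat 0, .ofNat 0, .ofNat 0, .ofNat 0, .ofNat 1034970, .ofNat 1589550,
      .ofNat 488709, .ofNat 1548129, .negSucc 2357242, .ofNat 2804469, .negSucc 1761355,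
      .negSucc 379259],
    [.ofNat 0, .ofNat 0, .ofNat 0, .ofNat 0, .ofNat 936630, .ofNat 2353750, .ofNat 73046,
      .ofNat 2103700, .negSucc 3912829, .ofNat 2759876, .ofNat 2368606, .negSucc 1369679,
      .ofNat 213150],
    [.ofNat 0, .ofNat 0, .ofNat 0, .ofNat 629390, .ofNat 2075370, .negSucc 985365, .ofNat 306746,
      .ofNat 120157, .negSucc 7192998, .ofNat 8615288, .negSucc 860615, .ofNat 475355,
      .ofNat 350315],
    [.ofNat 0, .ofNat 0, .ofNat 404660, .ofNat 1331880, .negSucc 1443233, .negSucc 965525,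
      .ofNat 3843290, .negSucc 13625777, .ofNat 2077456, .ofNat 2480650, .negSucc 1229001,
      .ofNat 1179864, .ofNat 99400],
    [.ofNat 0, .ofNat 188160, .ofNat 729760, .negSucc 424364, .negSucc 1546256, .ofNat 3388129,
      .negSucc 8267010, .negSucc 10140354, .ofNat 6754625, .negSucc 3803341, .ofNat 52254,
      .ofNat 380077, .negSucc 11234],
    [.ofNat 47040, .ofNat 357280, .ofNat 346270, .negSucc 1091315, .ofNat 1276364,
      .negSucc 4488589, .negSucc 9645435, .ofNat 10678342, .negSucc 793217, .negSucc 3765133,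
      .ofNat 190846, .negSucc 33257, .ofNat 7490],
    [.ofNat 98680, .ofNat 323760, .ofNat 152740, .negSucc 207630, .negSucc 4291082,
      .negSucc 4160569, .ofNat 12251178, .ofNat 6870765, .negSucc 5508106, .negSucc 1048294,
      .ofNat 26277, .ofNat 35801, .ofNat 3745],
    [.ofNat 88520, .ofNat 335160, .ofNat 41856, .negSucc 2357039, .negSucc 3099513, .ofNat 9935600,
      .ofNat 9945492, .negSucc 4169767, .negSucc 1877985, .ofNat 277016, .ofNat 23364,
      .ofNat 14980],
    [.ofNat 61460, .ofNat 248104, .negSucc 590139, .negSucc 1681282, .ofNat 5519453,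
      .ofNat 6288250, .negSucc 3367041, .negSucc 1614390, .ofNat 676081, .ofNat 67060],
    [.ofNat 12680, .ofNat 36264, .negSucc 216171, .ofNat 2639004, .ofNat 2514480, .negSucc 4139441,
      .negSucc 2108183, .ofNat 979196, .ofNat 321386, .negSucc 14979],
    [.ofNat 15464, .ofNat 2496, .ofNat 1339600, .ofNat 1160820, .negSucc 4112523, .negSucc 2776606,
      .ofNat 599325, .ofNat 414763, .ofNat 86135],
    [.ofNat 84320, .ofNat 345944, .ofNat 794074, .negSucc 2441735, .negSucc 2429187, .ofNat 158762,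
      .ofNat 242616, .ofNat 134820],
    [.ofNat 84880, .ofNat 489152, .negSucc 638167, .negSucc 1260427, .ofNat 191444, .ofNat 118440],
    [.ofNat 44544, .ofNat 130896, .negSucc 256547, .ofNat 277104, .ofNat 159744, .negSucc 134819],
    [.ofNat 17952, .negSucc 62015, .ofNat 176928, .ofNat 118536, .negSucc 89879]]]

/-- `T1`, reduced. -/
def T1l : List P2 :=
  [[[.ofNat 0, .ofNat 0, .ofNat 0, .ofNat 0, .ofNat 0, .ofNat 0, .ofNat 69552, .ofNat 109872,
      .negSucc 606455, .ofNat 402920, .ofNat 1069560, .negSucc 911399],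
    [.ofNat 0, .ofNat 0, .ofNat 0, .ofNat 0, .ofNat 0, .ofNat 281760, .ofNat 353712,
      .negSucc 1971207, .ofNat 1490544, .ofNat 4112320, .negSucc 2591439, .negSucc 911399],
    [.ofNat 0, .ofNat 0, .ofNat 0, .ofNat 0, .ofNat 401496, .ofNat 275160, .negSucc 1349191,
      .ofNat 1170608, .ofNat 5726938, .ofNat 90466, .negSucc 4897437, .ofNat 927570],
    [.ofNat 0, .ofNat 0, .ofNat 0, .ofNat 215400, .negSucc 48383, .ofNat 1929170, .negSucc 2033961,
      .ofNat 2279884, .ofNat 7583890, .negSucc 9474067, .ofNat 2261828, .ofNat 1315650],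
    [.ofNat 0, .ofNat 0, .ofNat 12480, .ofNat 17064, .ofNat 3360156, .negSucc 3346029,
      .negSucc 4135376, .ofNat 10314853, .negSucc 6909761, .negSucc 3265935, .ofNat 5547479,
      .ofNat 251825],
    [.ofNat 0, .ofNat 0, .ofNat 154560, .ofNat 1992414, .negSucc 457365, .negSucc 9006442,
      .ofNat 7357514, .ofNat 2498603, .negSucc 16941337, .ofNat 7926359, .ofNat 1630074,
      .negSucc 475824],
    [.ofNat 0, .ofNat 55200, .ofNat 845580, .ofNat 1069698, .negSucc 8320942, .ofNat 4424184,
      .ofNat 9029396, .negSucc 22139880, .ofNat 3239123, .ofNat 4981172, .negSucc 2000651,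
      .negSucc 230124],
    [.ofNat 11040, .ofNat 279744, .ofNat 278972, .negSucc 3300060, .ofNat 248966, .ofNat 10329640,
      .negSucc 11154425, .negSucc 4363733, .ofNat 8237126, .negSucc 2530443, .negSucc 931765,
      .negSucc 3744],
    [.ofNat 34560, .ofNat 22344, .negSucc 535037, .negSucc 2239238, .ofNat 10317334, .ofNat 981826,
      .negSucc 8175561, .ofNat 8058310, .negSucc 1106577, .negSucc 1893669, .ofNat 235180,
      .ofNat 18725],
    [.negSucc 13175, .negSucc 246191, .negSucc 906905, .ofNat 6181461, .ofNat 4899770,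
      .negSucc 6095905, .ofNat 3901804, .negSucc 346273, .negSucc 1560721, .ofNat 706818,
      .negSucc 146809, .ofNat 18725],
    [.negSucc 47423, .ofNat 26828, .ofNat 1436354, .ofNat 3920969, .negSucc 4482263,
      .negSucc 1963841, .ofNat 148181, .ofNat 582439, .ofNat 1462140, .negSucc 325661,
      .negSucc 176014],
    [.ofNat 95460, .ofNat 427044, .ofNat 1794514, .negSucc 2933568, .negSucc 4576211,
      .negSucc 1147530, .ofNat 1303980, .ofNat 3041983, .ofNat 190270, .negSucc 730274],
    [.ofNat 129924, .ofNat 537664, .ofNat 53336, .negSucc 2677164, .negSucc 2027806, .ofNat 270514,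
      .ofNat 2721178, .ofNat 693755, .negSucc 805174],
    [.ofNat 47336, .ofNat 389192, .negSucc 586123, .negSucc 424653, .negSucc 114459, .ofNat 446212,
      .ofNat 350932, .negSucc 217209],
    [.ofNat 42248, .negSucc 63247, .ofNat 58864, .negSucc 8413, .negSucc 502645, .negSucc 120513,
      .ofNat 172270],
    [.negSucc 5983, .negSucc 9247, .ofNat 44384, .negSucc 334391, .negSucc 167599, .ofNat 149800],
    [.negSucc 5983, .ofNat 20672, .negSucc 58975, .negSucc 39511, .ofNat 29960]]]

/-- `T2`, reduced. -/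
def T2l : List P2 :=
  [[[.ofNat 0, .ofNat 0, .ofNat 0, .ofNat 0, .ofNat 0, .ofNat 0, .ofNat 0, .negSucc 13967,
      .negSucc 64847, .ofNat 427824, .negSucc 364559],
    [.ofNat 0, .ofNat 0, .ofNat 0, .ofNat 0, .ofNat 0, .ofNat 0, .ofNat 1878, .negSucc 41309,
      .ofNat 929648, .negSucc 638415, .negSucc 364559],
    [.ofNat 0, .ofNat 0, .ofNat 0, .ofNat 0, .ofNat 0, .ofNat 115434, .ofNat 236136,
      .negSucc 153279, .ofNat 1228294, .negSucc 1550763, .ofNat 349860],
    [.ofNat 0, .ofNat 0, .ofNat 0, .ofNat 0, .ofNat 191496, .ofNat 292626, .negSucc 1677263,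
      .ofNat 3400724, .negSucc 1845487, .ofNat 391676, .ofNat 592410],
    [.ofNat 0, .ofNat 0, .ofNat 0, .ofNat 113480, .ofNat 58928, .negSucc 1279270, .ofNat 1988043,
      .ofNat 372626, .negSucc 2335881, .ofNat 1845035, .ofNat 137165],
    [.ofNat 0, .ofNat 0, .ofNat 20720, .ofNat 568, .negSucc 201995, .negSucc 122986,
      .ofNat 1964817, .negSucc 5848229, .ofNat 1753874, .ofNat 704509, .negSucc 250914],
    [.ofNat 0, .ofNat 0, .ofNat 28040, .ofNat 97471, .negSucc 43508, .ofNat 833809,
      .negSucc 5019890, .ofNat 236103, .ofNat 1790471, .negSucc 799786, .negSucc 110634],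
    [.ofNat 0, .ofNat 7360, .ofNat 68256, .ofNat 190215, .negSucc 254256, .negSucc 1995106,
      .negSucc 261070, .ofNat 2812647, .negSucc 926072, .negSucc 413334, .ofNat 18725],
    [.ofNat 1840, .ofNat 25184, .ofNat 27260, .negSucc 174432, .negSucc 691344, .ofNat 222293,
      .ofNat 2794261, .negSucc 530674, .negSucc 608578, .ofNat 69059, .negSucc 3744],
    [.ofNat 1840, .ofNat 5456, .negSucc 36369, .negSucc 156570, .ofNat 421751, .ofNat 1900925,
      .negSucc 188806, .negSucc 506794, .ofNat 124417, .negSucc 20820, .negSucc 3744],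
    [.negSucc 3091, .negSucc 24615, .ofNat 234446, .ofNat 433659, .ofNat 951897, .ofNat 259426,
      .negSucc 110161, .ofNat 27181, .negSucc 34598, .negSucc 14979],
    [.negSucc 10075, .ofNat 208736, .ofNat 372570, .ofNat 167275, .ofNat 648071, .ofNat 200710,
      .negSucc 302407, .ofNat 65217, .negSucc 11234],
    [.ofNat 65872, .ofNat 217112, .negSucc 178793, .ofNat 394816, .negSucc 20859, .negSucc 851977,
      .ofNat 29068, .ofNat 179760],
    [.ofNat 75520, .negSucc 107455, .ofNat 49664, .negSucc 121695, .negSucc 1245791,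
      .negSucc 319399, .ofNat 449400],
    [.negSucc 17951, .negSucc 9791, .ofNat 71136, .negSucc 826247, .negSucc 384263, .ofNat 359520],
    [.negSucc 17951, .ofNat 62016, .negSucc 176927, .negSucc 118535, .ofNat 89880]]]

/-- `T3`, reduced. -/
def T3l : List P2 :=
  [[[.ofNat 0, .ofNat 0, .ofNat 0, .ofNat 0, .ofNat 0, .ofNat 0, .ofNat 0, .ofNat 0,
      .negSucc 55871, .negSucc 259391, .ofNat 1711296, .negSucc 1458239],
    [.ofNat 0, .ofNat 0, .ofNat 0, .ofNat 0, .ofNat 0, .ofNat 0, .ofNat 0, .negSucc 77234,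
      .negSucc 596528, .ofNat 5528896, .negSucc 2496607, .negSucc 2916479],
    [.ofNat 0, .ofNat 0, .ofNat 0, .ofNat 0, .ofNat 0, .ofNat 0, .ofNat 356631, .ofNat 397923,
      .ofNat 4066472, .ofNat 6673042, .negSucc 11580675, .negSucc 408659],
    [.ofNat 0, .ofNat 0, .ofNat 0, .ofNat 0, .ofNat 0, .ofNat 1055910, .ofNat 2327532,
      .negSucc 4380943, .ofNat 19684688, .negSucc 11899006, .negSucc 4886543, .ofNat 2705535],
    [.ofNat 0, .ofNat 0, .ofNat 0, .ofNat 0, .ofNat 1088692, .ofNat 2644048, .negSucc 7929603,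
      .ofNat 13404512, .ofNat 9398345, .negSucc 16974887, .ofNat 9455173, .ofNat 2051560],
    [.ofNat 0, .ofNat 0, .ofNat 0, .ofNat 485000, .ofNat 1477744, .negSucc 3809627,
      .negSucc 3816805, .ofNat 26411457, .negSucc 26411747, .ofNat 6129626, .ofNat 9180061,
      .negSucc 33459],
    [.ofNat 0, .ofNat 0, .ofNat 72520, .ofNat 582128, .negSucc 343202, .negSucc 6634674,
      .ofNat 16410888, .negSucc 19882244, .negSucc 15833266, .ofNat 16066658, .ofNat 348271,
      .negSucc 612464],
    [.ofNat 0, .ofNat 0, .ofNat 170680, .ofNat 370873, .negSucc 697196, .ofNat 1817087,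
      .negSucc 6947244, .negSucc 30344982, .ofNat 14147387, .ofNat 2641345, .negSucc 2741912,
      .negSucc 156589],
    [.ofNat 0, .ofNat 18400, .ofNat 276140, .ofNat 884942, .negSucc 597708, .negSucc 2323692,
      .negSucc 20217402, .ofNat 7596907, .ofNat 6764113, .negSucc 4758664, .negSucc 753744,
      .ofNat 18725],
    [.ofNat 3680, .ofNat 72448, .ofNat 269152, .ofNat 253594, .negSucc 2154391, .negSucc 6097282,
      .ofNat 3965993, .ofNat 8868125, .negSucc 4007316, .negSucc 1468384, .ofNat 93625],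
    [.ofNat 7360, .ofNat 74236, .ofNat 38211, .negSucc 905384, .negSucc 1529394, .ofNat 2455223,
      .ofNat 6443016, .negSucc 1976717, .negSucc 1362002, .ofNat 176015],
    [.ofNat 588, .ofNat 2956, .negSucc 139089, .negSucc 555560, .ofNat 1327657, .ofNat 2613221,
      .negSucc 918553, .negSucc 477715, .ofNat 102819, .negSucc 22469],
    [.negSucc 9675, .negSucc 54223, .negSucc 105005, .ofNat 719144, .ofNat 794974, .negSucc 116856,
      .ofNat 1186799, .ofNat 317652, .negSucc 482252, .negSucc 11234],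
    [.negSucc 10075, .negSucc 78871, .ofNat 315542, .ofNat 311306, .ofNat 360087, .ofNat 3346480,
      .ofNat 1774059, .negSucc 1101884, .negSucc 280874],
    [.negSucc 4823, .ofNat 65100, .ofNat 130059, .negSucc 54479, .ofNat 3334602, .ofNat 3378087,
      .negSucc 649925, .negSucc 808919],
    [.ofNat 17952, .ofNat 117504, .negSucc 263711, .ofNat 1267656, .ofNat 2864760, .ofNat 286560,
      .negSucc 898799],
    [.ofNat 35904, .negSucc 34271, .ofNat 43776, .ofNat 1121712, .ofNat 412920, .negSucc 449399],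
    [.ofNat 17952, .negSucc 62015, .ofNat 176928, .ofNat 118536, .negSucc 89879]]]

/-- `J1`, reduced. -/
def J1l : List P2 :=
  [[[.ofNat 0, .ofNat 0, .ofNat 0, .ofNat 0, .ofNat 0, .ofNat 0, .ofNat 0, .ofNat 0,
      .negSucc 69839, .negSucc 324239, .ofNat 2139120, .negSucc 1822799],
    [.ofNat 0, .ofNat 0, .ofNat 0, .ofNat 0, .ofNat 0, .ofNat 0, .ofNat 0, .negSucc 89324,
      .negSucc 716654, .ofNat 6821520, .negSucc 3071759, .negSucc 3645599],
    [.ofNat 0, .ofNat 0, .ofNat 0, .ofNat 0, .ofNat 0, .ofNat 0, .ofNat 473943, .ofNat 580659,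
      .ofNat 4736682, .ofNat 8620392, .negSucc 14498975, .negSucc 423359],
    [.ofNat 0, .ofNat 0, .ofNat 0, .ofNat 0, .ofNat 0, .ofNat 1362840, .ofNat 2973606,
      .negSucc 6016661, .ofNat 25090074, .negSucc 14705380, .negSucc 6060331, .ofNat 3647805],
    [.ofNat 0, .ofNat 0, .ofNat 0, .ofNat 0, .ofNat 1393668, .ofNat 3302532, .negSucc 10357376,
      .ofNat 16962735, .ofNat 12554501, .negSucc 22315345, .ofNat 12634154, .ofNat 2781135],
    [.ofNat 0, .ofNat 0, .ofNat 0, .ofNat 619200, .ofNat 1842216, .negSucc 4939340,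
      .negSucc 4908284, .ofNat 34137667, .negSucc 36068721, .ofNat 7784329, .ofNat 12459180,
      .negSucc 147209],
    [.ofNat 0, .ofNat 0, .ofNat 93240, .ofNat 744936, .negSucc 388231, .negSucc 8282437,
      .ofNat 21074570, .negSucc 28412922, .negSucc 22027401, .ofNat 22160547, .ofNat 139243,
      .negSucc 974014],
    [.ofNat 0, .ofNat 0, .ofNat 226800, .ofNat 565208, .negSucc 655015, .ofNat 2230143,
      .negSucc 11163616, .negSucc 41238071, .ofNat 20740482, .ofNat 3410465, .negSucc 4316584,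
      .negSucc 248499],
    [.ofNat 0, .ofNat 27600, .ofNat 404980, .ofNat 1268144, .negSucc 879692, .negSucc 4430592,
      .negSucc 27271178, .ofNat 13178847, .ofNat 9910483, .negSucc 7506438, .negSucc 1189930,
      .ofNat 33705],
    [.ofNat 5520, .ofNat 108672, .ofNat 395308, .ofNat 260266, .negSucc 3430997, .negSucc 8139690,
      .ofNat 8622401, .ofNat 13755551, .negSucc 6579438, .negSucc 2296822, .ofNat 156843,
      .negSucc 7489],
    [.ofNat 11040, .ofNat 103624, .ofNat 9941, .negSucc 1038312, .negSucc 1521900, .ofNat 5952089,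
      .ofNat 11208821, .negSucc 3313156, .negSucc 2325778, .ofNat 314071, .negSucc 43290,
      .negSucc 3744],
    [.negSucc 663, .negSucc 29371, .ofNat 243106, .ofNat 328543, .ofNat 3302239, .ofNat 6373540,
      .negSucc 757386, .negSucc 1369899, .ofNat 285035, .negSucc 104104, .negSucc 18724],
    [.negSucc 22843, .ofNat 185692, .ofNat 927858, .ofNat 1513854, .ofNat 2957033, .ofNat 970490,
      .ofNat 122961, .ofNat 136710, .negSucc 283109, .negSucc 37449],
    [.ofNat 45720, .ofNat 488368, .ofNat 618974, .ofNat 744267, .ofNat 1260418, .ofNat 1428560,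
      .ofNat 329341, .negSucc 378439, .negSucc 112349],
    [.ofNat 136568, .ofNat 232324, .negSucc 116318, .ofNat 339440, .ofNat 1120006, .ofNat 576653,
      .negSucc 131337, .negSucc 179759],
    [.ofNat 75520, .negSucc 35647, .negSucc 90687, .ofNat 213920, .ofNat 289920, .ofNat 32296,
      .negSucc 89879]]]

/-- `J2`, reduced. -/
def J2l : List P2 :=
  [[[.ofNat 0, .ofNat 0, .ofNat 0, .ofNat 0, .ofNat 0, .ofNat 0, .ofNat 0, .ofNat 0,
      .negSucc 13967, .negSucc 64847, .ofNat 427824, .negSucc 364559],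
    [.ofNat 0, .ofNat 0, .ofNat 0, .ofNat 0, .ofNat 0, .ofNat 0, .ofNat 0, .ofNat 15846,
      .ofNat 23538, .ofNat 501824, .negSucc 273855, .negSucc 364559],
    [.ofNat 0, .ofNat 0, .ofNat 0, .ofNat 0, .ofNat 0, .ofNat 0, .ofNat 133644, .ofNat 305614,
      .negSucc 1243361, .ofNat 2003420, .negSucc 1186203, .ofNat 349860],
    [.ofNat 0, .ofNat 0, .ofNat 0, .ofNat 0, .ofNat 0, .ofNat 111576, .ofNat 61632,
      .negSucc 1669917, .ofNat 2254126, .negSucc 158013, .ofNat 41816, .ofNat 592410],
    [.ofNat 0, .ofNat 0, .ofNat 0, .ofNat 0, .negSucc 73399, .negSucc 265699, .ofNat 750620,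
      .negSucc 2152493, .ofNat 2675767, .negSucc 2879702, .ofNat 1252625, .ofNat 137165],
    [.ofNat 0, .ofNat 0, .ofNat 0, .negSucc 99605, .negSucc 10005, .ofNat 1456974,
      .negSucc 3022321, .ofNat 1819203, .negSucc 3472915, .negSucc 388835, .ofNat 567344,
      .negSucc 250914],
    [.ofNat 0, .ofNat 0, .negSucc 4507, .ofNat 90478, .ofNat 190140, .ofNat 112256,
      .negSucc 1654923, .ofNat 2172189, .negSucc 2115655, .ofNat 1015612, .negSucc 548871,
      .negSucc 110634],
    [.ofNat 0, .ofNat 14112, .negSucc 17699, .negSucc 244503, .ofNat 447138, .negSucc 1453783,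
      .ofNat 4856994, .negSucc 688470, .ofNat 706156, .ofNat 45914, .negSucc 302699,
      .ofNat 18725],
    [.ofNat 4704, .negSucc 3431, .negSucc 139165, .negSucc 179421, .ofNat 302731, .ofNat 1760571,
      .ofNat 669955, .negSucc 758581, .ofNat 757186, .negSucc 120693, .ofNat 50334,
      .negSucc 3744],
    [.ofNat 104, .negSucc 42879, .ofNat 48186, .ofNat 256251, .ofNat 231680, .ofNat 34352,
      .negSucc 1920927, .ofNat 573160, .ofNat 335328, .ofNat 32888, .negSucc 17075,
      .negSucc 3744],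
    [.ofNat 1808, .ofNat 23824, .ofNat 35014, .ofNat 337743, .negSucc 584355, .negSucc 1773407,
      .ofNat 408274, .ofNat 541874, .negSucc 102182, .negSucc 2542, .negSucc 11234],
    [.ofNat 3384, .ofNat 67408, .ofNat 97894, .negSucc 390322, .negSucc 1216839, .ofNat 258632,
      .ofNat 257656, .negSucc 274646, .ofNat 61164, .ofNat 14980],
    [.ofNat 7752, .ofNat 156, .negSucc 76843, .negSucc 741626, .ofNat 386852, .ofNat 165254,
      .negSucc 586195, .negSucc 73398, .ofNat 134820],
    [.negSucc 28283, .negSucc 57499, .negSucc 431827, .ofNat 744305, .ofNat 752164,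
      .negSucc 462769, .negSucc 193719, .ofNat 93625],
    [.negSucc 48635, .negSucc 201671, .ofNat 242920, .ofNat 812441, .ofNat 92725, .negSucc 84892,
      .negSucc 48684],
    [.negSucc 21871, .negSucc 139695, .ofNat 297472, .negSucc 6955, .negSucc 113727, .ofNat 44940],
    [.negSucc 14959, .ofNat 51680, .negSucc 147439, .negSucc 98779, .ofNat 74900]]]

end Vale.Agent.P219.D6
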