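import Vale.Agent.P219.C5.Poly

/-! # The certificate in dimension 6: reduced polynomials (generated) -/

namespace Vale.Agent.P219.D6

open Vale.Agent.P219.C5

/-- `V0`, reduced. -/
def V0l : List P2 :=
  [[[.ofNat 0, .ofNat 0, .ofNat 0, .ofNat 0, .ofNat 0, .ofNat 0, .ofNat 34776, .ofNat 54936,
      .negSucc 319823, .ofNat 189504, .ofNat 642258, .negSucc 487269],
    [.ofNat 0, .ofNat 0, .ofNat 0, .ofNat 0, .ofNat 0, .ofNat 140880, .ofNat 176856,
      .negSucc 1060333, .ofNat 702046, .ofNat 2479194, .negSucc 1290091, .negSucc 487269],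
    [.ofNat 0, .ofNat 0, .ofNat 0, .ofNat 0, .ofNat 200748, .ofNat 137580, .negSucc 861405,
      .ofNat 435528, .ofNat 3831439, .ofNat 355527, .negSucc 3389710, .ofNat 1078315],
    [.ofNat 0, .ofNat 0, .ofNat 0, .ofNat 107700, .negSucc 24191, .ofNat 616630, .negSucc 1382855,
      .ofNat 2684183, .ofNat 4362874, .negSucc 8030957, .ofNat 2682974, .ofNat 1320865],
    [.ofNat 0, .ofNat 0, .ofNat 6240, .ofNat 8532, .ofNat 1252710, .negSucc 2077263,
      .negSucc 1132969, .ofNat 6081025, .negSucc 7800322, .negSucc 2781532, .ofNat 6282623,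
      .negSucc 509039],
    [.ofNat 0, .ofNat 0, .ofNat 77280, .ofNat 690132, .negSucc 461585, .negSucc 5516107,
      .ofNat 5877274, .negSucc 253245, .negSucc 16020453, .ofNat 10582482, .negSucc 616523,
      .negSucc 1204349],
    [.ofNat 0, .ofNat 27600, .ofNat 284580, .ofNat 304992, .negSucc 6140120, .ofNat 4906477,
      .ofNat 7783059, .negSucc 21020400, .ofNat 6134616, .ofNat 5497742, .negSucc 5101793,
      .negSucc 284549],
    [.ofNat 5520, .ofNat 81072, .negSucc 108523, .negSucc 3069740, .ofNat 1192474, .ofNat 11519374,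
      .negSucc 12959809, .negSucc 3914676, .ofNat 17801548, .negSucc 7387897, .negSucc 1701467,
      .ofNat 426930],
    [.ofNat 5520, .negSucc 100367, .negSucc 1016293, .negSucc 1227370, .ofNat 10445579,
      .negSucc 3877610, .negSucc 9346904, .ofNat 22081988, .negSucc 3449286, .negSucc 4950022,
      .ofNat 1835817, .ofNat 195055],
    [.negSucc 30767, .negSucc 377447, .negSucc 542037, .ofNat 4886892, .ofNat 1863418,
      .negSucc 8991957, .ofNat 11835738, .ofNat 2383517, .negSucc 8011377, .ofNat 2759112,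
      .ofNat 875978, .negSucc 63664],
    [.negSucc 52391, .negSucc 60667, .ofNat 909596, .ofNat 3728506, .negSucc 8258243,
      .negSucc 901689, .ofNat 4624406, .negSucc 7326010, .ofNat 1886787, .ofNat 1622883,
      .negSucc 306642, .ofNat 7490],
    [.ofNat 35388, .ofNat 324532, .ofNat 1989596, .negSucc 4567003, .negSucc 6129603,
      .ofNat 2830630, .negSucc 2703063, .ofNat 308394, .ofNat 1101952, .negSucc 409421,
      .ofNat 49132, .ofNat 7490],
    [.ofNat 79284, .ofNat 516052, .negSucc 217661, .negSucc 4826519, .ofNat 2572339,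
      .ofNat 2487815, .negSucc 1517772, .negSucc 474306, .negSucc 141097, .ofNat 65900,
      .ofNat 37450],
    [.ofNat 19444, .ofNat 187332, .negSucc 1939981, .ofNat 2445465, .ofNat 4055834,
      .negSucc 1233439, .negSucc 1011737, .ofNat 1963, .ofNat 63412, .ofNat 7490],
    [.negSucc 11467, .negSucc 454967, .ofNat 233972, .ofNat 2170825, .negSucc 236846,
      .negSucc 714818, .ofNat 446773, .ofNat 167242, .negSucc 142309],
    [.negSucc 29583, .negSucc 215487, .ofNat 523668, .negSucc 493443, .negSucc 496343,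
      .ofNat 633992, .ofNat 167600, .negSucc 149799],
    [.negSucc 20943, .ofNat 72352, .negSucc 200431, .negSucc 158963, .ofNat 163836, .ofNat 39512,
      .negSucc 29959]],
    [[.ofNat 0, .ofNat 0, .ofNat 0, .ofNat 0, .ofNat 0, .ofNat 0, .negSucc 69551, .negSucc 109871,
      .ofNat 681264, .negSucc 398831, .negSucc 1015559, .ofNat 722344, .ofNat 588258,
      .negSucc 501269],
    [.ofNat 0, .ofNat 0, .ofNat 0, .ofNat 0, .ofNat 0, .negSucc 281759, .negSucc 353711,
      .ofNat 2378248, .negSucc 1262695, .negSucc 4173581, .ofNat 2222510, .ofNat 2742034,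
      .negSucc 1414091, .negSucc 501269],
    [.ofNat 0, .ofNat 0, .ofNat 0, .ofNat 0, .negSucc 401495, .negSucc 275159, .ofNat 2289380,
      .negSucc 316115, .negSucc 6911863, .ofNat 1185894, .ofNat 5864321, .negSucc 301782,
      .negSucc 2665670, .ofNat 491715],
    [.ofNat 0, .ofNat 0, .ofNat 0, .negSucc 215399, .ofNat 48384, .negSucc 685759, .ofNat 3421140,
      .negSucc 5449205, .negSucc 3484793, .ofNat 7530589, .ofNat 3111656, .negSucc 5574467,
      .ofNat 1160014, .ofNat 734265],
    [.ofNat 0, .ofNat 0, .negSucc 12479, .negSucc 17063, .negSucc 2284483, .ofNat 4599540,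
      .ofNat 475366, .negSucc 6744763, .ofNat 5601681, .ofNat 5451596, .negSucc 5828980,
      .negSucc 2092322, .ofNat 3076378, .ofNat 151935],
    [.ofNat 0, .ofNat 0, .negSucc 154559, .negSucc 1327263, .ofNat 1245108, .ofNat 7482656,
      .negSucc 7271801, .negSucc 1131938, .ofNat 6747458, .negSucc 1323612, .negSucc 9616047,
      .ofNat 3913955, .ofNat 952234, .negSucc 268484],
    [.ofNat 0, .negSucc 55199, .negSucc 540199, .negSucc 514631, .ofNat 9106410, .negSucc 6116069,
      .negSucc 9549980, .ofNat 6219274, .ofNat 5507455, .negSucc 10273113, .ofNat 195812,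
      .ofNat 2716417, .negSucc 1131955, .negSucc 125614],
    [.negSucc 11039, .negSucc 162143, .ofNat 144328, .ofNat 4580316, .negSucc 1417753,
      .negSucc 14342090, .ofNat 307694, .ofNat 13029967, .ofNat 1765034, .negSucc 5895445,
      .ofNat 3615432, .negSucc 941686, .negSucc 532353, .ofNat 3745],
    [.negSucc 11039, .ofNat 163936, .ofNat 1377448, .ofNat 1769812, .negSucc 14272508,
      .negSucc 6022193, .ofNat 19077329, .ofNat 14872844, .negSucc 10280909, .ofNat 603210,
      .ofNat 1241425, .negSucc 879827, .ofNat 120287, .ofNat 7490],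
    [.ofNat 54176, .ofNat 529200, .ofNat 774480, .negSucc 7743448, .negSucc 8276873,
      .ofNat 15164373, .ofNat 21283062, .negSucc 10948357, .negSucc 9046739, .ofNat 2934373,
      .ofNat 364754, .ofNat 256021, .negSucc 70707, .ofNat 7490],
    [.ofNat 73904, .ofNat 71520, .negSucc 1671969, .negSucc 7549946, .ofNat 8058782,
      .ofNat 23030119, .negSucc 10161863, .negSucc 21500023, .ofNat 1898771, .ofNat 3039714,
      .ofNat 643477, .negSucc 193671, .negSucc 82389],
    [.negSucc 70223, .negSucc 479239, .negSucc 4636205, .ofNat 2355431, .ofNat 18367308,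
      .negSucc 2286906, .negSucc 24299115, .negSucc 2239058, .ofNat 5203706, .ofNat 1511405,
      .negSucc 222067, .negSucc 367009],
    [.negSucc 120215, .negSucc 1878859, .negSucc 2269709, .ofNat 9001487, .ofNat 4475100,
      .negSucc 16363028, .negSucc 1838370, .ofNat 7358096, .ofNat 1142467, .negSucc 348753,
      .negSucc 576729],
    [.negSucc 286499, .negSucc 1594963, .ofNat 2356230, .ofNat 2031091, .negSucc 7814821,
      .ofNat 1020894, .ofNat 7522694, .ofNat 371229, .negSucc 590631, .negSucc 419439],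
    [.negSucc 255587, .ofNat 382616, .ofNat 424996, .negSucc 2713668, .ofNat 246619,
      .ofNat 4347053, .negSucc 275706, .negSucc 847719, .ofNat 149800],
    [.ofNat 29584, .ofNat 215488, .negSucc 570867, .ofNat 80964, .ofNat 1442944, .negSucc 970591,
      .negSucc 736319, .ofNat 449400],
    [.ofNat 20944, .negSucc 72351, .ofNat 170512, .ofNat 262324, .negSucc 458715, .negSucc 237071,
      .ofNat 179760]],
    [[.ofNat 0, .ofNat 0, .ofNat 0, .ofNat 0, .ofNat 0, .ofNat 0, .ofNat 34776, .ofNat 54936,
      .negSucc 361439, .ofNat 209328, .ofNat 380142, .negSucc 309833, .negSucc 53477,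
      .ofNat 45570],
    [.ofNat 0, .ofNat 0, .ofNat 0, .ofNat 0, .ofNat 0, .ofNat 140880, .ofNat 176856,
      .negSucc 1317913, .ofNat 560650, .ofNat 1811088, .negSucc 967877, .negSucc 679623,
      .ofNat 230372, .ofNat 45570],
    [.ofNat 0, .ofNat 0, .ofNat 0, .ofNat 0, .ofNat 200748, .ofNat 137580, .negSucc 1427973,
      .negSucc 119411, .ofNat 3481165, .negSucc 961940, .negSucc 2482699, .ofNat 928338,
      .ofNat 228761, .ofNat 15435],
    [.ofNat 0, .ofNat 0, .ofNat 0, .ofNat 107700, .negSucc 24191, .ofNat 69130, .negSucc 2038283,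
      .ofNat 3230923, .ofNat 50360, .negSucc 3895080, .ofNat 2289270, .ofNat 229343,
      .negSucc 277153, .ofNat 257985],
    [.ofNat 0, .ofNat 0, .ofNat 6240, .ofNat 8532, .ofNat 1031774, .negSucc 2522275, .ofNat 598464,
      .ofNat 631899, .negSucc 2262797, .ofNat 3848247, .negSucc 274751, .negSucc 2048966,
      .ofNat 901072, .ofNat 82565],
    [.ofNat 0, .ofNat 0, .ofNat 77280, .ofNat 637132, .negSucc 783521, .negSucc 2563147,
      .ofNat 487988, .ofNat 2411445, .ofNat 5170616, .negSucc 2275748, .negSucc 5522527,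
      .ofNat 2095835, .ofNat 570166, .negSucc 305514],
    [.ofNat 0, .ofNat 27600, .ofNat 255620, .ofNat 209640, .negSucc 3516888, .ofNat 570473,
      .ofNat 6077772, .ofNat 6197017, .negSucc 5833260, .negSucc 9119997, .ofNat 4238762,
      .ofNat 2238153, .negSucc 1222003, .negSucc 122884],
    [.ofNat 5520, .ofNat 81072, .negSucc 35803, .negSucc 1745774, .negSucc 4519, .ofNat 5779487,
      .ofNat 7494456, .negSucc 9473889, .negSucc 13045801, .ofNat 7878154, .ofNat 6329276,
      .negSucc 2590202, .negSucc 743125, .ofNat 71155],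
    [.ofNat 5520, .negSucc 63567, .negSucc 408193, .negSucc 648200, .ofNat 4646510, .ofNat 6974715,
      .negSucc 11681933, .negSucc 14932301, .ofNat 10053707, .ofNat 9848953, .negSucc 2661611,
      .negSucc 1134656, .ofNat 46003, .negSucc 44939],
    [.negSucc 23407, .negSucc 151751, .negSucc 261081, .ofNat 2843837, .ofNat 3549116,
      .negSucc 7350934, .negSucc 10692859, .ofNat 5054741, .ofNat 8494898, .negSucc 158234,
      .negSucc 1191311, .negSucc 192715, .ofNat 124648, .negSucc 44939],
    [.negSucc 21511, .negSucc 10851, .ofNat 716694, .ofNat 654361, .negSucc 1628657,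
      .negSucc 4473808, .ofNat 177698, .ofNat 5478975, .ofNat 1872522, .negSucc 2004486,
      .negSucc 1311483, .ofNat 355812, .ofNat 194740],
    [.ofNat 34836, .ofNat 154708, .negSucc 209989, .negSucc 522066, .negSucc 1255023,
      .negSucc 789762, .ofNat 2839700, .ofNat 4759865, .negSucc 996457, .negSucc 4711262,
      .negSucc 413063, .ofNat 1108520],
    [.ofNat 40932, .negSucc 77191, .negSucc 203387, .negSucc 127966, .negSucc 1800418,
      .negSucc 117265, .ofNat 6733314, .ofNat 1690241, .negSucc 6358318, .negSucc 1367815,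
      .ofNat 1587880],
    [.negSucc 20943, .negSucc 32367, .ofNat 212192, .negSucc 1082515, .negSucc 1044151,
      .ofNat 3645536, .ofNat 1858504, .negSucc 3429451, .negSucc 1005599, .ofNat 898800],
    [.negSucc 20943, .ofNat 72352, .negSucc 149567, .negSucc 334675, .ofNat 629228, .ofNat 499396,
      .negSucc 638475, .negSucc 237071, .ofNat 179760]]]

/-- `V1`, reduced. -/
def V1l : List P2 :=
  [[[.ofNat 0, .ofNat 0, .ofNat 0, .ofNat 0, .ofNat 0, .ofNat 0, .ofNat 0, .ofNat 103788,
      .ofNat 49868, .negSucc 174401, .ofNat 71862, .ofNat 427824, .negSucc 364559],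
    [.ofNat 0, .ofNat 0, .ofNat 0, .ofNat 0, .ofNat 0, .ofNat 0, .ofNat 398652, .ofNat 236960,
      .negSucc 385189, .ofNat 233096, .ofNat 1066358, .negSucc 638415, .negSucc 364559],
    [.ofNat 0, .ofNat 0, .ofNat 0, .ofNat 0, .ofNat 0, .ofNat 559854, .ofNat 425082, .ofNat 283477,
      .negSucc 280580, .negSucc 226756, .ofNat 1680949, .negSucc 1550763, .ofNat 349860],
    [.ofNat 0, .ofNat 0, .ofNat 0, .ofNat 0, .ofNat 386406, .ofNat 563264, .ofNat 710540,
      .negSucc 1578476, .negSucc 2663912, .ofNat 4087027, .negSucc 1392832, .ofNat 391676,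
      .ofNat 592410],
    [.ofNat 0, .ofNat 0, .ofNat 0, .ofNat 237040, .ofNat 654582, .negSucc 1008610, .negSucc 808766,
      .negSucc 2557406, .ofNat 291777, .ofNat 2459613, .negSucc 3016526, .ofNat 1845035,
      .ofNat 137165],
    [.ofNat 0, .ofNat 0, .ofNat 197260, .ofNat 405284, .negSucc 2345177, .ofNat 1494473,
      .negSucc 367048, .negSucc 4559034, .ofNat 5614183, .negSucc 6447470, .ofNat 474939,
      .ofNat 704509, .negSucc 250914],
    [.ofNat 0, .ofNat 94080, .ofNat 94660, .negSucc 1443565, .ofNat 1121736, .ofNat 1914585,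
      .negSucc 5329552, .ofNat 3510958, .ofNat 528836, .negSucc 3639169, .ofNat 1529056,
      .negSucc 799786, .negSucc 110634],
    [.ofNat 23520, .ofNat 45920, .negSucc 436113, .ofNat 21656, .ofNat 2618252, .negSucc 6437300,
      .ofNat 695921, .ofNat 12022648, .negSucc 4771295, .ofNat 1156052, .negSucc 131047,
      .negSucc 413334, .ofNat 18725],
    [.ofNat 16160, .negSucc 61375, .ofNat 214538, .ofNat 1023925, .negSucc 5444158, .ofNat 316450,
      .ofNat 13482584, .negSucc 2739580, .negSucc 2267888, .ofNat 1847993, .negSucc 271458,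
      .ofNat 69059, .negSucc 3744],
    [.ofNat 7160, .ofNat 102600, .ofNat 123914, .negSucc 2036234, .negSucc 495978, .ofNat 8955296,
      .negSucc 2095387, .negSucc 7668716, .ofNat 2584461, .ofNat 932797, .ofNat 19557,
      .negSucc 20820, .negSucc 3744],
    [.negSucc 1135, .ofNat 91992, .negSucc 622361, .negSucc 203632, .ofNat 5228235,
      .negSucc 2773222, .negSucc 9665534, .ofNat 1689291, .ofNat 1893497, .negSucc 125916,
      .negSucc 27108, .negSucc 14979],
    [.negSucc 36943, .negSucc 148191, .ofNat 284712, .ofNat 1976815, .negSucc 619538,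
      .negSucc 6175680, .ofNat 523019, .ofNat 1987729, .negSucc 316412, .negSucc 102860,
      .negSucc 3744],
    [.negSucc 10699, .negSucc 138951, .ofNat 378496, .ofNat 690733, .negSucc 2074872,
      .ofNat 1001689, .ofNat 2163117, .negSucc 572019, .negSucc 224909],
    [.ofNat 7924, .ofNat 5224, .negSucc 184895, .negSucc 366250, .ofNat 727769, .ofNat 1491461,
      .negSucc 71006, .negSucc 174593, .negSucc 52429],
    [.negSucc 2991, .negSucc 1631, .negSucc 8751, .negSucc 327355, .ofNat 345720, .ofNat 176768,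
      .negSucc 121535, .ofNat 14980],
    [.negSucc 2991, .ofNat 10336, .negSucc 41455, .ofNat 21588, .negSucc 102971, .negSucc 79023,
      .ofNat 59920]],
    [[.ofNat 0, .ofNat 0, .ofNat 0, .ofNat 0, .ofNat 0, .ofNat 0, .ofNat 0, .negSucc 165959,
      .negSucc 119559, .ofNat 617760, .negSucc 395919, .negSucc 267389, .ofNat 227850],
    [.ofNat 0, .ofNat 0, .ofNat 0, .ofNat 0, .ofNat 0, .ofNat 0, .negSucc 581339, .negSucc 312699,
      .ofNat 1286230, .negSucc 571669, .negSucc 953479, .ofNat 364010, .ofNat 227850],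
    [.ofNat 0, .ofNat 0, .ofNat 0, .ofNat 0, .ofNat 0, .negSucc 757511, .negSucc 438131,
      .negSucc 461929, .ofNat 2618104, .negSucc 1415318, .negSucc 758196, .ofNat 830171,
      .negSucc 116864],
    [.ofNat 0, .ofNat 0, .ofNat 0, .ofNat 0, .negSucc 546047, .negSucc 846279, .negSucc 2001531,
      .ofNat 6504006, .negSucc 578731, .negSucc 2736786, .ofNat 1630337, .ofNat 30551,
      .negSucc 359414],
    [.ofNat 0, .ofNat 0, .ofNat 0, .negSucc 428499, .negSucc 1140979, .ofNat 576566,
      .ofNat 3475866, .ofNat 1709677, .negSucc 5729036, .ofNat 2083798, .ofNat 1924266,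
      .negSucc 1058670, .negSucc 132684],
    [.ofNat 0, .ofNat 0, .negSucc 363999, .negSucc 665587, .ofNat 3008398, .negSucc 1653443,
      .ofNat 2188396, .negSucc 8365584, .ofNat 754229, .ofNat 4727834, .negSucc 1250617,
      .negSucc 538256, .ofNat 126035],
    [.ofNat 0, .negSucc 188159, .negSucc 192639, .ofNat 2097320, .negSucc 1757357, .negSucc 202360,
      .negSucc 3486840, .negSucc 1885253, .ofNat 4831336, .negSucc 1124793, .negSucc 1086861,
      .ofNat 428349, .ofNat 38465],
    [.negSucc 47039, .negSucc 99199, .ofNat 520412, .negSucc 968851, .negSucc 685649,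
      .ofNat 5659487, .negSucc 2199210, .ofNat 2659490, .negSucc 1088555, .negSucc 1958497,
      .ofNat 673820, .ofNat 232813, .negSucc 26214],
    [.negSucc 34159, .negSucc 66591, .negSucc 932091, .ofNat 190325, .ofNat 8041395,
      .negSucc 720867, .negSucc 365281, .ofNat 577206, .negSucc 1967487, .ofNat 97737,
      .ofNat 240167, .ofNat 26662, .ofNat 7490],
    [.negSucc 57199, .negSucc 302303, .negSucc 159433, .ofNat 4887235, .negSucc 2836446,
      .negSucc 4250663, .ofNat 4429656, .negSucc 247703, .negSucc 1415839, .ofNat 23835,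
      .ofNat 126955, .negSucc 18277, .ofNat 7490],
    [.ofNat 5952, .negSucc 86495, .ofNat 1468162, .negSucc 4939038, .negSucc 5624984,
      .ofNat 5974264, .ofNat 1057248, .negSucc 2539976, .negSucc 77648, .ofNat 284738,
      .negSucc 23137, .negSucc 29959],
    [.ofNat 127560, .negSucc 266999, .negSucc 2581545, .negSucc 3808954, .ofNat 5236237,
      .ofNat 2152036, .negSucc 3636665, .negSucc 629476, .ofNat 812835, .ofNat 91206,
      .negSucc 127329],
    [.negSucc 232195, .negSucc 667135, .negSucc 1747309, .ofNat 4184183, .ofNat 3041231,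
      .negSucc 3230452, .negSucc 958682, .ofNat 814696, .ofNat 128088, .negSucc 119839],
    [.negSucc 300355, .negSucc 487511, .ofNat 1410268, .ofNat 1875511, .negSucc 865112,
      .negSucc 471670, .ofNat 212521, .ofNat 39512, .negSucc 29959],
    [.negSucc 23599, .negSucc 191279, .ofNat 421620, .negSucc 20859, .negSucc 185579, .ofNat 74900],
    [.negSucc 14959, .ofNat 51680, .negSucc 147439, .negSucc 98779, .ofNat 74900]],
    [[.ofNat 0, .ofNat 0, .ofNat 0, .ofNat 0, .ofNat 0, .ofNat 0, .ofNat 0, .ofNat 62172,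
      .ofNat 69692, .negSucc 436517, .ofNat 249298, .ofNat 374346, .negSucc 318989],
    [.ofNat 0, .ofNat 0, .ofNat 0, .ofNat 0, .ofNat 0, .ofNat 0, .ofNat 182688, .ofNat 75740,
      .negSucc 791179, .ofNat 377874, .ofNat 927482, .negSucc 453613, .negSucc 318989],
    [.ofNat 0, .ofNat 0, .ofNat 0, .ofNat 0, .ofNat 0, .ofNat 186066, .negSucc 5261, .ofNat 599473,
      .negSucc 1851858, .ofNat 368122, .ofNat 1674106, .negSucc 1153660, .ofNat 183015],
    [.ofNat 0, .ofNat 0, .ofNat 0, .ofNat 0, .ofNat 129774, .ofNat 264476, .ofNat 1730460,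
      .negSucc 4645792, .negSucc 634786, .ofNat 4573438, .negSucc 1893561, .negSucc 192120,
      .ofNat 668115],
    [.ofNat 0, .ofNat 0, .ofNat 0, .ofNat 169920, .ofNat 501518, .ofNat 163971, .negSucc 2766772,
      .negSucc 423547, .ofNat 5628638, .negSucc 1819892, .negSucc 3603692, .ofNat 1909550,
      .ofNat 240310],
    [.ofNat 0, .ofNat 0, .ofNat 165180, .ofNat 253956, .negSucc 1418691, .ofNat 641017,
      .ofNat 788599, .ofNat 5966550, .negSucc 1253077, .negSucc 7912708, .ofNat 2059801,
      .ofNat 1051186, .negSucc 341809],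
    [.ofNat 0, .ofNat 94080, .ofNat 58020, .negSucc 1150943, .ofNat 1389724, .ofNat 923710,
      .ofNat 2978428, .negSucc 274797, .negSucc 6622725, .ofNat 1508720, .ofNat 2315694,
      .negSucc 1100767, .negSucc 119139],
    [.ofNat 23520, .ofNat 31200, .negSucc 239845, .ofNat 1369914, .negSucc 1092771,
      .negSucc 2792743, .ofNat 665104, .negSucc 2124467, .ofNat 2072946, .ofNat 4175438,
      .negSucc 1503851, .negSucc 659339, .ofNat 74900],
    [.ofNat 12480, .ofNat 122496, .ofNat 932702, .negSucc 1404879, .negSucc 5667145, .ofNat 569950,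
      .ofNat 2079706, .ofNat 626411, .ofNat 3217349, .ofNat 138592, .negSucc 541385,
      .negSucc 52568, .negSucc 33704],
    [.ofNat 62040, .ofNat 246440, .negSucc 82803, .negSucc 5163309, .ofNat 3085204, .ofNat 7219024,
      .negSucc 5826651, .negSucc 2609862, .ofNat 3188099, .ofNat 195498, .negSucc 392181,
      .ofNat 112211, .negSucc 33704],
    [.negSucc 7943, .ofNat 28488, .negSucc 2831707, .ofNat 4278778, .ofNat 8863040,
      .negSucc 6648166, .negSucc 6505574, .ofNat 3232704, .ofNat 376838, .negSucc 1056582,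
      .ofNat 105349, .ofNat 164780],
    [.negSucc 105935, .negSucc 772567, .ofNat 1006938, .ofNat 5480470, .negSucc 2466235,
      .negSucc 6257068, .ofNat 3690581, .ofNat 2110546, .negSucc 2728291, .negSucc 561378,
      .ofNat 602945],
    [.negSucc 39119, .negSucc 342647, .ofNat 1961574, .negSucc 1721387, .negSucc 4757681,
      .ofNat 3972786, .ofNat 3596748, .negSucc 2358149, .negSucc 761519, .ofNat 449400],
    [.ofNat 10416, .ofNat 461616, .negSucc 668963, .negSucc 2258723, .ofNat 1016976,
      .ofNat 2168904, .negSucc 448307, .negSucc 371795, .ofNat 89880],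
    [.ofNat 26592, .ofNat 192912, .negSucc 460067, .negSucc 34343, .ofNat 683100, .negSucc 293387,
      .negSucc 249623, .ofNat 134820],
    [.ofNat 17952, .negSucc 62015, .ofNat 158976, .ofNat 180552, .negSucc 266807, .negSucc 118535,
      .ofNat 89880]],
    [[],
    [],
    [.ofNat 0, .ofNat 0, .ofNat 0, .ofNat 0, .ofNat 0, .ofNat 11592, .ofNat 18312, .negSucc 130139,
      .ofNat 54516, .ofNat 225504, .negSucc 163967, .negSucc 106955, .ofNat 91140],
    [.ofNat 0, .ofNat 0, .ofNat 0, .ofNat 0, .ofNat 29868, .ofNat 18540, .negSucc 264447,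
      .ofNat 108524, .ofNat 530432, .negSucc 272667, .negSucc 386991, .ofNat 145604,
      .ofNat 91140],
    [.ofNat 0, .ofNat 0, .ofNat 0, .ofNat 21540, .negSucc 15119, .ofNat 33914, .negSucc 320425,
      .ofNat 156838, .ofNat 675922, .negSucc 501577, .negSucc 330085, .ofNat 289286,
      .negSucc 10289],
    [.ofNat 0, .ofNat 0, .ofNat 1560, .ofNat 6348, .ofNat 393032, .negSucc 968485, .negSucc 469245,
      .ofNat 1988390, .negSucc 354153, .negSucc 1096713, .ofNat 536118, .ofNat 70462,
      .negSucc 107309],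
    [.ofNat 0, .ofNat 0, .ofNat 39960, .ofNat 309030, .negSucc 906781, .negSucc 465783,
      .ofNat 2203536, .negSucc 303275, .negSucc 1903755, .ofNat 767784, .ofNat 624232,
      .negSucc 307753, .negSucc 57189],
    [.ofNat 0, .ofNat 22080, .ofNat 108508, .negSucc 499837, .negSucc 53209, .ofNat 2047328,
      .negSucc 568043, .negSucc 2870579, .ofNat 869176, .ofNat 1488128, .negSucc 363919,
      .negSucc 187117, .ofNat 7490],
    [.ofNat 5520, .ofNat 5472, .negSucc 243787, .ofNat 223590, .ofNat 1668050, .negSucc 710811,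
      .negSucc 2861567, .ofNat 777204, .ofNat 1659048, .negSucc 343691, .negSucc 219771,
      .ofNat 48238, .negSucc 7489],
    [.negSucc 11999, .negSucc 46735, .ofNat 72644, .ofNat 849830, .negSucc 386017,
      .negSucc 1833155, .ofNat 741044, .ofNat 1322044, .negSucc 562099, .negSucc 310259,
      .ofNat 153920, .ofNat 18278, .negSucc 7489],
    [.ofNat 3128, .negSucc 33983, .ofNat 281308, .negSucc 330985, .negSucc 902169, .ofNat 838706,
      .ofNat 971042, .negSucc 518557, .negSucc 376445, .ofNat 14862, .ofNat 23138, .ofNat 29960],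
    [.ofNat 15320, .ofNat 35760, .negSucc 248863, .negSucc 229769, .ofNat 211918, .ofNat 261054,
      .ofNat 388806, .ofNat 24162, .negSucc 494509, .negSucc 91205, .ofNat 127330],
    [.negSucc 5983, .negSucc 3263, .ofNat 35680, .negSucc 268887, .negSucc 181495, .ofNat 667408,
      .ofNat 279888, .negSucc 515095, .negSucc 128087, .ofNat 119840],
    [.negSucc 5983, .ofNat 20672, .negSucc 47007, .negSucc 80855, .ofNat 141928, .ofNat 99696,
      .negSucc 118895, .negSucc 39511, .ofNat 29960]]]

end Vale.Agent.P219.D6
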