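import Vale.Agent.P219.C5.Poly

/-! # The certificate in dimension 6: reduced polynomials (generated) -/

namespace Vale.Agent.P219.D6

open Vale.Agent.P219.C5

/-- `O1a`, reduced. -/
def O1al : List P2 :=
  [[[],
    [],
    [.ofNat 0, .ofNat 0, .ofNat 0, .ofNat 0, .ofNat 0, .ofNat 0, .ofNat 0, .ofNat 0, .ofNat 320256,
      .negSucc 406783, .ofNat 3422592, .negSucc 2916479],
    [.ofNat 0, .ofNat 0, .ofNat 0, .ofNat 0, .ofNat 0, .ofNat 0, .ofNat 0, .ofNat 2063280,
      .negSucc 177519, .ofNat 11378560, .negSucc 11446399],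
    [.ofNat 0, .ofNat 0, .ofNat 0, .ofNat 0, .ofNat 0, .ofNat 0, .ofNat 5636688, .ofNat 3016240,
      .ofNat 4550528, .negSucc 5253375, .negSucc 10293551, .ofNat 8267280],
    [.ofNat 0, .ofNat 0, .ofNat 0, .ofNat 0, .ofNat 0, .ofNat 8534400, .ofNat 5085760,
      .negSucc 27508959, .ofNat 32770880, .negSucc 41947679, .ofNat 31326480, .ofNat 1940400],
    [.ofNat 0, .ofNat 0, .ofNat 0, .ofNat 0, .ofNat 7951856, .ofNat 1410352, .negSucc 48549319,
      .ofNat 54443000, .negSucc 50365479, .ofNat 15611944, .ofNat 19863504, .negSucc 8587039],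
    [.ofNat 0, .ofNat 0, .ofNat 0, .ofNat 4982800, .negSucc 1771119, .negSucc 34780951,
      .ofNat 23510760, .ofNat 10705640, .negSucc 86155751, .ofNat 71391936, .negSucc 31365231,
      .negSucc 4656959],
    [.ofNat 0, .ofNat 0, .ofNat 2424320, .negSucc 391167, .negSucc 13051255, .negSucc 11246423,
      .ofNat 67811496, .negSucc 156139591, .ofNat 117383568, .negSucc 18196255,
      .negSucc 26230607, .ofNat 4158000],
    [.ofNat 0, .ofNat 940800, .ofNat 901120, .negSucc 3608967, .negSucc 18839623, .ofNat 52669128,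
      .negSucc 85346807, .ofNat 83419968, .ofNat 71778224, .negSucc 69167183, .ofNat 15015984,
      .ofNat 3492720],
    [.ofNat 188160, .ofNat 549440, .negSucc 1788479, .negSucc 15929567, .ofNat 20703664,
      .ofNat 13743696, .ofNat 5611176, .ofNat 140147768, .negSucc 109633031, .ofNat 12664024,
      .ofNat 16931952, .negSucc 1041599],
    [.ofNat 139840, .negSucc 1458175, .negSucc 8533535, .ofNat 9320080, .ofNat 35463408,
      .negSucc 22291783, .ofNat 92957352, .negSucc 105192695, .negSucc 15234711,
      .ofNat 35286336, .negSucc 4249871, .negSucc 776159],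
    [.negSucc 562559, .negSucc 1649119, .ofNat 2489568, .ofNat 21726912, .negSucc 16888967,
      .ofNat 13592328, .negSucc 60337663, .negSucc 41730943, .ofNat 44668264, .negSucc 4928871,
      .negSucc 3693887, .ofNat 119840],
    [.negSucc 14047, .ofNat 19008, .ofNat 10118880, .negSucc 14967783, .negSucc 2583783,
      .negSucc 37874671, .negSucc 47752367, .ofNat 44541592, .negSucc 2642039,
      .negSucc 7171823, .ofNat 958720],
    [.ofNat 420480, .ofNat 2068640, .negSucc 5657535, .ofNat 10383072, .negSucc 40894951,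
      .negSucc 34739527, .ofNat 46535208, .negSucc 2286087, .negSucc 7689263, .ofNat 958720],
    [.negSucc 127327, .ofNat 982208, .ofNat 7563360, .negSucc 25925703, .negSucc 18947143,
      .ofNat 61469448, .ofNat 8243832, .negSucc 10102367, .negSucc 728559, .ofNat 229856,
      .negSucc 239679],
    [.ofNat 163200, .ofNat 915040, .negSucc 6914111, .negSucc 17357567, .ofNat 71641856,
      .ofNat 19100496, .negSucc 21720503, .ofNat 2100216, .ofNat 765160, .negSucc 449399],
    [.negSucc 95007, .negSucc 1471551, .negSucc 14203487, .ofNat 48728816, .ofNat 7777968,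
      .negSucc 34548471, .ofNat 5009192, .ofNat 2073544, .ofNat 389480],
    [.negSucc 278399, .negSucc 4186719, .ofNat 15239040, .negSucc 1346879, .negSucc 33916759,
      .ofNat 535880, .ofNat 5012920, .ofNat 449400],
    [.negSucc 71007, .ofNat 1566528, .ofNat 2502336, .negSucc 19635575, .negSucc 260823,
      .ofNat 6822904, .negSucc 1707719],
    [.ofNat 69120, .ofNat 2302720, .negSucc 5792799, .ofNat 2915200, .ofNat 4454560,
      .negSucc 2396799],
    [.ofNat 167552, .negSucc 578815, .ofNat 1651328, .ofNat 1106336, .negSucc 838879]],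
    [[.ofNat 0, .ofNat 0, .ofNat 0, .ofNat 0, .ofNat 0, .ofNat 0, .ofNat 0, .ofNat 0,
      .negSucc 223487, .negSucc 1037567, .ofNat 6956928, .negSucc 5314175, .negSucc 3422591,
      .ofNat 2916480],
    [.ofNat 0, .ofNat 0, .ofNat 0, .ofNat 0, .ofNat 0, .ofNat 0, .ofNat 0, .negSucc 193439,
      .negSucc 1475039, .ofNat 22853840, .negSucc 22155279, .negSucc 11378559, .ofNat 11446400],
    [.ofNat 0, .ofNat 0, .ofNat 0, .ofNat 0, .ofNat 0, .ofNat 0, .ofNat 1135104, .ofNat 2138688,
      .ofNat 20577472, .negSucc 16504543, .negSucc 43653919, .ofNat 35199712, .ofNat 13716144,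
      .negSucc 11183759],
    [.ofNat 0, .ofNat 0, .ofNat 0, .ofNat 0, .ofNat 0, .ofNat 1729440, .ofNat 2844960,
      .negSucc 7209199, .ofNat 37957840, .negSucc 122291439, .ofNat 84461360, .ofNat 57207040,
      .negSucc 42772879, .negSucc 1940399],
    [.ofNat 0, .ofNat 0, .ofNat 0, .ofNat 0, .ofNat 100736, .negSucc 397695, .negSucc 27288655,
      .ofNat 68684592, .negSucc 143148751, .ofNat 35392528, .ofNat 147240176,
      .negSucc 77428959, .negSucc 26948375, .ofNat 14120120],
    [.ofNat 0, .ofNat 0, .ofNat 0, .negSucc 559999, .ofNat 1344640, .negSucc 31821503,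
      .ofNat 53739040, .negSucc 19560127, .negSucc 224405983, .ofNat 315804712,
      .negSucc 95895031, .negSucc 118402935, .ofNat 51932712, .ofNat 6597360],
    [.ofNat 0, .ofNat 0, .ofNat 181760, .ofNat 2226560, .negSucc 25005327, .ofNat 40129680,
      .ofNat 98116112, .negSucc 401090831, .ofNat 428752888, .ofNat 47844472,
      .negSucc 298485947, .ofNat 75156532, .ofNat 39510516, .negSucc 7597099],
    [.ofNat 0, .ofNat 0, .negSucc 103039, .negSucc 9835935, .ofNat 3751904, .ofNat 129288624,
      .negSucc 282995311, .ofNat 237728096, .ofNat 466501008, .negSucc 528706363,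
      .ofNat 49220772, .ofNat 134087212, .negSucc 27141643, .negSucc 6403319],
    [.ofNat 0, .ofNat 147200, .negSucc 4083039, .negSucc 23469791, .ofNat 131281456,
      .negSucc 117389743, .negSucc 98959791, .ofNat 723115008, .negSucc 662392451,
      .negSucc 102355155, .ofNat 312511596, .negSucc 39115675, .negSucc 31120487,
      .ofNat 2063600],
    [.ofNat 29440, .negSucc 2518015, .negSucc 7253823, .ofNat 76916864, .ofNat 5339680,
      .negSucc 301644375, .ofNat 447482440, .negSucc 424702347, .negSucc 399902059,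
      .ofNat 482361484, .negSucc 33562939, .negSucc 79299439, .ofNat 8122216, .ofNat 1681680],
    [.negSucc 560639, .ofNat 1317760, .ofNat 21360176, .ofNat 85568592, .negSucc 395325367,
      .ofNat 79256648, .ofNat 127085044, .negSucc 559207083, .ofNat 489979324, .ofNat 30019636,
      .negSucc 150633111, .ofNat 13559712, .ofNat 7987848, .negSucc 269639],
    [.ofNat 984960, .ofNat 8436288, .ofNat 47966784, .negSucc 284486895, .negSucc 48278543,
      .ofNat 529878060, .negSucc 331820787, .ofNat 243146492, .ofNat 139092612,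
      .negSucc 199606071, .ofNat 22576616, .ofNat 18091568, .negSucc 1767639],
    [.ofNat 1969728, .ofNat 2070400, .negSucc 84650095, .negSucc 103324111, .ofNat 656526204,
      .ofNat 23168524, .negSucc 213438619, .ofNat 177383068, .negSucc 145992359,
      .ofNat 17858808, .ofNat 27613180, .negSucc 3197643, .ofNat 23364, .ofNat 14980],
    [.negSucc 3508031, .negSucc 16839807, .negSucc 84367487, .ofNat 463390692, .ofNat 98063284,
      .negSucc 546852011, .ofNat 109570684, .negSucc 6652143, .negSucc 5538447,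
      .ofNat 30460596, .negSucc 7165699, .negSucc 227963, .ofNat 434420],
    [.negSucc 3005183, .negSucc 16075839, .ofNat 139047560, .ofNat 62606264, .negSucc 596326975,
      .negSucc 54698631, .ofNat 173349456, .negSucc 645583, .ofNat 8688332, .negSucc 13847371,
      .negSucc 152195, .ofNat 1063580],
    [.ofNat 3896192, .ofNat 18808288, .ofNat 70078192, .negSucc 392701911, .negSucc 92692791,
      .ofNat 301167072, .negSucc 561655, .negSucc 30623451, .negSucc 11656051, .ofNat 329340,
      .ofNat 1123500],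
    [.ofNat 2402400, .ofNat 24884880, .negSucc 115606783, .negSucc 22245775, .ofNat 298920032,
      .ofNat 24605992, .negSucc 68115627, .negSucc 8355907, .ofNat 1702140, .ofNat 1423100],
    [.negSucc 1379151, .negSucc 11837215, .negSucc 27309039, .ofNat 184632848, .ofNat 34411672,
      .negSucc 89166099, .ofNat 2587092, .ofNat 4770876, .ofNat 1483020],
    [.negSucc 955199, .negSucc 16512879, .ofNat 53722680, .negSucc 3607839, .negSucc 75937059,
      .ofNat 5770660, .ofNat 8453940, .ofNat 1273300],
    [.negSucc 288015, .ofNat 4763616, .negSucc 1144735, .negSucc 39808707, .negSucc 1728899,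
      .ofNat 10270964, .negSucc 1183419],
    [.ofNat 138240, .ofNat 4306240, .negSucc 10551999, .ofNat 2881600, .ofNat 6933520,
      .negSucc 3295599],
    [.ofNat 275264, .negSucc 950911, .ofNat 2712896, .ofNat 1817552, .negSucc 1378159]],
    [[.ofNat 0, .ofNat 0, .ofNat 0, .ofNat 0, .ofNat 0, .ofNat 0, .ofNat 0, .ofNat 0, .ofNat 0,
      .ofNat 0, .negSucc 167615, .negSucc 778175, .ofNat 5217696, .negSucc 3985631,
      .negSucc 2566943, .ofNat 2187360],
    [.ofNat 0, .ofNat 0, .ofNat 0, .ofNat 0, .ofNat 0, .ofNat 0, .ofNat 0, .ofNat 0, .ofNat 0,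
      .negSucc 145079, .negSucc 1106279, .ofNat 17140380, .negSucc 16616459, .negSucc 8533919,
      .ofNat 8584800],
    [.ofNat 0, .ofNat 0, .ofNat 0, .ofNat 0, .ofNat 0, .ofNat 0, .ofNat 0, .ofNat 0,
      .ofNat 2127456, .ofNat 3220624, .ofNat 5892744, .negSucc 7055663, .negSucc 17278115,
      .ofNat 14144940, .ofNat 5153220, .negSucc 4013099],
    [.ofNat 0, .ofNat 0, .ofNat 0, .ofNat 0, .ofNat 0, .ofNat 0, .ofNat 0, .ofNat 6588720,
      .ofNat 5840960, .negSucc 37578899, .ofNat 55778700, .negSucc 40085559, .ofNat 12951200,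
      .ofNat 25837440, .negSucc 14910059, .negSucc 1455299],
    [.ofNat 0, .ofNat 0, .ofNat 0, .ofNat 0, .ofNat 0, .ofNat 0, .ofNat 8312784, .negSucc 944863,
      .negSucc 46451411, .ofNat 81169164, .negSucc 47906821, .negSucc 26966245,
      .ofNat 59924574, .negSucc 16842437, .negSucc 9744407, .ofNat 2427180],
    [.ofNat 0, .ofNat 0, .ofNat 0, .ofNat 0, .ofNat 0, .ofNat 5919240, .negSucc 3620599,
      .negSucc 4575647, .negSucc 8078519, .ofNat 23665154, .negSucc 130056717, .ofNat 91557214,
      .ofNat 4399666, .negSucc 34691951, .ofNat 8613864, .ofNat 2037420],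
    [.ofNat 0, .ofNat 0, .ofNat 0, .ofNat 0, .ofNat 3903536, .ofNat 3069616, .ofNat 9800216,
      .negSucc 83431551, .ofNat 105156734, .negSucc 153922873, .ofNat 89251448,
      .ofNat 52817244, .negSucc 77974337, .ofNat 9846734, .ofNat 9928548, .negSucc 691319],
    [.ofNat 0, .ofNat 0, .ofNat 0, .ofNat 3217600, .ofNat 4292000, .negSucc 15380235,
      .negSucc 52521147, .ofNat 85179622, .ofNat 16146942, .negSucc 4683931, .ofNat 123008312,
      .negSucc 105240777, .ofNat 667546, .ofNat 23522076, .negSucc 2648123, .negSucc 582119],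
    [.ofNat 0, .ofNat 0, .ofNat 2156960, .ofNat 165440, .negSucc 26865339, .ofNat 2722964,
      .ofNat 27983198, .ofNat 151160358, .negSucc 145432415, .ofNat 125469788,
      .negSucc 71547377, .negSucc 21207605, .ofNat 39318204, .negSucc 3950683,
      .negSucc 2770415, .ofNat 89880],
    [.ofNat 0, .ofNat 940800, .negSucc 1147039, .negSucc 15841435, .ofNat 28666612,
      .negSucc 3116201, .ofNat 82342126, .negSucc 172616955, .negSucc 9302215, .ofNat 28699506,
      .negSucc 49689961, .ofNat 42489808, .negSucc 4502043, .negSucc 5788595, .ofNat 539280],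
    [.ofNat 188160, .negSucc 554559, .negSucc 3780719, .ofNat 27509152, .negSucc 25006929,
      .negSucc 20085505, .negSucc 75829627, .negSucc 116702879, .ofNat 140788346,
      .negSucc 53566881, .ofNat 12688362, .ofNat 403214, .negSucc 7449485, .ofNat 801430],
    [.negSucc 80959, .ofNat 257344, .ofNat 10791088, .negSucc 23157637, .negSucc 55197005,
      .ofNat 55896732, .negSucc 44018155, .ofNat 143212946, .negSucc 17789357,
      .negSucc 30300637, .ofNat 10984406, .negSucc 6225601, .ofNat 1453410, .ofNat 172392,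
      .negSucc 179759],
    [.ofNat 208320, .ofNat 519600, .negSucc 8686911, .negSucc 56634471, .ofNat 147990210,
      .ofNat 51311322, .ofNat 16328210, .ofNat 32278442, .negSucc 52058401, .ofNat 8961682,
      .ofNat 1816544, .ofNat 3080524, .ofNat 270138, .negSucc 531789],
    [.negSucc 572239, .negSucc 3185279, .negSucc 30622695, .ofNat 118687022, .ofNat 48442902,
      .negSucc 128994233, .ofNat 22168802, .negSucc 31732029, .ofNat 2626810, .ofNat 12093332,
      .ofNat 1244024, .negSucc 250821, .negSucc 381989],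
    [.negSucc 928031, .negSucc 4604679, .ofNat 38446112, .ofNat 36709856, .negSucc 198256623,
      .negSucc 31531259, .ofNat 33169226, .negSucc 4233821, .ofNat 12041480, .negSucc 2514123,
      .negSucc 1200913, .ofNat 322070],
    [.ofNat 1130232, .ofNat 5797424, .ofNat 31051296, .negSucc 141174443, .negSucc 28697579,
      .ofNat 102616106, .negSucc 5105473, .negSucc 2856003, .negSucc 6102015, .negSucc 1398209,
      .ofNat 1011150],
    [.ofNat 971424, .ofNat 9505120, .negSucc 43458831, .negSucc 11139143, .ofNat 126112878,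
      .ofNat 13882946, .negSucc 28687599, .negSucc 4015795, .ofNat 283382, .ofNat 831390],
    [.negSucc 416831, .negSucc 4644511, .negSucc 16147063, .ofNat 83916906, .ofNat 10544506,
      .negSucc 47144847, .ofNat 5629720, .ofNat 3161334, .ofNat 202230],
    [.negSucc 423743, .negSucc 8300199, .ofNat 25857504, .negSucc 4904879, .negSucc 41867577,
      .ofNat 5977862, .ofNat 6227914, .negSucc 471869],
    [.negSucc 318983, .ofNat 2535792, .negSucc 273839, .negSucc 21709889, .ofNat 2155134,
      .ofNat 7402098, .negSucc 2179589],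
    [.ofNat 69120, .ofNat 2332640, .negSucc 5896159, .ofNat 3210080, .ofNat 4652120,
      .negSucc 2546599],
    [.ofNat 173536, .negSucc 599487, .ofNat 1710304, .ofNat 1145848, .negSucc 868839]],
    [[.ofNat 0, .ofNat 0, .ofNat 0, .ofNat 0, .ofNat 0, .ofNat 0, .ofNat 0, .ofNat 0, .ofNat 0,
      .ofNat 0, .ofNat 0, .ofNat 0, .negSucc 27935, .negSucc 129695, .ofNat 869616,
      .negSucc 664271, .negSucc 427823, .ofNat 364560],
    [.ofNat 0, .ofNat 0, .ofNat 0, .ofNat 0, .ofNat 0, .ofNat 0, .ofNat 0, .ofNat 0, .ofNat 0,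
      .ofNat 0, .ofNat 0, .negSucc 24179, .negSucc 184379, .ofNat 2856730, .negSucc 2769409,
      .negSucc 1422319, .ofNat 1430800],
    [.ofNat 0, .ofNat 0, .ofNat 0, .ofNat 0, .ofNat 0, .ofNat 0, .ofNat 0, .ofNat 0, .ofNat 0,
      .ofNat 0, .ofNat 336864, .ofNat 746472, .negSucc 568059, .negSucc 168783,
      .negSucc 1083117, .ofNat 903338, .ofNat 431046, .negSucc 304289],
    [.ofNat 0, .ofNat 0, .ofNat 0, .ofNat 0, .ofNat 0, .ofNat 0, .ofNat 0, .ofNat 0, .ofNat 0,
      .ofNat 828060, .ofNat 1292700, .negSucc 11527519, .ofNat 14039500, .negSucc 657169,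
      .negSucc 3757609, .ofNat 2883920, .negSucc 1054209, .negSucc 242549],
    [.ofNat 0, .ofNat 0, .ofNat 0, .ofNat 0, .ofNat 0, .ofNat 0, .ofNat 0, .ofNat 0, .ofNat 272032,
      .negSucc 1093519, .negSucc 9906089, .ofNat 17781466, .negSucc 3114090, .negSucc 9291222,
      .ofNat 6877945, .negSucc 296044, .negSucc 1193021, .ofNat 100240],
    [.ofNat 0, .ofNat 0, .ofNat 0, .ofNat 0, .ofNat 0, .ofNat 0, .ofNat 0, .negSucc 1056939,
      .negSucc 2662899, .ofNat 11357242, .negSucc 12706049, .ofNat 1781319, .negSucc 10503512,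
      .ofNat 5593319, .ofNat 3134051, .negSucc 2493821, .ofNat 381434, .ofNat 97020],
    [.ofNat 0, .ofNat 0, .ofNat 0, .ofNat 0, .ofNat 0, .ofNat 0, .negSucc 1143231, .ofNat 269144,
      .ofNat 19558550, .negSucc 37880693, .ofNat 15977520, .negSucc 315887, .negSucc 4690255,
      .ofNat 5065956, .negSucc 2925481, .ofNat 366174, .ofNat 461736, .negSucc 14979],
    [.ofNat 0, .ofNat 0, .ofNat 0, .ofNat 0, .ofNat 0, .negSucc 15339, .ofNat 2316820,
      .ofNat 2658358, .negSucc 16779437, .ofNat 14246040, .ofNat 23703192, .negSucc 17019895,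
      .ofNat 2245856, .negSucc 421551, .negSucc 278933, .ofNat 688094, .negSucc 59919],
    [.ofNat 0, .ofNat 0, .ofNat 0, .ofNat 0, .ofNat 520832, .ofNat 547584, .negSucc 9617077,
      .ofNat 13672614, .negSucc 3998037, .ofNat 34668174, .negSucc 23578743, .negSucc 3168299,
      .ofNat 6609044, .negSucc 1125881, .negSucc 19777, .negSucc 29959],
    [.ofNat 0, .ofNat 0, .ofNat 0, .ofNat 268400, .negSucc 765839, .negSucc 5877211,
      .ofNat 16334252, .negSucc 10712821, .ofNat 11128910, .negSucc 17543535, .negSucc 8871759,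
      .ofNat 13460318, .negSucc 1581037, .negSucc 1337009, .ofNat 31150, .negSucc 28731,
      .ofNat 29960],
    [.ofNat 0, .ofNat 0, .ofNat 41440, .negSucc 358383, .negSucc 545377, .ofNat 7059318,
      .negSucc 5882677, .negSucc 15248773, .negSucc 48747, .negSucc 10867527, .ofNat 13432166,
      .negSucc 615221, .negSucc 2585982, .negSucc 115006, .negSucc 37234, .ofNat 93625],
    [.ofNat 0, .ofNat 0, .negSucc 79, .ofNat 496754, .ofNat 1981762, .negSucc 2971277,
      .negSucc 16960213, .ofNat 12936194, .negSucc 4411051, .ofNat 6829264, .ofNat 480194,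
      .negSucc 3509218, .ofNat 456341, .ofNat 205249, .negSucc 41194],
    [.ofNat 0, .ofNat 18400, .ofNat 208440, .ofNat 212872, .negSucc 1381046, .negSucc 9686498,
      .ofNat 14133791, .ofNat 4926993, .negSucc 2883175, .negSucc 943805, .negSucc 2571407,
      .ofNat 2183936, .ofNat 541486, .negSucc 426929],
    [.ofNat 3680, .ofNat 35648, .negSucc 98111, .negSucc 173352, .negSucc 5571856, .ofNat 10471777,
      .ofNat 8000445, .negSucc 10825419, .negSucc 1643419, .ofNat 1501376, .ofNat 1842152,
      .ofNat 200134, .negSucc 396969],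
    [.ofNat 0, .negSucc 12519, .negSucc 59235, .negSucc 1973547, .ofNat 6255062, .ofNat 5681570,
      .negSucc 11721175, .ofNat 2117640, .ofNat 6049918, .negSucc 1980465, .negSucc 824515,
      .ofNat 314580],
    [.negSucc 2503, .negSucc 90415, .ofNat 363600, .ofNat 2653526, .ofNat 2121914,
      .negSucc 6715049, .ofNat 4775540, .ofNat 6086048, .negSucc 4253561, .negSucc 1463835,
      .ofNat 913780],
    [.negSucc 31487, .ofNat 579860, .ofNat 604160, .negSucc 539815, .negSucc 1733829,
      .ofNat 1341776, .ofNat 1454922, .negSucc 2377135, .negSucc 1232945, .ofNat 951230],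
    [.ofNat 166692, .ofNat 24696, .negSucc 1040175, .ofNat 258308, .negSucc 2162551,
      .negSucc 2304465, .ofNat 47442, .negSucc 309693, .ofNat 471870],
    [.ofNat 15744, .negSucc 498539, .ofNat 415476, .negSucc 1345639, .negSucc 2427646,
      .ofNat 1301533, .ofNat 861751, .negSucc 408204],
    [.negSucc 125067, .ofNat 150504, .ofNat 7832, .negSucc 1149490, .ofNat 1729981, .ofNat 1258587,
      .negSucc 872584],
    [.ofNat 0, .ofNat 104720, .negSucc 361759, .ofNat 1032080, .ofNat 691460, .negSucc 524299],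
    [.ofNat 20944, .negSucc 72351, .ofNat 206416, .ofNat 138292, .negSucc 104859]]]

end Vale.Agent.P219.D6
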