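import Vale.Agent.P219.D6.LitsA
import Vale.Agent.P219.D6.LitsB
import Vale.Agent.P219.D6.LitsC
import Vale.Agent.P219.D6.LitsD
import Vale.Agent.P219.D6.BoxL

/-! # The certificate in dimension 6: tests (generated) -/

namespace Vale.Agent.P219.D6

open Vale.Agent.P219.C5 Vale.Agent.P219.D4
open Vale.Agent.P219.D6.BoxK (chk lens)

theorem S2_lens : lens 0 16 11 S2l = true := by decide +kernel
theorem S2_chk : chk (cB 0 1 1 0 1 1 0 1 1) 0 16 11 1 0 0 6 1 44 S2l = true := by
  decide +kernel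
theorem S5_lens : lens 0 15 10 S5l = true := by decide +kernel
theorem S5_chk : chk (cB 0 1 1 0 1 1 0 1 1) 0 15 10 1 0 0 7 1 41 S5l = true := by
  decide +kernel
theorem S6u_lens : lens 0 10 7 S6ul = true := by decide +kernel
theorem S6u_chk : chk (cB 0 1 1 0 1 1 0 1 1) 0 10 7 1 0 0 6 0 29 S6ul = true := by
  decide +kernel
theorem S9_lens : lens 0 14 12 S9l = true := by decide +kernel
theorem S9_chk : chk (cB 0 1 1 0 1 1 0 1 1) 0 14 12 1 0 0 7 1 43 S9l = true := by
  decide +kernel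
theorem S10_lens : lens 3 15 10 S10l = true := by decide +kernel
theorem S10_chk : chk (cB 0 1 1 0 1 1 0 1 1) 3 15 10 1 0 1 7 0 46 S10l = true := by
  decide +kernel
theorem S11_lens : lens 0 11 9 S11l = true := by decide +kernel
theorem S11_chk : chk (cB 0 1 1 0 1 1 0 1 1) 0 11 9 1 0 0 6 0 34 S11l = true := by
  decide +kernel
theorem S3_lens : lens 0 14 11 S3l = true := by decide +kernel
theorem S3_chka : chk (cB 0 1 1 0 1 2 0 1 1) 0 14 11 1 0 0 6 0 48 S3l = true := by
  decide +kernel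
theorem S3_chkb : chk (cB 0 1 1 1 2 2 0 1 1) 0 14 11 1 0 0 0 1 56 S3l = true := by
  decide +kernel
theorem S4_lens : lens 0 16 11 S4l = true := by decide +kernel
theorem S4_chka : chk (cB 0 1 1 0 1 2 0 1 1) 0 16 11 1 0 0 6 0 52 S4l = true := by
  decide +kernel
theorem S4_chkb : chk (cB 0 1 1 1 2 2 0 1 1) 0 16 11 1 0 0 0 1 60 S4l = true := by
  decide +kernel
theorem S1_lens : lens 0 13 9 S1l = true := by decide +kernel
theorem S1_chka : chk (cB 0 1 1 0 1 2 0 1 1) 0 13 9 1 0 0 6 0 43 S1l = true := by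
  decide +kernel
theorem S1_chkb : chk (cB 0 1 2 1 2 2 0 1 1) 0 13 9 1 0 0 0 0 61 S1l = true := by
  decide +kernel
theorem S1_chkc : chk (cB 1 2 2 1 2 2 0 1 1) 0 13 9 1 0 0 0 0 65 S1l = true := by
  decide +kernel
theorem S6b_lens : lens 0 10 8 S6bl = true := by decide +kernel
theorem S6b_chka : chk (cB 0 1 1 0 1 2 0 1 1) 0 10 8 1 0 0 5 0 37 S6bl = true := by
  decide +kernel
theorem S6b_chkb : chk (cB 0 1 2 1 2 2 0 1 1) 0 10 8 1 0 0 0 0 52 S6bl = true := by
  decide +kernel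
theorem S6b_chkc : chk (cB 1 2 2 1 2 2 0 1 1) 0 10 8 1 0 0 0 0 55 S6bl = true := by
  decide +kernel
theorem S12b_lens : lens 0 12 10 S12bl = true := by decide +kernel
theorem S12b_chk : chk (cB 0 1 1 0 1 1 0 1 1) 0 12 10 1 0 0 7 0 38 S12bl = true := by
  decide +kernel
theorem S13_lens : lens 0 14 10 S13l = true := by decide +kernel
theorem S13_chk : chk (cB 0 1 1 0 1 1 0 1 1) 0 14 10 1 0 0 7 0 43 S13l = true := by
  decide +kernel
theorem S14_lens : lens 0 16 12 S14l = true := by decide +kernel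
theorem S14_chk : chk (cB 0 1 1 0 1 1 0 1 1) 0 16 12 1 0 0 7 1 45 S14l = true := by
  decide +kernel
theorem S12a_lens : lens 0 13 9 S12al = true := by decide +kernel
theorem S12a_chka : chk (cB 0 1 1 0 1 2 0 1 1) 0 13 9 1 0 0 6 0 44 S12al = true := by
  decide +kernel
theorem S12a_chkb : chk (cB 0 1 1 1 2 2 0 1 1) 0 13 9 1 0 0 0 0 51 S12al = true := by
  decide +kernel
theorem T1_len2 : len2 12 T1l = true := by decide +kernel
theorem T1t_lens : lens 0 11 16 (tr3 12 T1l) = true := by decide +kernel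
theorem T1_chk : chk (cC 0 1 1 1 1 0 1 1) 0 11 16 1 0 0 7 1 52 (tr3 12 T1l) = true := by
  decide +kernel
theorem T2_len2 : len2 11 T2l = true := by decide +kernel
theorem T2t_lens : lens 0 10 15 (tr3 11 T2l) = true := by decide +kernel
theorem T2_chk : chk (cC 0 1 1 1 1 0 1 1) 0 10 15 1 0 0 8 1 45 (tr3 11 T2l) = true := by
  decide +kernel
theorem T3_len2 : len2 12 T3l = true := by decide +kernel
theorem T3t_lens : lens 0 11 17 (tr3 12 T3l) = true := by decide +kernel
theorem T3_chk : chk (cC 0 1 1 1 1 0 1 1) 0 11 17 1 0 0 9 0 51 (tr3 12 T3l) = true := by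
  decide +kernel
theorem T2_lens : lens 0 15 10 T2l = true := by decide +kernel
theorem T2_chkj : chk (cC 1 3 3 1 1 0 1 1) 0 15 10 1 0 0 7 1 78 T2l = true := by
  decide +kernel
theorem J1_lens : lens 0 15 11 J1l = true := by decide +kernel
theorem J1_chk : chk (cC 1 3 3 1 1 0 1 1) 0 15 11 1 0 0 8 0 81 J1l = true := by
  decide +kernel
theorem J2_lens : lens 0 16 11 J2l = true := by decide +kernel
theorem J2_chk : chk (cC 1 3 3 1 1 0 1 1) 0 16 11 1 0 0 8 2 81 J2l = true := by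
  decide +kernel
theorem V0_lens : lens 2 16 13 V0l = true := by decide +kernel
theorem V0_chk : chk (cC 0 1 3 1 1 0 1 1) 2 16 13 1 0 0 10 0 87 V0l = true := by
  decide +kernel
theorem V1_lens : lens 3 15 12 V1l = true := by decide +kernel
theorem V1_chk : chk (cC 0 1 3 1 1 0 1 1) 3 15 12 1 0 0 9 0 82 V1l = true := by
  decide +kernel
theorem O1a_len2 : len2 18 O1al = true := by decide +kernel
theorem O1at_lens : lens 3 17 21 (tr3 18 O1al) = true := by decide +kernel
theorem O1a_chkt : chk (cC 0 1 2 1 2 0 1 1) 3 17 21 1 0 0 10 0 100 (tr3 18 O1al) = true := by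
  decide +kernel
theorem O1a_lens : lens 3 21 17 O1al = true := by decide +kernel
theorem O1a_chkp : chk (cP 0 4 5 1 3 4 0 4 0 1 2) 3 21 17 1 0 0 0 3 216 O1al = true := by
  decide +kernel
theorem O1a_chkq : chk (cP 0 4 5 1 3 4 0 4 1 2 2) 3 21 17 1 0 0 0 3 217 O1al = true := by
  decide +kernel
theorem O1a_chkr : chk (cP 5 16 20 0 4 1 3 4 0 1 1) 3 21 17 1 0 0 0 0 244 O1al = true := by
  decide +kernel

end Vale.Agent.P219.D6
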