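import Vale.Agent.P219.C5.Poly

/-! # The certificate in dimension 6: reduced polynomials (generated) -/

namespace Vale.Agent.P219.D6

open Vale.Agent.P219.C5

/-- `O2`, reduced. -/
def O2l : List P2 :=
  [[[.ofNat 0, .ofNat 0, .ofNat 0, .ofNat 0, .ofNat 0, .negSucc 115919, .negSucc 183119,
      .ofNat 2236500, .negSucc 494059, .negSucc 1335689, .negSucc 373169, .ofNat 6417360,
      .negSucc 5468399],
    [.ofNat 0, .ofNat 0, .ofNat 0, .ofNat 0, .negSucc 298679, .negSucc 185399, .ofNat 6714880,
      .ofNat 1380260, .negSucc 4970569, .ofNat 652380, .ofNat 14544270, .negSucc 9576239,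
      .negSucc 5468399],
    [.ofNat 0, .ofNat 0, .ofNat 0, .negSucc 215399, .ofNat 151200, .ofNat 6318130, .ofNat 9576650,
      .negSucc 5170254, .ofNat 3385615, .negSucc 9729764, .ofNat 27317385, .negSucc 23261459,
      .ofNat 5247900],
    [.ofNat 0, .ofNat 0, .negSucc 15599, .negSucc 63479, .ofNat 1541110, .ofNat 16783140,
      .negSucc 4650059, .negSucc 5166104, .negSucc 42492304, .ofNat 64038555,
      .negSucc 17334044, .ofNat 5875140, .ofNat 8886150],
    [.ofNat 0, .ofNat 0, .negSucc 399599, .ofNat 189880, .ofNat 15197350, .negSucc 14233924,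
      .negSucc 17519204, .negSucc 18040964, .negSucc 11742264, .ofNat 47873235,
      .negSucc 44746004, .ofNat 27675525, .ofNat 2057475],
    [.ofNat 0, .negSucc 220799, .ofNat 1187940, .ofNat 9365860, .negSucc 20075649,
      .negSucc 14735544, .ofNat 23471645, .negSucc 103647984, .ofNat 89422505,
      .negSucc 92313164, .ofNat 4230285, .ofNat 10567635, .negSucc 3763724],
    [.negSucc 55199, .ofNat 980160, .ofNat 4413420, .negSucc 10612539, .negSucc 16882909,
      .ofNat 33144205, .negSucc 78964964, .ofNat 37233230, .ofNat 22452140, .negSucc 62940749,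
      .ofNat 21669540, .negSucc 11996804, .negSucc 1659524],
    [.ofNat 378720, .ofNat 1553920, .negSucc 1736009, .negSucc 19557909, .ofNat 31370830,
      .negSucc 37538224, .negSucc 10544634, .ofNat 200501080, .negSucc 76713159,
      .ofNat 12428160, .negSucc 1291619, .negSucc 6200024, .ofNat 280875],
    [.ofNat 291840, .ofNat 186400, .negSucc 7485509, .ofNat 17016755, .negSucc 15804184,
      .negSucc 5473409, .ofNat 202426300, .negSucc 34566604, .negSucc 39621984,
      .ofNat 29692725, .negSucc 3959534, .ofNat 1035885, .negSucc 56174],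
    [.negSucc 296039, .negSucc 376599, .ofNat 3239270, .ofNat 10512735, .negSucc 21224944,
      .ofNat 96726600, .negSucc 19293719, .negSucc 116272004, .ofNat 40277405, .ofNat 14616585,
      .ofNat 405705, .negSucc 312314, .negSucc 56174],
    [.ofNat 253720, .ofNat 942760, .ofNat 9568410, .negSucc 23999474, .ofNat 24633105,
      .negSucc 32555364, .negSucc 143162024, .ofNat 23864385, .ofNat 29253175,
      .negSucc 1439354, .negSucc 406634, .negSucc 224699],
    [.ofNat 545320, .ofNat 1856320, .negSucc 3082739, .negSucc 7791194, .negSucc 331224,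
      .negSucc 83898334, .ofNat 3298465, .ofNat 29821375, .negSucc 4596394, .negSucc 1542914,
      .negSucc 56174],
    [.negSucc 189499, .negSucc 410359, .negSucc 9332939, .ofNat 22396865, .negSucc 13155944,
      .ofNat 12328445, .ofNat 31830285, .negSucc 9778699, .negSucc 3373649],
    [.negSucc 453499, .negSucc 3246359, .ofNat 1654680, .ofNat 8540825, .ofNat 12345525,
      .ofNat 21220445, .negSucc 2076254, .negSucc 2618909, .negSucc 786449],
    [.negSucc 280879, .negSucc 1937279, .ofNat 4084920, .negSucc 5118939, .ofNat 3330000,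
      .ofNat 3400520, .negSucc 1823039, .ofNat 224700],
    [.negSucc 194479, .ofNat 671840, .negSucc 2096239, .negSucc 663979, .negSucc 795579,
      .negSucc 1185359, .ofNat 898800]],
    [[.ofNat 0, .ofNat 0, .ofNat 0, .ofNat 0, .ofNat 0, .ofNat 0, .ofNat 0, .negSucc 1958615,
      .ofNat 670824, .negSucc 8067995, .ofNat 7795956, .negSucc 5133887, .ofNat 4374720],
    [.ofNat 0, .ofNat 0, .ofNat 0, .ofNat 0, .ofNat 0, .ofNat 0, .negSucc 8791463,
      .negSucc 3120719, .negSucc 20415759, .ofNat 13835228, .negSucc 4137995, .ofNat 7660992,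
      .ofNat 4374720],
    [.ofNat 0, .ofNat 0, .ofNat 0, .ofNat 0, .ofNat 0, .negSucc 15795539, .negSucc 15618395,
      .negSucc 7251705, .negSucc 16683985, .ofNat 53010278, .negSucc 39220697, .ofNat 18609168,
      .negSucc 4198319],
    [.ofNat 0, .ofNat 0, .ofNat 0, .ofNat 0, .negSucc 15587039, .negSucc 23888147, .ofNat 32842900,
      .negSucc 41796089, .ofNat 106712774, .negSucc 82999649, .negSucc 4275713,
      .negSucc 4700111, .negSucc 7108919],
    [.ofNat 0, .ofNat 0, .ofNat 0, .negSucc 10825899, .negSucc 19293483, .ofNat 65149500,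
      .negSucc 13873427, .ofNat 20550444, .ofNat 54534348, .negSucc 110278223, .ofNat 44906744,
      .negSucc 22140419, .negSucc 1645979],
    [.ofNat 0, .ofNat 0, .negSucc 6253599, .negSucc 10030795, .ofNat 63822812, .ofNat 2014292,
      .negSucc 102132007, .ofNat 234555872, .negSucc 155651315, .ofNat 83551040,
      .ofNat 11158832, .negSucc 8454107, .ofNat 3010980],
    [.ofNat 0, .negSucc 2822399, .negSucc 4114959, .ofNat 35115402, .negSucc 11350629,
      .negSucc 96781681, .ofNat 213205026, .negSucc 27257083, .negSucc 79954983,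
      .ofNat 98518820, .negSucc 14171771, .ofNat 9597444, .ofNat 1327620],
    [.negSucc 705599, .negSucc 1855999, .ofNat 8396800, .negSucc 15615045, .negSucc 27860649,
      .ofNat 151561394, .ofNat 82655990, .negSucc 315180503, .ofNat 109418684, .ofNat 3419836,
      .negSucc 2497223, .ofNat 4960020, .negSucc 224699],
    [.negSucc 604399, .negSucc 566559, .negSucc 11040687, .ofNat 1531408, .ofNat 151744164,
      .ofNat 30869176, .negSucc 339497387, .ofNat 51369398, .ofNat 75260314, .negSucc 39405313,
      .ofNat 568458, .negSucc 828707, .ofNat 44940],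
    [.negSucc 527119, .negSucc 3262623, .ofNat 729216, .ofNat 111293968, .negSucc 76485059,
      .negSucc 282340159, .ofNat 44738460, .ofNat 164308102, .negSucc 54728421,
      .negSucc 14921837, .negSucc 886313, .ofNat 249852, .ofNat 44940],
    [.ofNat 587544, .ofNat 2679952, .ofNat 46744480, .negSucc 91333251, .negSucc 256504583,
      .ofNat 51191240, .ofNat 188570116, .negSucc 52251375, .negSucc 33789603, .ofNat 7252476,
      .ofNat 520048, .ofNat 179760],
    [.ofNat 2933688, .ofNat 7890608, .negSucc 28114715, .negSucc 165384535, .ofNat 69384920,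
      .ofNat 193154036, .negSucc 66138607, .negSucc 52560411, .ofNat 21121636,
      .negSucc 1188295, .ofNat 239680],
    [.negSucc 1807367, .negSucc 2508655, .negSucc 58164411, .ofNat 84737626, .ofNat 193500042,
      .negSucc 32713417, .negSucc 46103173, .ofNat 19299808, .ofNat 219912, .negSucc 2726359],
    [.negSucc 4661783, .negSucc 7881439, .ofNat 32434960, .ofNat 119401926, .ofNat 13261310,
      .negSucc 38161569, .ofNat 8659434, .ofNat 11171584, .negSucc 6426419],
    [.ofNat 1736240, .negSucc 593679, .ofNat 35531120, .negSucc 2834999, .negSucc 54144399,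
      .negSucc 10362919, .ofNat 12148540, .ofNat 1273300],
    [.ofNat 3120800, .ofNat 5494800, .negSucc 5937699, .negSucc 40515799, .negSucc 30001399,
      .negSucc 665699, .ofNat 10486000],
    [.ofNat 216000, .ofNat 4578000, .negSucc 9058499, .negSucc 16691999, .negSucc 3365999,
      .ofNat 5617500]],
    [[.ofNat 0, .ofNat 0, .ofNat 0, .ofNat 0, .ofNat 0, .ofNat 115920, .ofNat 183120,
      .negSucc 438011, .ofNat 26628, .ofNat 7452198, .negSucc 5659457, .negSucc 3850415,
      .ofNat 3281040],
    [.ofNat 0, .ofNat 0, .ofNat 0, .ofNat 0, .ofNat 298680, .ofNat 185400, .ofNat 1205072,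
      .ofNat 1465700, .ofNat 20304470, .negSucc 12346083, .negSucc 14609921, .ofNat 5745744,
      .ofNat 3281040],
    [.ofNat 0, .ofNat 0, .ofNat 0, .ofNat 215400, .negSucc 151199, .ofNat 7403066, .ofNat 3575314,
      .ofNat 12566629, .ofNat 3528307, .negSucc 33178320, .ofNat 903069, .ofNat 13956876,
      .negSucc 3148739],
    [.ofNat 0, .ofNat 0, .ofNat 15600, .ofNat 63480, .ofNat 11397014, .ofNat 3804844,
      .negSucc 17760039, .ofNat 28161407, .negSucc 39753180, .negSucc 6378656, .ofNat 28082007,
      .negSucc 3525083, .negSucc 5331689],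
    [.ofNat 0, .ofNat 0, .ofNat 399600, .ofNat 8743520, .ofNat 2386302, .negSucc 41754888,
      .ofNat 32913315, .ofNat 139563, .negSucc 34737644, .ofNat 43242891, .ofNat 15377123,
      .negSucc 16605314, .negSucc 1234484],
    [.ofNat 0, .ofNat 220800, .ofNat 4212660, .negSucc 619107, .negSucc 42467373, .ofNat 36079815,
      .ofNat 52331317, .negSucc 83760456, .ofNat 39986673, .ofNat 44282171, .negSucc 22255350,
      .negSucc 6340580, .ofNat 2258235],
    [.ofNat 55200, .ofNat 1465920, .negSucc 1819619, .negSucc 25774875, .ofNat 47430414,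
      .ofNat 45453957, .negSucc 118214932, .negSucc 1073313, .ofNat 71553468,
      .negSucc 24948909, .negSucc 17167703, .ofNat 7198083, .ofNat 995715],
    [.ofNat 232800, .negSucc 521919, .negSucc 7372225, .ofNat 46233010, .negSucc 4537601,
      .negSucc 148207412, .negSucc 43363030, .ofNat 91806916, .negSucc 21481147,
      .negSucc 28241107, .ofNat 8768832, .ofNat 3720015, .negSucc 168524],
    [.ofNat 87840, .ofNat 751136, .ofNat 25501650, .negSucc 17041272, .negSucc 173273724,
      .negSucc 16701605, .ofNat 118983744, .negSucc 25369836, .negSucc 46326384,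
      .ofNat 11121601, .ofNat 6946581, .negSucc 621530, .ofNat 33705],
    [.ofNat 1213560, .ofNat 5775464, .negSucc 788389, .negSucc 143107192, .ofNat 94005539,
      .ofNat 194120784, .negSucc 47221591, .negSucc 59109904, .ofNat 14310541, .ofNat 2339181,
      .ofNat 26217, .ofNat 187389, .ofNat 33705],
    [.negSucc 488807, .negSucc 1583063, .negSucc 65238017, .ofNat 120704905, .ofNat 244961529,
      .negSucc 30813076, .negSucc 53415440, .ofNat 27356805, .ofNat 4288647, .negSucc 6190058,
      .negSucc 100558, .ofNat 134820],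
    [.negSucc 3804263, .negSucc 10537775, .ofNat 35438424, .ofNat 175920841, .negSucc 57142780,
      .negSucc 101843594, .ofNat 64983149, .ofNat 27942223, .negSucc 18300422, .ofNat 1616737,
      .negSucc 310834],
    [.ofNat 2136948, .ofNat 1694808, .ofNat 65347536, .negSucc 95226598, .negSucc 159903608,
      .ofNat 26544909, .ofNat 25085477, .negSucc 8066527, .ofNat 2183598, .ofNat 1228360],
    [.ofNat 5157300, .ofNat 9811336, .negSucc 35000283, .negSucc 107810994, .negSucc 36310958,
      .ofNat 12344889, .ofNat 3557373, .negSucc 7176509, .ofNat 5280450],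
    [.negSucc 1421087, .ofNat 2191072, .negSucc 27696107, .negSucc 11421043, .ofNat 29886880,
      .ofNat 13301812, .negSucc 8691123, .negSucc 988679],
    [.negSucc 2534927, .negSucc 2542735, .ofNat 3962156, .ofNat 26200892, .ofNat 29817452,
      .ofNat 3474884, .negSucc 10695719],
    [.ofNat 49920, .negSucc 2648879, .ofNat 4723740, .ofNat 18277680, .ofNat 5862240,
      .negSucc 6965699],
    [.ofNat 179520, .negSucc 620159, .ofNat 1769280, .ofNat 1185360, .negSucc 898799]],
    [[],
    [],
    [.ofNat 0, .ofNat 0, .ofNat 0, .ofNat 0, .ofNat 0, .ofNat 197064, .ofNat 311304,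
      .negSucc 1870415, .ofNat 1466976, .ofNat 481302, .negSucc 410129],
    [.ofNat 0, .ofNat 0, .ofNat 0, .ofNat 0, .ofNat 507756, .ofNat 315180, .negSucc 3614509,
      .ofNat 2391838, .ofNat 2470584, .negSucc 655217, .negSucc 410129],
    [.ofNat 0, .ofNat 0, .ofNat 0, .ofNat 366180, .negSucc 257039, .ofNat 870004, .negSucc 6433485,
      .ofNat 7778755, .negSucc 1203158, .negSucc 1783088, .ofNat 456435],
    [.ofNat 0, .ofNat 0, .ofNat 26520, .ofNat 107916, .ofNat 5846458, .negSucc 16823925,
      .ofNat 9856192, .ofNat 1287021, .negSucc 6880844, .ofNat 338139, .ofNat 893025],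
    [.ofNat 0, .ofNat 0, .ofNat 679320, .ofNat 4618080, .negSucc 13790433, .negSucc 831435,
      .ofNat 22893870, .negSucc 15441473, .negSucc 3401755, .ofNat 2686680, .ofNat 211050],
    [.ofNat 0, .ofNat 375360, .ofNat 1798616, .negSucc 8033151, .negSucc 9009697, .ofNat 49442836,
      .negSucc 16929513, .negSucc 12753153, .ofNat 7449196, .ofNat 1159110, .negSucc 516599],
    [.ofNat 93840, .ofNat 93024, .negSucc 5160375, .negSucc 4884680, .ofNat 45780193,
      .negSucc 7397156, .negSucc 32522274, .ofNat 15312578, .ofNat 4781868, .negSucc 1601963,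
      .negSucc 223649],
    [.negSucc 203999, .negSucc 1445871, .negSucc 2300537, .ofNat 26689609, .negSucc 4315398,
      .negSucc 54914318, .ofNat 18656847, .ofNat 12955664, .negSucc 3885119, .negSucc 924281,
      .ofNat 67410],
    [.negSucc 109663, .negSucc 739151, .ofNat 12264918, .negSucc 9660543, .negSucc 53602571,
      .ofNat 13318312, .ofNat 20564098, .negSucc 6209616, .negSucc 1654424, .ofNat 82251,
      .negSucc 33704],
    [.ofNat 614440, .ofNat 2262632, .negSucc 3911395, .negSucc 31070017, .ofNat 7334566,
      .ofNat 24563152, .negSucc 6461829, .negSucc 3699416, .ofNat 366825, .ofNat 82251,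
      .negSucc 33704],
    [.negSucc 125003, .ofNat 1015440, .negSucc 10948379, .ofNat 9880506, .ofNat 23712778,
      .negSucc 3814909, .negSucc 4526339, .negSucc 483605, .ofNat 10496, .ofNat 134820],
    [.negSucc 703667, .negSucc 1287695, .ofNat 6138934, .ofNat 13519042, .ofNat 3409154,
      .negSucc 1265043, .negSucc 3233629, .negSucc 181951, .ofNat 479360],
    [.ofNat 215628, .negSucc 328511, .ofNat 2868118, .ofNat 3123159, .negSucc 241824,
      .negSucc 3839876, .negSucc 287170, .ofNat 913780],
    [.ofNat 368028, .negSucc 162823, .negSucc 1014935, .negSucc 719496, .negSucc 4147336,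
      .negSucc 1317878, .ofNat 1726445],
    [.negSucc 74799, .negSucc 40799, .ofNat 296400, .negSucc 3442699, .negSucc 1601099,
      .ofNat 1498000],
    [.negSucc 74799, .ofNat 258400, .negSucc 737199, .negSucc 493899, .ofNat 374500]]]

/-- `P0L`, reduced. -/
def P0Ll : List P2 :=
  [[[.ofNat 0, .ofNat 0, .ofNat 0, .ofNat 0, .ofNat 0, .ofNat 0, .ofNat 510048, .ofNat 805728,
      .negSucc 4636655, .ofNat 2864848, .ofNat 8211420, .negSucc 6453635, .negSucc 3209201,
      .ofNat 2674630],
    [.ofNat 0, .ofNat 0, .ofNat 0, .ofNat 0, .ofNat 0, .ofNat 1956240, .ofNat 2661936,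
      .negSucc 13143023, .ofNat 5262128, .ofNat 33258846, .negSucc 10367989, .negSucc 23730881,
      .ofNat 4098746, .ofNat 5349260],
    [.ofNat 0, .ofNat 0, .ofNat 0, .ofNat 0, .ofNat 2634144, .ofNat 3125280, .negSucc 4704887,
      .negSucc 12103063, .ofNat 51435360, .ofNat 30220704, .negSucc 65532480,
      .negSucc 11754324, .ofNat 21547345, .negSucc 15574],
    [.ofNat 0, .ofNat 0, .ofNat 0, .ofNat 1323600, .ofNat 2265168, .ofNat 19822120,
      .negSucc 37903431, .ofNat 19753566, .ofNat 97968222, .negSucc 75313472,
      .negSucc 56340986, .ofNat 44940217, .ofNat 8397299, .negSucc 7078259],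
    [.ofNat 0, .ofNat 0, .ofNat 81120, .ofNat 2318016, .ofNat 28164536, .negSucc 27018839,
      .negSucc 61173607, .ofNat 118974020, .negSucc 5025542, .negSucc 145122884,
      .ofNat 63092113, .ofNat 52756479, .negSucc 24001937, .negSucc 5293049],
    [.ofNat 0, .ofNat 0, .ofNat 1940160, .ofNat 18374632, .ofNat 3563896, .negSucc 115439741,
      .ofNat 96631302, .ofNat 98291207, .negSucc 246807826, .ofNat 13363117, .ofNat 139726181,
      .negSucc 21560633, .negSucc 23986241, .ofNat 971250],
    [.ofNat 0, .ofNat 772800, .ofNat 8642640, .ofNat 8119040, .negSucc 88156311, .ofNat 57804872,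
      .ofNat 174185023, .negSucc 253408718, .negSucc 134568412, .ofNat 217250519,
      .ofNat 18648158, .negSucc 55947141, .ofNat 2044434, .ofNat 2742600],
    [.ofNat 154560, .ofNat 2231616, .ofNat 1311168, .negSucc 35926813, .ofNat 13639970,
      .ofNat 189511485, .negSucc 162355008, .negSucc 249430856, .ofNat 238753187,
      .ofNat 83807910, .negSucc 97059961, .negSucc 6914649, .ofNat 11939766, .ofNat 697830],
    [.ofNat 146880, .ofNat 317152, .negSucc 12940763, .negSucc 392767, .ofNat 125545477,
      .negSucc 74989216, .negSucc 234099060, .ofNat 195016355, .ofNat 156848752,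
      .negSucc 123576643, .negSucc 31327746, .ofNat 22506817, .ofNat 3273033, .negSucc 138564],
    [.negSucc 54623, .negSucc 3218559, .ofNat 1397240, .ofNat 42849799, .negSucc 19100502,
      .negSucc 158383684, .ofNat 105767631, .ofNat 189679466, .negSucc 102942345,
      .negSucc 59171688, .ofNat 26390951, .ofNat 6912469, .negSucc 599368, .ofNat 59920],
    [.ofNat 233280, .negSucc 479431, .ofNat 10222382, .negSucc 525631, .negSucc 90613359,
      .ofNat 27762880, .ofNat 146222120, .negSucc 47242103, .negSucc 65633290, .ofNat 20998201,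
      .ofNat 6877801, .negSucc 1168112, .ofNat 346328, .ofNat 29960],
    [.ofNat 405016, .ofNat 3533336, .ofNat 228640, .negSucc 30109139, .negSucc 16972557,
      .ofNat 58336918, .ofNat 2518322, .negSucc 40331024, .ofNat 8880843, .ofNat 4299961,
      .negSucc 1928752, .ofNat 353480, .ofNat 149800],
    [.ofNat 46376, .ofNat 2885924, .ofNat 731624, .negSucc 17370501, .ofNat 8717098,
      .ofNat 12788398, .negSucc 18754716, .negSucc 642676, .ofNat 4384823, .negSucc 1457502,
      .ofNat 30736, .ofNat 59920],
    [.ofNat 36716, .ofNat 1447152, .negSucc 724391, .ofNat 1734736, .ofNat 10719364,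
      .negSucc 4184316, .negSucc 10227610, .negSucc 183148, .ofNat 2614873, .ofNat 363328,
      .negSucc 419439],
    [.ofNat 267896, .negSucc 347579, .negSucc 2188365, .ofNat 9660238, .ofNat 5898069,
      .negSucc 10229988, .negSucc 2735476, .ofNat 4063661, .ofNat 234968, .negSucc 569239],
    [.ofNat 105228, .negSucc 1087911, .ofNat 1070592, .ofNat 2092703, .negSucc 3057980,
      .negSucc 289066, .ofNat 3026701, .ofNat 227816, .negSucc 689079],
    [.negSucc 86431, .negSucc 108863, .ofNat 315364, .negSucc 1808391, .negSucc 701651,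
      .ofNat 2244616, .ofNat 550560, .negSucc 599199],
    [.negSucc 38895, .ofNat 134368, .negSucc 359407, .negSucc 339515, .ofNat 430644, .ofNat 158048,
      .negSucc 119839]],
    [[.ofNat 0, .ofNat 0, .ofNat 0, .ofNat 0, .ofNat 0, .ofNat 0, .negSucc 973727, .negSucc 1538207,
      .ofNat 9511344, .negSucc 5682319, .negSucc 12385475, .ofNat 9821084, .ofNat 8800722,
      .negSucc 6835765, .negSucc 3155201, .ofNat 2688630],
    [.ofNat 0, .ofNat 0, .ofNat 0, .ofNat 0, .ofNat 0, .negSucc 3614639, .negSucc 3625967,
      .ofNat 28803712, .negSucc 17018255, .negSucc 46065449, .ofNat 29796294, .ofNat 40194344,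
      .negSucc 19844757, .negSucc 17389375, .ofNat 7431948, .ofNat 2688630],
    [.ofNat 0, .ofNat 0, .ofNat 0, .ofNat 0, .negSucc 4690463, .negSucc 1305839, .ofNat 16368104,
      .ofNat 9824536, .negSucc 70119271, .ofNat 12766354, .ofNat 81244707, .negSucc 8969658,
      .negSucc 42938049, .ofNat 1332332, .ofNat 13515879, .negSucc 2044034],
    [.ofNat 0, .ofNat 0, .ofNat 0, .negSucc 2247599, .ofNat 719856, .negSucc 32452999,
      .ofNat 86777104, .negSucc 48518553, .negSucc 65612201, .ofNat 102446429, .ofNat 38049102,
      .negSucc 72585828, .negSucc 20123569, .ofNat 31695067, .negSucc 4188765, .negSucc 3741884],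
    [.ofNat 0, .ofNat 0, .negSucc 143519, .negSucc 2846735, .negSucc 53439335, .ofNat 117640576,
      .ofNat 31751760, .negSucc 191970841, .ofNat 94255893, .ofNat 113398576,
      .negSucc 98259265, .negSucc 56272978, .ofNat 45483005, .ofNat 15360402,
      .negSucc 15418491, .negSucc 1036664],
    [.ofNat 0, .ofNat 0, .negSucc 4340639, .negSucc 34302935, .ofNat 75758512, .ofNat 120576770,
      .negSucc 347393929, .ofNat 55865221, .ofNat 237438932, .negSucc 105815525,
      .negSucc 117235825, .ofNat 41703226, .ofNat 61471914, .negSucc 20626489,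
      .negSucc 5641245, .ofNat 1130115],
    [.ofNat 0, .negSucc 1876799, .negSucc 13157519, .ofNat 39738552, .ofNat 119500152,
      .negSucc 397001385, .negSucc 8904976, .ofNat 403221398, .negSucc 105164159,
      .negSucc 175030363, .ofNat 26811827, .ofNat 79606191, .negSucc 6067241,
      .negSucc 14162027, .ofNat 4945784, .ofNat 446285],
    [.negSucc 375359, .negSucc 2138495, .ofNat 20429392, .ofNat 54772610, .negSucc 273108285,
      .negSucc 56472960, .ofNat 540020212, .negSucc 100540723, .negSucc 203873475,
      .ofNat 15919069, .ofNat 38892122, .ofNat 17617005, .negSucc 18995613, .ofNat 4585488,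
      .ofNat 2210326, .negSucc 71154],
    [.ofNat 299520, .ofNat 4266144, .ofNat 17156132, .negSucc 130120865, .negSucc 37518370,
      .ofNat 542960538, .negSucc 76447925, .negSucc 257250119, .ofNat 31969467,
      .negSucc 12331041, .ofNat 36580573, .negSucc 7747649, .negSucc 6437527, .ofNat 3537192,
      .negSucc 312622, .negSucc 29959],
    [.ofNat 167904, .ofNat 2488800, .negSucc 48804843, .ofNat 5219223, .ofNat 382036774,
      .negSucc 70612277, .negSucc 337334683, .ofNat 76904805, .negSucc 40599205,
      .ofNat 46308933, .ofNat 38668770, .negSucc 23324033, .negSucc 4101405, .ofNat 380291,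
      .ofNat 282832, .negSucc 29959],
    [.negSucc 1831199, .negSucc 7446983, .ofNat 4299994, .ofNat 188707461, .negSucc 75507113,
      .negSucc 354998047, .ofNat 75911626, .negSucc 31247846, .ofNat 42553109,
      .ofNat 105674766, .negSucc 30580749, .negSucc 18706611, .negSucc 708728, .ofNat 714768,
      .ofNat 329560],
    [.ofNat 352408, .negSucc 1226015, .ofNat 67526102, .negSucc 53723214, .negSucc 270267081,
      .ofNat 59869324, .ofNat 32550080, .negSucc 8973053, .ofNat 128338378, .negSucc 9218531,
      .negSucc 29479457, .negSucc 6237190, .ofNat 974576, .ofNat 1408120],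
    [.ofNat 2757712, .ofNat 11917772, .negSucc 12642813, .negSucc 141325642, .ofNat 62760436,
      .ofNat 98387488, .negSucc 41995780, .ofNat 95986449, .ofNat 3050934, .negSucc 40487973,
      .negSucc 6684074, .ofNat 1846184, .ofNat 2486680],
    [.ofNat 264516, .ofNat 4609316, .negSucc 48661637, .ofNat 40242655, .ofNat 101381004,
      .negSucc 23125430, .ofNat 45858684, .ofNat 903375, .negSucc 43203241, .negSucc 5472646,
      .ofNat 2604096, .ofNat 3055920],
    [.negSucc 1125179, .negSucc 8812255, .ofNat 8283336, .ofNat 55704539, .negSucc 16933486,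
      .ofNat 552478, .ofNat 5787942, .negSucc 31822696, .negSucc 4410618, .ofNat 3380008,
      .ofNat 1977360],
    [.negSucc 422039, .negSucc 3973687, .ofNat 16708500, .negSucc 13624517, .negSucc 18570435,
      .ofNat 3896292, .negSucc 18426891, .negSucc 971809, .ofNat 3631376, .ofNat 209720],
    [.negSucc 13655, .ofNat 2499120, .negSucc 4148599, .negSucc 12738261, .ofNat 4217682,
      .negSucc 4984881, .negSucc 736273, .ofNat 2492800, .negSucc 748999],
    [.ofNat 46336, .ofNat 621728, .negSucc 3827559, .ofNat 4119712, .ofNat 3159744, .ofNat 389120,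
      .ofNat 1264048, .negSucc 1168439],
    [.negSucc 59263, .negSucc 681343, .ofNat 802304, .ofNat 2852352, .ofNat 835552, .ofNat 56200,
      .negSucc 449399],
    [.negSucc 37759, .negSucc 329983, .ofNat 757280, .negSucc 269279, .negSucc 454975,
      .ofNat 239680],
    [.negSucc 23935, .ofNat 82688, .negSucc 235903, .negSucc 158047, .ofNat 119840]],
    [[.ofNat 0, .ofNat 0, .ofNat 0, .ofNat 0, .ofNat 0, .ofNat 0, .ofNat 417312, .ofNat 659232,
      .negSucc 4446863, .ofNat 2452912, .ofNat 4393620, .negSucc 4389643, .ofNat 2494242,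
      .negSucc 1288629, .negSucc 2673899, .ofNat 2278500],
    [.ofNat 0, .ofNat 0, .ofNat 0, .ofNat 0, .ofNat 0, .ofNat 1360560, .ofNat 378960,
      .negSucc 12299119, .ofNat 11049360, .ofNat 10755050, .negSucc 14648569, .ofNat 8884310,
      .negSucc 6364649, .negSucc 8249499, .ofNat 8592500],
    [.ofNat 0, .ofNat 0, .ofNat 0, .ofNat 0, .ofNat 1478496, .negSucc 2255999, .negSucc 2181447,
      .negSucc 1957031, .ofNat 4844608, .ofNat 2008396, .negSucc 2420854, .ofNat 2378589,
      .negSucc 8948776, .ofNat 5553315, .ofNat 5731170, .negSucc 4358549],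
    [.ofNat 0, .ofNat 0, .ofNat 0, .ofNat 524400, .negSucc 1811279, .ofNat 25134280,
      .negSucc 61496919, .ofNat 7466170, .ofNat 68415690, .negSucc 61736804, .ofNat 35050175,
      .negSucc 2303854, .negSucc 16615344, .ofNat 27723400, .negSucc 14880349, .negSucc 2425499],
    [.ofNat 0, .ofNat 0, .ofNat 43680, .ofNat 2185824, .ofNat 33870856, .negSucc 111822199,
      .ofNat 34788848, .ofNat 171702448, .negSucc 133402380, .negSucc 10342036,
      .ofNat 24145998, .negSucc 46314395, .ofNat 55018759, .negSucc 5756834, .negSucc 14754539,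
      .ofNat 3281600],
    [.ofNat 0, .ofNat 0, .ofNat 3060480, .ofNat 18943400, .negSucc 106242551, .ofNat 57306942,
      .ofNat 292858874, .negSucc 210925964, .negSucc 203248064, .ofNat 153701530,
      .negSucc 62061207, .ofNat 41687971, .ofNat 38433063, .negSucc 45997029, .ofNat 10673980,
      .ofNat 3557400],
    [.ofNat 0, .ofNat 1435200, .ofNat 3591760, .negSucc 68097391, .ofNat 67088032,
      .ofNat 332834228, .negSucc 338865722, .negSucc 375699070, .ofNat 401885250,
      .negSucc 4324235, .negSucc 44283632, .ofNat 81124439, .negSucc 87968707, .ofNat 6579750,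
      .ofNat 17005620, .negSucc 1376899],
    [.ofNat 287040, .negSucc 1534655, .negSucc 25731167, .ofNat 52065182, .ofNat 242455070,
      .negSucc 426460678, .negSucc 401446502, .ofNat 641115632, .ofNat 155190698,
      .negSucc 233112616, .ofNat 85286061, .negSucc 87020803, .negSucc 17762775,
      .ofNat 37961280, .negSucc 4538619, .negSucc 1293599],
    [.negSucc 863039, .negSucc 2836639, .ofNat 20848860, .ofNat 126675572, .negSucc 388949640,
      .negSucc 317782420, .ofNat 776929504, .ofNat 250062006, .negSucc 502903468,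
      .ofNat 56517169, .ofNat 4476357, .negSucc 43133830, .ofNat 54003127, .negSucc 7446804,
      .negSucc 5708669, .ofNat 486850],
    [.ofNat 815264, .ofNat 5979008, .ofNat 44269904, .negSucc 237266964, .negSucc 165934716,
      .ofNat 712578002, .ofNat 176881524, .negSucc 697011330, .negSucc 20337648,
      .ofNat 171525339, .negSucc 37821402, .ofNat 40745061, .negSucc 5717876, .negSucc 8766669,
      .ofNat 337050],
    [.ofNat 2099136, .ofNat 2830536, .negSucc 74649537, .negSucc 57172289, .ofNat 498287543,
      .ofNat 106882185, .negSucc 722489642, .negSucc 107865404, .ofNat 349191911,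
      .negSucc 16696174, .negSucc 18921879, .ofNat 7888418, .negSucc 3700882, .negSucc 840994,
      .negSucc 233639, .negSucc 149799],
    [.negSucc 3325271, .negSucc 9831303, .negSucc 23912843, .ofNat 261799999, .ofNat 62902047,
      .negSucc 552854490, .negSucc 80292638, .ofNat 429458315, .ofNat 11896201,
      .negSucc 102230917, .ofNat 8465820, .ofNat 11467961, .negSucc 502254, .negSucc 2317479,
      .ofNat 449400],
    [.negSucc 1816151, .negSucc 5203131, .ofNat 75536934, .ofNat 13317714, .negSucc 309893637,
      .negSucc 43747589, .ofNat 394763045, .ofNat 81026131, .negSucc 176409241,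
      .negSucc 12901027, .ofNat 36910281, .negSucc 4690754, .negSucc 6772039, .ofNat 2846200],
    [.ofNat 2928732, .ofNat 7540048, .ofNat 9531928, .negSucc 140096115, .negSucc 49723277,
      .ofNat 269477127, .ofNat 84813803, .negSucc 205892479, .negSucc 17501921,
      .ofNat 62592037, .negSucc 10070954, .negSucc 10637703, .ofNat 4404120],
    [.ofNat 746664, .ofNat 8161488, .negSucc 37254137, .negSucc 18969535, .ofNat 125838473,
      .ofNat 34483669, .negSucc 180139807, .negSucc 23438725, .ofNat 75908579,
      .negSucc 8188000, .negSucc 12933887, .ofNat 4314240],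
    [.negSucc 441407, .negSucc 2993551, .negSucc 5606995, .ofNat 48336929, .ofNat 19108907,
      .negSucc 108751665, .negSucc 13159823, .ofNat 67853639, .negSucc 12497552,
      .negSucc 12746975, .ofNat 4434080],
    [.negSucc 91391, .negSucc 5131051, .ofNat 12772182, .ofNat 1624296, .negSucc 32134444,
      .ofNat 11443889, .ofNat 40567001, .negSucc 11021562, .negSucc 8683751, .ofNat 2726360],
    [.negSucc 411235, .ofNat 1174584, .negSucc 3962103, .negSucc 592804, .ofNat 5398071,
      .ofNat 13312285, .negSucc 1062314, .negSucc 4401319, .ofNat 1048600],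
    [.negSucc 62399, .negSucc 13471, .ofNat 1526164, .negSucc 919759, .negSucc 527891,
      .negSucc 1081919, .negSucc 1713447, .ofNat 1168440],
    [.ofNat 96304, .ofNat 92960, .ofNat 692176, .negSucc 2627731, .negSucc 1665027, .ofNat 183480,
      .ofNat 449400],
    [.ofNat 13824, .ofNat 412672, .negSucc 993183, .ofNat 111232, .ofNat 574816, .negSucc 239679],
    [.ofNat 23936, .negSucc 82687, .ofNat 235904, .ofNat 158048, .negSucc 119839]],
    [[.ofNat 0, .ofNat 0, .ofNat 0, .ofNat 0, .ofNat 0, .ofNat 0, .ofNat 46368, .ofNat 73248,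
      .negSucc 427823, .ofNat 364560, .negSucc 110123, .negSucc 173963, .ofNat 1079838,
      .negSucc 765113, .negSucc 588257, .ofNat 501270],
    [.ofNat 0, .ofNat 0, .ofNat 0, .ofNat 0, .ofNat 0, .ofNat 297840, .ofNat 585072,
      .negSucc 3361567, .ofNat 1372624, .ofNat 3601570, .negSucc 1309045, .ofNat 194004,
      .negSucc 2679257, .negSucc 230575, .ofNat 2030608, .negSucc 501269],
    [.ofNat 0, .ofNat 0, .ofNat 0, .ofNat 0, .ofNat 577824, .ofNat 436560, .negSucc 8925351,
      .ofNat 9235816, .ofNat 17980072, .negSucc 23587117, .negSucc 11841498, .ofNat 16734435,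
      .ofNat 2567246, .negSucc 2179507, .negSucc 358290, .negSucc 640184],
    [.ofNat 0, .ofNat 0, .ofNat 0, .ofNat 399600, .negSucc 1173743, .negSucc 10249319,
      .ofNat 25213552, .ofNat 23958514, .negSucc 82911901, .ofNat 2508713, .ofNat 85262674,
      .negSucc 32258314, .negSucc 24928275, .ofNat 16698473, .negSucc 1462303, .negSucc 1057664],
    [.ofNat 0, .ofNat 0, .ofNat 18720, .negSucc 1657103, .negSucc 5384087, .ofNat 34781344,
      .negSucc 3310519, .negSucc 133531129, .ofNat 87679767, .ofNat 158147816,
      .negSucc 140890312, .negSucc 53479805, .ofNat 69785363, .negSucc 7036549,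
      .negSucc 7898928, .ofNat 2775430],
    [.ofNat 0, .ofNat 0, .negSucc 659999, .negSucc 1291895, .ofNat 33524720, .negSucc 49436497,
      .negSucc 122210829, .ofNat 204973825, .ofNat 160391640, .negSucc 299447854,
      .negSucc 61453131, .ofNat 182536637, .negSucc 20473865, .negSucc 38294052,
      .ofNat 10881468, .ofNat 959840],
    [.ofNat 0, .negSucc 331199, .ofNat 1022960, .ofNat 22917512, .negSucc 77110367,
      .negSucc 51122265, .ofNat 274770325, .ofNat 62228534, .negSucc 451259896, .ofNat 1018036,
      .ofNat 354009543, .negSucc 67048631, .negSucc 108247218, .ofNat 35218306, .ofNat 6814656,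
      .negSucc 2880289],
    [.negSucc 66239, .ofNat 1441536, .ofNat 5796528, .negSucc 54978209, .ofNat 14190374,
      .ofNat 243560115, .negSucc 62326299, .negSucc 509949256, .ofNat 124942080,
      .ofNat 502310737, .negSucc 151337033, .negSucc 205703176, .ofNat 80472104,
      .ofNat 23251546, .negSucc 11671511, .ofNat 66710],
    [.ofNat 416640, .negSucc 1305055, .negSucc 15824067, .ofNat 15455206, .ofNat 172324871,
      .negSucc 114435649, .negSucc 471669372, .ofNat 255631450, .ofNat 569402033,
      .negSucc 286960243, .negSucc 309197267, .ofNat 165575257, .ofNat 55363504,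
      .negSucc 35257677, .negSucc 816338, .ofNat 1296715],
    [.negSucc 840223, .negSucc 1633055, .ofNat 2014836, .ofNat 103166399, .negSucc 137618337,
      .negSucc 321328712, .ofNat 386443964, .ofNat 453553411, .negSucc 448917671,
      .negSucc 293745421, .ofNat 257296042, .ofNat 55328931, .negSucc 60964403, .ofNat 5179005,
      .ofNat 2585796, .negSucc 520554],
    [.ofNat 50912, .ofNat 2243976, .ofNat 32304106, .negSucc 109889712, .negSucc 115976916,
      .ofNat 330266636, .ofNat 188263278, .negSucc 390200336, .negSucc 133761011,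
      .ofNat 217756934, .ofNat 19430909, .negSucc 50811567, .ofNat 9485987, .ofNat 813832,
      .ofNat 202737, .negSucc 179759],
    [.ofNat 1637864, .ofNat 2187248, .negSucc 37622117, .negSucc 12807575, .ofNat 148805200,
      .ofNat 13230582, .negSucc 212111383, .negSucc 14991254, .ofNat 123462182, .ofNat 4843563,
      .negSucc 16247867, .ofNat 7766193, .negSucc 8983203, .negSucc 408514, .ofNat 1059328,
      .ofNat 179760],
    [.negSucc 1090303, .negSucc 5316627, .ofNat 5702132, .ofNat 60258030, .negSucc 38067915,
      .negSucc 95991301, .ofNat 51787945, .ofNat 8964646, .negSucc 36946962, .ofNat 69873620,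
      .ofNat 20109297, .negSucc 45083477, .negSucc 715230, .ofNat 7295112, .negSucc 778959],
    [.negSucc 1158379, .ofNat 2603444, .ofNat 19909376, .negSucc 39900181, .ofNat 2775186,
      .ofNat 79731923, .negSucc 104979221, .negSucc 49586402, .ofNat 151192596,
      .negSucc 3374184, .negSucc 83017571, .ofNat 14809683, .ofNat 15278016, .negSucc 4284279],
    [.ofNat 1150292, .ofNat 2600436, .negSucc 20625221, .ofNat 24033818, .ofNat 40114999,
      .negSucc 96982847, .negSucc 430480, .ofNat 137591894, .negSucc 41026842,
      .negSucc 86287179, .ofNat 27857855, .ofNat 19043880, .negSucc 7040599],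
    [.ofNat 229924, .negSucc 3772259, .ofNat 8246482, .ofNat 7998545, .negSucc 47054221,
      .ofNat 11126151, .ofNat 85297652, .negSucc 32823930, .negSucc 64149371, .ofNat 24901575,
      .ofNat 17429536, .negSucc 7430079],
    [.negSucc 379251, .ofNat 803560, .ofNat 2926204, .negSucc 17359948, .ofNat 3074615,
      .ofNat 37786570, .negSucc 19917809, .negSucc 31671900, .ofNat 20288243, .ofNat 10441720,
      .negSucc 5991999],
    [.ofNat 77136, .ofNat 830480, .negSucc 4742383, .ofNat 3313652, .ofNat 8575360,
      .negSucc 12367871, .negSucc 6210879, .ofNat 10590580, .ofNat 2300768, .negSucc 2366839],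
    [.negSucc 28367, .negSucc 472159, .ofNat 1945888, .negSucc 717971, .negSucc 2781235,
      .ofNat 2475468, .ofNat 474236, .negSucc 1285335, .ofNat 389480],
    [.negSucc 23935, .ofNat 202368, .negSucc 625407, .ofNat 819104, .ofNat 1559424,
      .negSucc 1620671, .negSucc 910079, .ofNat 599200],
    [.ofNat 23936, .negSucc 82687, .ofNat 211968, .ofNat 240736, .negSucc 355743, .negSucc 158047,
      .ofNat 119840]]]

end Vale.Agent.P219.D6
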