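import Vale.Agent.P219.C5.Poly

/-! # The certificate in dimension 6: reduced polynomials (generated) -/

namespace Vale.Agent.P219.D6

open Vale.Agent.P219.C5

/-- `P0H`, reduced. -/
def P0Hl : List P2 :=
  [[[.ofNat 0, .ofNat 0, .ofNat 0, .ofNat 0, .ofNat 0, .ofNat 0, .ofNat 0, .ofNat 0, .ofNat 0,
      .ofNat 0, .ofNat 109440, .negSucc 1196159, .ofNat 9165600, .negSucc 6214879,
      .negSucc 6417359, .ofNat 5468400],
    [.ofNat 0, .ofNat 0, .ofNat 0, .ofNat 0, .ofNat 0, .ofNat 0, .ofNat 0, .ofNat 0, .ofNat 0,
      .ofNat 1867200, .negSucc 457919, .ofNat 26061680, .negSucc 7761199, .negSucc 32228559,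
      .ofNat 7787280, .ofNat 10936800],
    [.ofNat 0, .ofNat 0, .ofNat 0, .ofNat 0, .ofNat 0, .ofNat 0, .ofNat 0, .ofNat 0,
      .ofNat 6942912, .ofNat 11521472, .negSucc 1843471, .ofNat 52542384, .negSucc 45621591,
      .negSucc 45181879, .ofNat 34891080, .ofNat 6673800],
    [.ofNat 0, .ofNat 0, .ofNat 0, .ofNat 0, .ofNat 0, .ofNat 0, .ofNat 0, .ofNat 9845760,
      .ofNat 23181184, .negSucc 70489295, .ofNat 124983536, .ofNat 42317208,
      .negSucc 131841943, .ofNat 11776360, .ofNat 29031640, .negSucc 3410399],
    [.ofNat 0, .ofNat 0, .ofNat 0, .ofNat 0, .ofNat 0, .ofNat 0, .ofNat 3300992, .ofNat 11680384,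
      .negSucc 59948719, .ofNat 24870352, .ofNat 181001472, .negSucc 115771439,
      .negSucc 70861239, .ofNat 61977720, .negSucc 11089239, .negSucc 6430199],
    [.ofNat 0, .ofNat 0, .ofNat 0, .ofNat 0, .ofNat 0, .negSucc 5506879, .negSucc 7211455,
      .ofNat 31870544, .negSucc 157847791, .ofNat 124600528, .negSucc 17158831,
      .negSucc 102776295, .ofNat 102307416, .ofNat 2866920, .negSucc 28154599, .negSucc 1688399],
    [.ofNat 0, .ofNat 0, .ofNat 0, .ofNat 0, .negSucc 5855551, .negSucc 9384511, .ofNat 67816752,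
      .negSucc 143722063, .negSucc 109618527, .ofNat 38798752, .negSucc 89599103,
      .ofNat 115681216, .ofNat 63087016, .negSucc 44281639, .negSucc 8208359, .ofNat 149800],
    [.ofNat 0, .ofNat 0, .ofNat 0, .negSucc 1301119, .negSucc 3723263, .ofNat 27535376,
      .negSucc 19927791, .negSucc 172655391, .ofNat 113940864, .negSucc 81579759,
      .ofNat 13027952, .ofNat 109348920, .negSucc 25383943, .negSucc 11874999, .ofNat 2211240,
      .negSucc 599199],
    [.ofNat 0, .ofNat 0, .ofNat 1009280, .negSucc 395135, .negSucc 7891887, .ofNat 3731152,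
      .negSucc 50242047, .ofNat 241492672, .ofNat 42382288, .negSucc 189676943,
      .ofNat 62393952, .ofNat 21283552, .negSucc 12916319, .ofNat 4649760, .ofNat 1330320,
      .negSucc 299599],
    [.ofNat 0, .ofNat 752640, .ofNat 1286400, .negSucc 9695999, .negSucc 15660319,
      .negSucc 7458239, .ofNat 265666112, .ofNat 205813072, .negSucc 321718351,
      .negSucc 31608511, .ofNat 88443072, .negSucc 24923583, .negSucc 7061087, .ofNat 6869680,
      .ofNat 898800],
    [.ofNat 150528, .ofNat 1091072, .negSucc 820959, .negSucc 5177119, .negSucc 26197639,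
      .ofNat 136159864, .ofNat 179798920, .negSucc 304856759, .negSucc 111884703,
      .ofNat 166862240, .negSucc 11050303, .negSucc 40217311, .ofNat 4765056, .ofNat 5752320],
    [.ofNat 242176, .ofNat 1696256, .ofNat 4617024, .negSucc 6182775, .ofNat 8720312,
      .ofNat 62218952, .negSucc 219111943, .negSucc 162339583, .ofNat 200787584,
      .ofNat 38151936, .negSucc 66657087, .negSucc 3311487, .ofNat 9107840],
    [.ofNat 501248, .ofNat 2868736, .ofNat 8672848, .negSucc 17578751, .ofNat 12912616,
      .negSucc 113064615, .negSucc 128818119, .ofNat 165526392, .ofNat 63758160,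
      .negSucc 67103151, .negSucc 8069983, .ofNat 8748320],
    [.ofNat 495104, .ofNat 3371712, .negSucc 3054751, .ofNat 536120, .negSucc 20818375,
      .negSucc 52066919, .ofNat 105521640, .ofNat 70187488, .negSucc 52103567,
      .negSucc 13861855, .ofNat 8029280],
    [.ofNat 187328, .ofNat 749344, .negSucc 3062223, .ofNat 9669488, .negSucc 16867143,
      .ofNat 40777800, .ofNat 59762920, .negSucc 22937543, .negSucc 12703167, .ofNat 4314240],
    [.ofNat 77920, .negSucc 255167, .ofNat 4755136, .negSucc 3977879, .negSucc 9651127,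
      .ofNat 18085816, .ofNat 1344280, .negSucc 3673247, .ofNat 719040],
    [.ofNat 207744, .ofNat 1323456, .ofNat 3683328, .negSucc 15103775, .negSucc 7466863,
      .ofNat 2220432, .negSucc 528175, .ofNat 1138480],
    [.ofNat 253888, .ofNat 1815936, .negSucc 2481535, .negSucc 4936399, .negSucc 588943,
      .negSucc 275663, .ofNat 659120],
    [.ofNat 123392, .ofNat 494592, .negSucc 1042751, .ofNat 854656, .ofNat 670272, .negSucc 479359],
    [.ofNat 47872, .negSucc 165375, .ofNat 471808, .ofNat 316096, .negSucc 239679]],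
    [[],
    [.ofNat 0, .ofNat 0, .ofNat 0, .ofNat 0, .ofNat 0, .ofNat 0, .ofNat 0, .ofNat 0, .ofNat 665856,
      .negSucc 317183, .ofNat 3928608, .negSucc 519903, .negSucc 17028719, .ofNat 11708368,
      .ofNat 10267776, .negSucc 8749439],
    [.ofNat 0, .ofNat 0, .ofNat 0, .ofNat 0, .ofNat 0, .ofNat 0, .ofNat 0, .ofNat 4121280,
      .ofNat 2928192, .ofNat 6340272, .negSucc 769903, .negSucc 49241807, .ofNat 12115600,
      .ofNat 53456416, .negSucc 11563647, .negSucc 17498879],
    [.ofNat 0, .ofNat 0, .ofNat 0, .ofNat 0, .ofNat 0, .ofNat 0, .ofNat 9250560, .ofNat 13293312,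
      .negSucc 8172287, .ofNat 9012096, .negSucc 12293111, .negSucc 103820311, .ofNat 79347288,
      .ofNat 74901720, .negSucc 54193519, .negSucc 10877999],
    [.ofNat 0, .ofNat 0, .ofNat 0, .ofNat 0, .ofNat 0, .ofNat 9423360, .ofNat 20327040,
      .negSucc 23841935, .ofNat 31349872, .ofNat 96814280, .negSucc 266727079,
      .negSucc 43663415, .ofNat 228876536, .negSucc 30032335, .negSucc 48223311, .ofNat 7385280],
    [.ofNat 0, .ofNat 0, .ofNat 0, .ofNat 0, .ofNat 4357504, .ofNat 16598272, .negSucc 23976191,
      .ofNat 49945568, .ofNat 106730488, .negSucc 228758231, .negSucc 226479751,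
      .ofNat 299760360, .ofNat 65286952, .negSucc 126578231, .ofNat 23317224, .ofNat 13147400],
    [.ofNat 0, .ofNat 0, .ofNat 0, .ofNat 1217600, .ofNat 9368128, .negSucc 21266671,
      .ofNat 50953648, .negSucc 6297175, .negSucc 106828935, .negSucc 167282759,
      .ofNat 347890872, .ofNat 121173016, .negSucc 267210807, .ofNat 278808, .ofNat 55919672,
      .ofNat 3515680],
    [.ofNat 0, .ofNat 0, .ofNat 488320, .ofNat 3484160, .negSucc 14841983, .ofNat 18655104,
      .negSucc 33379863, .negSucc 149229671, .ofNat 19970792, .ofNat 444238856,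
      .ofNat 195776800, .negSucc 397079247, .negSucc 107543479, .ofNat 97278952,
      .ofNat 15667000, .negSucc 149799],
    [.ofNat 0, .ofNat 0, .ofNat 317440, .negSucc 9583407, .negSucc 25227951, .ofNat 66166488,
      .negSucc 175272503, .negSucc 31515255, .ofNat 361798760, .ofNat 296286896,
      .negSucc 355982895, .negSucc 201704263, .ofNat 107849976, .ofNat 19621448,
      .negSucc 6015287, .ofNat 1617840],
    [.ofNat 0, .negSucc 147199, .negSucc 9340319, .negSucc 33643967, .ofNat 95846680,
      .negSucc 11687159, .negSucc 151074839, .ofNat 15006248, .ofNat 192084944,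
      .negSucc 110317935, .negSucc 203785159, .ofNat 86173720, .ofNat 43860784,
      .negSucc 16308687, .negSucc 4550583, .ofNat 808920],
    [.negSucc 29439, .negSucc 4991743, .negSucc 18683839, .ofNat 29454792, .ofNat 131241848,
      .negSucc 98634231, .negSucc 275604183, .ofNat 32956960, .ofNat 200862336,
      .negSucc 211245799, .negSucc 39322343, .ofNat 123021856, .ofNat 13046128,
      .negSucc 21300135, .negSucc 2906119],
    [.negSucc 941311, .negSucc 6810175, .negSucc 5852367, .ofNat 101044512, .negSucc 22457183,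
      .negSucc 303270047, .ofNat 10958896, .ofNat 456953616, .negSucc 105366135,
      .negSucc 284050327, .ofNat 112651496, .ofNat 106794328, .negSucc 18142495,
      .negSucc 17137119],
    [.negSucc 983103, .negSucc 2997311, .ofNat 30425792, .ofNat 7522256, .negSucc 203678943,
      .negSucc 45066143, .ofNat 517162400, .ofNat 126895096, .negSucc 425028551,
      .ofNat 2066408, .ofNat 175753752, .negSucc 818527, .negSucc 27443359],
    [.negSucc 123839, .ofNat 6217568, .ofNat 17539712, .negSucc 89749743, .negSucc 80415799,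
      .ofNat 322086792, .ofNat 168715440, .negSucc 369932879, .negSucc 59600423,
      .ofNat 175199912, .ofNat 11073520, .negSucc 27862799],
    [.ofNat 520352, .ofNat 7990016, .negSucc 16378815, .negSucc 33414007, .ofNat 113072920,
      .ofNat 92574640, .negSucc 261946159, .negSucc 110891303, .ofNat 140492552,
      .ofNat 28201840, .negSucc 24866799],
    [.ofNat 759232, .negSucc 611039, .negSucc 8845791, .ofNat 28281264, .ofNat 62253776,
      .negSucc 117857967, .negSucc 115698527, .ofNat 63979632, .ofNat 26463104,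
      .negSucc 12343519],
    [.ofNat 186336, .negSucc 4218879, .ofNat 624864, .ofNat 21518448, .ofNat 5071024,
      .negSucc 35784719, .ofNat 1749504, .ofNat 6990032, .negSucc 1677759],
    [.negSucc 465855, .negSucc 2603423, .negSucc 4221551, .ofNat 21587344, .ofNat 10362456,
      .negSucc 2731447, .ofNat 792264, .negSucc 1707719],
    [.negSucc 440671, .negSucc 2517183, .ofNat 3132544, .ofNat 7009480, .ofNat 1183016,
      .ofNat 413496, .negSucc 988679],
    [.negSucc 185087, .negSucc 741887, .ofNat 1564128, .negSucc 1281983, .negSucc 1005407,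
      .ofNat 719040],
    [.negSucc 71807, .ofNat 248064, .negSucc 707711, .negSucc 474143, .ofNat 359520]],
    [[],
    [],
    [.ofNat 0, .ofNat 0, .ofNat 0, .ofNat 0, .ofNat 0, .ofNat 0, .ofNat 556416, .ofNat 878976,
      .negSucc 5730335, .ofNat 3546592, .ofNat 4063248, .negSucc 4911535, .ofNat 5733756,
      .negSucc 3583971, .negSucc 4438673, .ofNat 3782310],
    [.ofNat 0, .ofNat 0, .ofNat 0, .ofNat 0, .ofNat 0, .ofNat 2254080, .ofNat 3386112,
      .negSucc 20406127, .ofNat 2423088, .ofNat 29746624, .negSucc 10779583, .negSucc 878641,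
      .ofNat 304602, .negSucc 18404513, .ofNat 4042202, .ofNat 7564620],
    [.ofNat 0, .ofNat 0, .ofNat 0, .ofNat 0, .ofNat 3211968, .ofNat 4455360, .negSucc 20847375,
      .negSucc 25805775, .ofNat 72195736, .negSucc 907911, .negSucc 67825277, .ofNat 55796266,
      .negSucc 11169850, .negSucc 37197334, .ofNat 21506425, .ofNat 5067825],
    [.ofNat 0, .ofNat 0, .ofNat 0, .ofNat 1723200, .ofNat 2824896, .ofNat 3246160,
      .negSucc 55818863, .ofNat 65978776, .ofNat 18422984, .negSucc 144636077,
      .ofNat 126185218, .ofNat 63655799, .negSucc 111140998, .ofNat 12303069, .ofNat 22955563,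
      .negSucc 4948019],
    [.ofNat 0, .ofNat 0, .ofNat 99840, .ofNat 1859712, .ofNat 18368656, .negSucc 33985967,
      .negSucc 15174143, .ofNat 18590416, .negSucc 97673937, .ofNat 124400342,
      .ofNat 137676788, .negSucc 181750001, .negSucc 18618648, .ofNat 75506813,
      .negSucc 15181360, .negSucc 8449524],
    [.ofNat 0, .ofNat 0, .ofNat 1336320, .ofNat 13291424, .ofNat 10304000, .negSucc 86421375,
      .negSucc 7475679, .ofNat 64322206, .ofNat 135234206, .ofNat 71901350, .negSucc 303917169,
      .negSucc 44808858, .ofNat 188389905, .negSucc 2708456, .negSucc 34831422,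
      .negSucc 2281369],
    [.ofNat 0, .ofNat 441600, .ofNat 7309600, .ofNat 17730080, .negSucc 79369591,
      .negSucc 31899575, .ofNat 159862906, .ofNat 225086642, .negSucc 31498959,
      .negSucc 457104711, .negSucc 118790451, .ofNat 312769800, .ofNat 58741235,
      .negSucc 64111042, .negSucc 9219014, .negSucc 18724],
    [.ofNat 88320, .ofNat 2679552, .ofNat 6086336, .negSucc 29596375, .negSucc 32713959,
      .ofNat 100964870, .ofNat 237281934, .negSucc 12149343, .negSucc 469741747,
      .negSucc 184474013, .ofNat 368615534, .ofNat 105731201, .negSucc 95942414,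
      .negSucc 7564776, .ofNat 5097087, .negSucc 1378159],
    [.ofNat 364800, .ofNat 1496704, .negSucc 3225647, .negSucc 7711935, .ofNat 35840798,
      .ofNat 77543270, .negSucc 11850707, .negSucc 271545027, .negSucc 129382225,
      .ofNat 318542498, .ofNat 149899280, .negSucc 125311911, .negSucc 37804629,
      .ofNat 15749222, .ofNat 4497816, .negSucc 689079],
    [.negSucc 12927, .ofNat 809536, .ofNat 8839200, .ofNat 28940060, .negSucc 63545407,
      .negSucc 35790091, .negSucc 28251107, .negSucc 139513513, .ofNat 125392410,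
      .ofNat 285716728, .negSucc 45348847, .negSucc 130493853, .negSucc 9459625,
      .ofNat 20048104, .ofNat 2786280],
    [.ofNat 391744, .ofNat 4201504, .ofNat 20273756, .negSucc 69214851, .negSucc 14581068,
      .ofNat 146068875, .negSucc 146500598, .negSucc 197509886, .ofNat 262828684,
      .ofNat 182097964, .negSucc 139936599, .negSucc 95105971, .ofNat 19567552, .ofNat 15699040],
    [.ofNat 1068000, .ofNat 5572512, .negSucc 31051639, .negSucc 21627110, .ofNat 193763919,
      .ofNat 3075241, .negSucc 360736328, .ofNat 46815808, .ofNat 316017432, .negSucc 63317847,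
      .negSucc 155219879, .ofNat 7729856, .ofNat 25525920],
    [.ofNat 254048, .negSucc 6399151, .negSucc 28580813, .ofNat 103995088, .ofNat 74490123,
      .negSucc 243637998, .negSucc 40538778, .ofNat 271925325, .negSucc 14187677,
      .negSucc 151579957, .negSucc 2426335, .ofNat 26604480],
    [.negSucc 780367, .negSucc 11159975, .ofNat 21409356, .ofNat 34537369, .negSucc 103906538,
      .negSucc 41650358, .ofNat 189205143, .ofNat 42140844, .negSucc 115301537,
      .negSucc 17317855, .ofNat 22410080],
    [.negSucc 766439, .negSucc 287211, .ofNat 10257138, .negSucc 36772233, .negSucc 45519318,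
      .ofNat 83096159, .ofNat 62250383, .negSucc 47308198, .negSucc 16994175, .ofNat 9826880],
    [.negSucc 202467, .ofNat 3747320, .negSucc 5650879, .negSucc 18631620, .ofNat 1759551,
      .ofNat 20744673, .ofNat 1469881, .negSucc 3601231, .negSucc 119839],
    [.ofNat 123808, .ofNat 1216800, .ofNat 843092, .negSucc 9833271, .negSucc 4089435,
      .ofNat 4850448, .ofNat 837032, .negSucc 629159],
    [.ofNat 123952, .ofNat 918304, .negSucc 1222383, .negSucc 2653331, .ofNat 192316,
      .ofNat 178264, .ofNat 89880],
    [.ofNat 61696, .ofNat 247296, .negSucc 521375, .ofNat 427328, .ofNat 335136, .negSucc 239679],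
    [.ofNat 23936, .negSucc 82687, .ofNat 235904, .ofNat 158048, .negSucc 119839]],
    [[],
    [],
    [],
    [.ofNat 0, .ofNat 0, .ofNat 0, .ofNat 0, .ofNat 0, .ofNat 0, .negSucc 46367, .negSucc 73247,
      .ofNat 427824, .negSucc 364559, .ofNat 110124, .ofNat 173964, .negSucc 1079837,
      .ofNat 765114, .ofNat 588258, .negSucc 501269],
    [.ofNat 0, .ofNat 0, .ofNat 0, .ofNat 0, .ofNat 0, .negSucc 297839, .negSucc 724175,
      .ofNat 3141824, .negSucc 89151, .negSucc 4695249, .ofNat 1639418, .ofNat 327888,
      .negSucc 560255, .ofNat 2525918, .negSucc 265833, .negSucc 1002539],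
    [.ofNat 0, .ofNat 0, .ofNat 0, .ofNat 0, .negSucc 577823, .negSucc 1330079, .ofNat 6891928,
      .ofNat 409400, .negSucc 19530999, .ofNat 10595048, .ofNat 16429381, .negSucc 16272662,
      .negSucc 1008499, .ofNat 7461920, .negSucc 2203984, .negSucc 863624],
    [.ofNat 0, .ofNat 0, .ofNat 0, .negSucc 399599, .negSucc 559727, .ofNat 7152600,
      .negSucc 2411607, .negSucc 32229033, .ofNat 25014182, .ofNat 42997621, .negSucc 40782660,
      .negSucc 17369373, .ofNat 22503706, .negSucc 1125352, .negSucc 3763890, .ofNat 973140],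
    [.ofNat 0, .ofNat 0, .negSucc 18719, .ofNat 458304, .ofNat 5438376, .negSucc 9631143,
      .negSucc 25324263, .ofNat 38757652, .ofNat 45866627, .negSucc 65635346,
      .negSucc 29106394, .ofNat 50517561, .ofNat 190999, .negSucc 16199350, .ofNat 2953377,
      .ofNat 1732325],
    [.ofNat 0, .ofNat 0, .ofNat 603840, .ofNat 3865608, .negSucc 16108231, .negSucc 2244813,
      .ofNat 60364790, .ofNat 8395633, .negSucc 117365304, .negSucc 15856000, .ofNat 112911311,
      .ofNat 4851505, .negSucc 47472754, .ofNat 533979, .ofNat 7066351, .ofNat 454090],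
    [.ofNat 0, .ofNat 331200, .ofNat 844720, .negSucc 13095199, .ofNat 11910816, .ofNat 80433856,
      .negSucc 20114770, .negSucc 185543624, .negSucc 13421716, .ofNat 191317623,
      .ofNat 31260914, .negSucc 87318909, .negSucc 12240336, .ofNat 13856331, .ofNat 1760375,
      .ofNat 18725],
    [.ofNat 66240, .negSucc 447935, .negSucc 5092607, .ofNat 4554090, .ofNat 75305146,
      .negSucc 5155248, .negSucc 204436646, .negSucc 33110864, .ofNat 232755311,
      .ofNat 53574788, .negSucc 122720551, .negSucc 20290506, .ofNat 25416149, .ofNat 516159,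
      .negSucc 1293038, .ofNat 359520],
    [.negSucc 217919, .negSucc 1032351, .negSucc 1384075, .ofNat 41358272, .ofNat 1749887,
      .negSucc 144576478, .negSucc 20931464, .ofNat 210062463, .ofNat 51763746,
      .negSucc 142124261, .negSucc 39835818, .ofNat 40361457, .ofNat 10133199,
      .negSucc 4228858, .negSucc 1277551, .ofNat 179760],
    [.negSucc 12255, .ofNat 211008, .ofNat 9955480, .negSucc 5849052, .negSucc 71136622,
      .negSucc 16501120, .ofNat 143956811, .ofNat 90422948, .negSucc 107478739,
      .negSucc 102034104, .ofNat 22619071, .ofNat 39308051, .ofNat 2875217, .negSucc 5557727,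
      .negSucc 778959],
    [.ofNat 632320, .ofNat 1038168, .negSucc 3378045, .negSucc 27178171, .negSucc 27377466,
      .ofNat 48804189, .ofNat 101964903, .negSucc 1829072, .negSucc 111211134,
      .negSucc 43911674, .ofNat 45213209, .ofNat 27360843, .negSucc 5843783, .negSucc 4284279],
    [.ofNat 77944, .negSucc 738119, .negSucc 3762535, .negSucc 9821508, .negSucc 15777844,
      .ofNat 38108869, .ofNat 65204195, .negSucc 51702344, .negSucc 82895620, .ofNat 27399465,
      .ofNat 44194463, .negSucc 3246359, .negSucc 7040599],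
    [.negSucc 585079, .ofNat 198772, .ofNat 3099878, .negSucc 14037093, .ofNat 1730159,
      .ofNat 47404221, .negSucc 18113257, .negSucc 68161513, .ofNat 14414765, .ofNat 42025695,
      .negSucc 546463, .negSucc 7430079],
    [.negSucc 198371, .ofNat 1245400, .negSucc 2700179, .ofNat 75255, .ofNat 22371359,
      .negSucc 3041677, .negSucc 43008233, .negSucc 1620176, .ofNat 29527427, .ofNat 3341200,
      .negSucc 5991999],
    [.ofNat 87776, .negSucc 198671, .negSucc 537487, .ofNat 8481720, .ofNat 6030756,
      .negSucc 16245979, .negSucc 9050251, .ofNat 10329772, .ofNat 3469208, .negSucc 2366839],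
    [.ofNat 43440, .negSucc 361183, .ofNat 1341472, .ofNat 3183756, .negSucc 237427,
      .negSucc 3334835, .negSucc 1536963, .ofNat 512264, .ofNat 389480],
    [.ofNat 47872, .negSucc 45695, .ofNat 10496, .ofNat 1541312, .ofNat 492192, .negSucc 2094815,
      .negSucc 550559, .ofNat 599200],
    [.ofNat 23936, .negSucc 82687, .ofNat 211968, .ofNat 240736, .negSucc 355743, .negSucc 158047,
      .ofNat 119840]]]

/-- `P1L`, reduced. -/
def P1Ll : List P2 :=
  [[[.ofNat 0, .ofNat 0, .ofNat 0, .ofNat 0, .ofNat 0, .ofNat 0, .ofNat 0, .ofNat 415152,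
      .ofNat 199472, .negSucc 876203, .ofNat 233492, .ofNat 1846710, .negSucc 1360113,
      .negSucc 855647, .ofNat 729120],
    [.ofNat 0, .ofNat 0, .ofNat 0, .ofNat 0, .ofNat 0, .ofNat 0, .ofNat 1594608, .ofNat 1362992,
      .negSucc 2063921, .negSucc 371389, .ofNat 4973524, .negSucc 699135, .negSucc 4709219,
      .ofNat 421184, .ofNat 1458240],
    [.ofNat 0, .ofNat 0, .ofNat 0, .ofNat 0, .ofNat 0, .ofNat 2239416, .ofNat 3294936,
      .ofNat 1165506, .negSucc 4265505, .negSucc 558192, .ofNat 11002103, .negSucc 6249590,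
      .negSucc 6293082, .ofNat 3522712, .ofNat 758520],
    [.ofNat 0, .ofNat 0, .ofNat 0, .ofNat 0, .ofNat 1545624, .ofNat 4492472, .ofNat 4421540,
      .negSucc 6825679, .negSucc 13735727, .ofNat 15541182, .ofNat 9362916, .negSucc 12035633,
      .negSucc 1001731, .ofNat 2739360, .negSucc 426299],
    [.ofNat 0, .ofNat 0, .ofNat 0, .ofNat 948160, .ofNat 4163952, .negSucc 1214479,
      .negSucc 751575, .negSucc 15865564, .negSucc 10479168, .ofNat 28429587, .negSucc 3789548,
      .negSucc 8303031, .ofNat 4796612, .negSucc 950709, .negSucc 700629],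
    [.ofNat 0, .ofNat 0, .ofNat 789040, .ofNat 2569296, .negSucc 6317221, .ofNat 2896126,
      .negSucc 1282925, .negSucc 30341511, .ofNat 14497052, .ofNat 10101404, .negSucc 11324627,
      .ofNat 5893444, .ofNat 2140554, .negSucc 2359727, .negSucc 198799],
    [.ofNat 0, .ofNat 376320, .ofNat 1167680, .negSucc 3813357, .negSucc 3552561, .ofNat 14126065,
      .negSucc 21197350, .negSucc 13621230, .ofNat 27255053, .negSucc 14142747,
      .negSucc 2765771, .ofNat 7674766, .negSucc 1423377, .negSucc 760153, .ofNat 22470],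
    [.ofNat 94080, .ofNat 560000, .negSucc 1014435, .negSucc 4723671, .ofNat 12816140,
      .negSucc 14995601, .negSucc 19070187, .ofNat 47719408, .negSucc 1977423,
      .negSucc 24330583, .ofNat 6074170, .ofNat 3119074, .negSucc 696901, .ofNat 66516,
      .negSucc 14979],
    [.ofNat 158720, .ofNat 126336, .negSucc 305623, .ofNat 3142447, .negSucc 12161248,
      .negSucc 19059606, .ofNat 49442537, .ofNat 28480668, .negSucc 39152159, .negSucc 5513824,
      .ofNat 7342075, .ofNat 970093, .ofNat 33581, .negSucc 71601, .negSucc 7489],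
    [.ofNat 140320, .ofNat 500096, .ofNat 1513390, .negSucc 5959219, .negSucc 20766691,
      .ofNat 33746144, .ofNat 40440646, .negSucc 38000697, .negSucc 16915827, .ofNat 11246048,
      .ofNat 2311662, .negSucc 256219, .negSucc 76687, .negSucc 29959],
    [.ofNat 117256, .ofNat 1098576, .negSucc 1966471, .negSucc 9472605, .ofNat 14811950,
      .ofNat 24328048, .negSucc 28896151, .negSucc 20648620, .ofNat 14115163, .ofNat 4073177,
      .negSucc 1176394, .negSucc 277323, .negSucc 14979],
    [.negSucc 51319, .ofNat 222328, .negSucc 1231363, .ofNat 5163278, .ofNat 12649188,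
      .negSucc 20931807, .negSucc 21573061, .ofNat 13923026, .ofNat 7459626, .negSucc 2145523,
      .negSucc 616387, .negSucc 29959],
    [.negSucc 69707, .negSucc 524823, .ofNat 2917784, .ofNat 6821840, .negSucc 9591055,
      .negSucc 13660616, .ofNat 8329107, .ofNat 6407811, .negSucc 1411556, .negSucc 524949,
      .negSucc 112349],
    [.ofNat 120536, .ofNat 75656, .ofNat 1096038, .negSucc 1357081, .negSucc 4680929,
      .ofNat 4291756, .ofNat 4800758, .negSucc 1102999, .negSucc 677911, .ofNat 29960],
    [.ofNat 117628, .ofNat 437912, .negSucc 989327, .negSucc 2581672, .ofNat 2001415,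
      .ofNat 3439637, .negSucc 504894, .negSucc 477275, .ofNat 14980],
    [.ofNat 26592, .ofNat 157008, .negSucc 374595, .negSucc 491895, .ofNat 596176, .ofNat 120588,
      .negSucc 123231, .ofNat 29960],
    [.ofNat 8976, .negSucc 31007, .ofNat 64528, .ofNat 141956, .negSucc 280843, .negSucc 158047,
      .ofNat 119840]],
    [[.ofNat 0, .ofNat 0, .ofNat 0, .ofNat 0, .ofNat 0, .ofNat 0, .ofNat 0, .negSucc 663839,
      .negSucc 478239, .ofNat 2802960, .negSucc 1344559, .negSucc 2222099, .ofNat 1763020,
      .ofNat 267390, .negSucc 227849],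
    [.ofNat 0, .ofNat 0, .ofNat 0, .ofNat 0, .ofNat 0, .ofNat 0, .negSucc 2325359,
      .negSucc 1250799, .ofNat 6307600, .negSucc 1661279, .negSucc 6095709, .ofNat 2755730,
      .ofNat 2320580, .negSucc 364009, .negSucc 227849],
    [.ofNat 0, .ofNat 0, .ofNat 0, .ofNat 0, .ofNat 0, .negSucc 3030047, .negSucc 1752527,
      .ofNat 131992, .ofNat 11683448, .negSucc 6260143, .negSucc 7070069, .ofNat 7958799,
      .negSucc 1246210, .negSucc 937126, .ofNat 208005],
    [.ofNat 0, .ofNat 0, .ofNat 0, .ofNat 0, .negSucc 2184191, .negSucc 3385119, .negSucc 5286279,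
      .ofNat 28584144, .negSucc 2236557, .negSucc 22253313, .ofNat 12751486, .ofNat 827375,
      .negSucc 5313068, .ofNat 115053, .ofNat 450555],
    [.ofNat 0, .ofNat 0, .ofNat 0, .negSucc 1713999, .negSucc 4563919, .ofNat 5275024,
      .ofNat 17397544, .ofNat 6490864, .negSucc 37119821, .ofNat 7860116, .ofNat 22539568,
      .negSucc 12981300, .negSucc 2557276, .ofNat 1347957, .ofNat 122395],
    [.ofNat 0, .ofNat 0, .negSucc 1455999, .negSucc 2662351, .ofNat 14266632, .negSucc 2927847,
      .ofNat 8043274, .negSucc 49045417, .negSucc 3928367, .ofNat 51155338, .negSucc 13155523,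
      .negSucc 9352448, .ofNat 4248881, .ofNat 608719, .negSucc 233344],
    [.ofNat 0, .negSucc 752639, .negSucc 770559, .ofNat 9948168, .negSucc 3437311,
      .negSucc 7182255, .negSucc 21114437, .negSucc 13018865, .ofNat 46762968,
      .negSucc 5232781, .negSucc 21685947, .ofNat 9466741, .ofNat 2615599, .negSucc 736102,
      .negSucc 95654],
    [.negSucc 188159, .negSucc 396799, .ofNat 3193680, .negSucc 1818439, .negSucc 13015137,
      .ofNat 29111082, .negSucc 10833039, .ofNat 20973796, .negSucc 28319, .negSucc 35336529,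
      .ofNat 10186024, .ofNat 7464327, .negSucc 1717894, .negSucc 419930, .ofNat 33705],
    [.negSucc 136639, .ofNat 260480, .negSucc 3152623, .negSucc 5535483, .ofNat 40342602,
      .ofNat 332870, .negSucc 13768239, .ofNat 9793254, .negSucc 25159945, .ofNat 1228338,
      .ofNat 9124956, .negSucc 2115447, .negSucc 550133, .ofNat 21576, .negSucc 14979],
    [.negSucc 97087, .negSucc 949119, .negSucc 2223067, .ofNat 27599312, .negSucc 6201907,
      .negSucc 57839455, .ofNat 28517464, .ofNat 11211278, .negSucc 10139535, .ofNat 6312796,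
      .negSucc 1236849, .negSucc 1420709, .ofNat 195490, .ofNat 36556, .negSucc 14979],
    [.ofNat 115040, .negSucc 220351, .ofNat 15503188, .negSucc 14971460, .negSucc 69108976,
      .ofNat 25595813, .ofNat 40364697, .negSucc 15001469, .ofNat 1004340, .ofNat 2944298,
      .negSucc 1394187, .negSucc 631183, .ofNat 16316, .ofNat 59920],
    [.ofNat 665888, .ofNat 4400704, .negSucc 3082677, .negSucc 44455658, .ofNat 15234953,
      .ofNat 54287605, .negSucc 26005678, .negSucc 14196855, .ofNat 13305510, .ofNat 1865692,
      .negSucc 2964879, .negSucc 109299, .ofNat 224700],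
    [.ofNat 195456, .ofNat 2237536, .negSucc 18891821, .ofNat 16857199, .ofNat 51075519,
      .negSucc 27612870, .negSucc 25984386, .ofNat 15043560, .ofNat 3771910, .negSucc 3414271,
      .negSucc 193583, .ofNat 359520],
    [.negSucc 427847, .negSucc 4542087, .ofNat 5938422, .ofNat 29126955, .negSucc 11299472,
      .negSucc 23373970, .ofNat 9497275, .ofNat 4741158, .negSucc 3440113, .negSucc 490575,
      .ofNat 539280],
    [.negSucc 235979, .negSucc 2117471, .ofNat 9618790, .negSucc 5901286, .negSucc 17237018,
      .ofNat 8035573, .ofNat 5714539, .negSucc 3469199, .negSucc 619451, .ofNat 479360],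
    [.ofNat 45588, .ofNat 1928344, .negSucc 3202851, .negSucc 9317350, .ofNat 3847513,
      .ofNat 4214919, .negSucc 1996704, .negSucc 563275, .ofNat 314580],
    [.ofNat 82336, .ofNat 729584, .negSucc 2589019, .ofNat 1326584, .ofNat 2852232,
      .negSucc 1263655, .negSucc 543035, .ofNat 239680],
    [.ofNat 12256, .negSucc 466495, .ofNat 895200, .ofNat 1613528, .negSucc 482967,
      .negSucc 297579, .ofNat 74900],
    [.negSucc 18879, .negSucc 153023, .ofNat 337296, .negSucc 16687, .negSucc 148463, .ofNat 59920],
    [.negSucc 11967, .ofNat 41344, .negSucc 117951, .negSucc 79023, .ofNat 59920]],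
    [[.ofNat 0, .ofNat 0, .ofNat 0, .ofNat 0, .ofNat 0, .ofNat 0, .ofNat 0, .ofNat 248688,
      .ofNat 278768, .negSucc 1899395, .ofNat 812028, .ofNat 2666790, .negSucc 1956625,
      .negSucc 1016081, .ofNat 865830],
    [.ofNat 0, .ofNat 0, .ofNat 0, .ofNat 0, .ofNat 0, .ofNat 0, .ofNat 730752, .ofNat 54272,
      .negSucc 3883533, .ofNat 3213062, .ofNat 5066710, .negSucc 5554653, .negSucc 1913927,
      .ofNat 2287320],
    [.ofNat 0, .ofNat 0, .ofNat 0, .ofNat 0, .ofNat 0, .ofNat 790632, .negSucc 678551,
      .ofNat 1058822, .negSucc 3620729, .ofNat 263833, .ofNat 4460909, .negSucc 4086497,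
      .ofNat 1278238, .ofNat 1973211, .negSucc 1439864],
    [.ofNat 0, .ofNat 0, .ofNat 0, .ofNat 0, .ofNat 638568, .ofNat 341432, .ofNat 5272628,
      .negSucc 20151539, .ofNat 3299032, .ofNat 26985036, .negSucc 19442221, .negSucc 4199667,
      .ofNat 11444744, .negSucc 2975259, .negSucc 1212749],
    [.ofNat 0, .ofNat 0, .ofNat 0, .ofNat 765840, .ofNat 1307024, .negSucc 1040039,
      .negSucc 18893799, .ofNat 16189547, .ofNat 39221043, .negSucc 37316295,
      .negSucc 23673991, .ofNat 26837195, .ofNat 855955, .negSucc 5436245, .ofNat 1183770],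
    [.ofNat 0, .ofNat 0, .ofNat 666960, .ofNat 275376, .negSucc 6767865, .negSucc 2558349,
      .ofNat 16253820, .ofNat 40215492, .negSucc 43404647, .negSucc 50224005, .ofNat 50301490,
      .ofNat 9835522, .negSucc 18569735, .ofNat 2455966, .ofNat 1519980],
    [.ofNat 0, .ofNat 376320, .negSucc 275039, .negSucc 5033801, .ofNat 5809086, .ofNat 6978923,
      .ofNat 20351947, .negSucc 42197163, .negSucc 46710731, .ofNat 73510313, .ofNat 19873833,
      .negSucc 39283319, .ofNat 1533936, .ofNat 5648730, .negSucc 583029],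
    [.ofNat 94080, .negSucc 163199, .negSucc 1301691, .ofNat 6940252, .negSucc 3670683,
      .negSucc 8446079, .negSucc 20683781, .negSucc 26542871, .ofNat 68931358, .ofNat 32376920,
      .negSucc 55471225, .negSucc 2965991, .ofNat 12619386, .negSucc 1199027, .negSucc 517439],
    [.negSucc 22079, .ofNat 110592, .ofNat 3361168, .negSucc 6990148, .negSucc 14688328,
      .ofNat 6438918, .negSucc 4750161, .ofNat 37830837, .ofNat 19814729, .negSucc 55566558,
      .negSucc 494742, .ofNat 19831410, .negSucc 3486477, .negSucc 1655048, .ofNat 265895],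
    [.ofNat 81120, .ofNat 313344, .negSucc 2660709, .negSucc 14390281, .ofNat 30607904,
      .ofNat 29157974, .negSucc 23298919, .negSucc 14051757, .negSucc 17892977, .ofNat 271056,
      .ofNat 14466336, .negSucc 955793, .negSucc 1302751, .negSucc 344539],
    [.negSucc 222183, .negSucc 928655, .negSucc 10749171, .ofNat 35854930, .ofNat 29569454,
      .negSucc 63127427, .negSucc 10383523, .ofNat 29324377, .negSucc 13136582,
      .negSucc 1890593, .ofNat 5681722, .ofNat 895873, .negSucc 677322, .negSucc 128501,
      .negSucc 82389],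
    [.negSucc 363479, .negSucc 2938199, .ofNat 14117324, .ofNat 11852276, .negSucc 59076273,
      .negSucc 12239751, .ofNat 66062168, .ofNat 883524, .negSucc 27218069, .ofNat 4029344,
      .ofNat 7681908, .negSucc 1976671, .negSucc 1203575, .ofNat 389480],
    [.ofNat 253940, .ofNat 1942104, .ofNat 9280176, .negSucc 43543199, .negSucc 21709027,
      .ofNat 75318921, .ofNat 4829121, .negSucc 46975553, .ofNat 13708142, .ofNat 15829881,
      .negSucc 7740510, .negSucc 2572151, .ofNat 1378160],
    [.ofNat 339264, .ofNat 4601064, .negSucc 16273973, .negSucc 5967151, .ofNat 48345446,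
      .negSucc 6338089, .negSucc 48030363, .ofNat 13631026, .ofNat 18842100, .negSucc 7454807,
      .negSucc 3222471, .ofNat 1527960],
    [.ofNat 50876, .negSucc 1841735, .negSucc 2127243, .ofNat 24373643, .ofNat 3545091,
      .negSucc 36650451, .ofNat 2780480, .ofNat 17654451, .negSucc 5949432, .negSucc 3535905,
      .ofNat 1700230],
    [.negSucc 133631, .negSucc 2735951, .ofNat 8126628, .ofNat 1538128, .negSucc 17835723,
      .ofNat 5902164, .ofNat 12540632, .negSucc 6112459, .negSucc 2697903, .ofNat 1408120],
    [.negSucc 131087, .ofNat 878496, .negSucc 1244287, .negSucc 5607171, .ofNat 2559132,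
      .ofNat 6058004, .negSucc 1603195, .negSucc 1329327, .ofNat 419440],
    [.ofNat 17280, .ofNat 509856, .negSucc 1238087, .negSucc 429791, .ofNat 1899816,
      .negSucc 349703, .negSucc 679007, .ofNat 269640],
    [.ofNat 35904, .negSucc 124031, .ofNat 317952, .ofNat 361104, .negSucc 533615, .negSucc 237071,
      .ofNat 179760]]]

end Vale.Agent.P219.D6
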