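import Vale.Agent.P219.C5.Poly

/-! # The certificate in dimension 6: reduced polynomials (generated) -/

namespace Vale.Agent.P219.D6

open Vale.Agent.P219.C5

/-- `P1H`, reduced. -/
def P1Hl : List P2 :=
  [[[.ofNat 0, .ofNat 0, .ofNat 0, .ofNat 0, .ofNat 0, .ofNat 0, .ofNat 0, .ofNat 0, .ofNat 0,
      .ofNat 27360, .negSucc 299039, .ofNat 2291400, .negSucc 1553719, .negSucc 1604339,
      .ofNat 1367100],
    [.ofNat 0, .ofNat 0, .ofNat 0, .ofNat 0, .ofNat 0, .ofNat 0, .ofNat 0, .ofNat 0, .ofNat 439440,
      .ofNat 184560, .ofNat 4224020, .negSucc 386579, .negSucc 6452799, .ofNat 579720,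
      .ofNat 2734200],
    [.ofNat 0, .ofNat 0, .ofNat 0, .ofNat 0, .ofNat 0, .ofNat 0, .ofNat 0, .ofNat 1296288,
      .ofNat 2695808, .negSucc 4684887, .ofNat 13522176, .negSucc 4952597, .negSucc 11875189,
      .ofNat 5988570, .ofNat 1668450],
    [.ofNat 0, .ofNat 0, .ofNat 0, .ofNat 0, .ofNat 0, .ofNat 0, .ofNat 1165152, .ofNat 3099488,
      .negSucc 12937435, .ofNat 17723708, .ofNat 15531900, .negSucc 21085295, .negSucc 3044479,
      .ofNat 5589460, .negSucc 852599],
    [.ofNat 0, .ofNat 0, .ofNat 0, .ofNat 0, .ofNat 0, .negSucc 339903, .negSucc 179391,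
      .negSucc 2049743, .negSucc 11506119, .ofNat 29718468, .negSucc 7857563,
      .negSucc 14670829, .ofNat 9904970, .negSucc 1919709, .negSucc 1607549],
    [.ofNat 0, .ofNat 0, .ofNat 0, .ofNat 0, .negSucc 1036815, .negSucc 1623471, .ofNat 10017380,
      .negSucc 27955827, .ofNat 1431664, .ofNat 3567856, .negSucc 11023243, .ofNat 15671884,
      .ofNat 2636440, .negSucc 5431099, .negSucc 422099],
    [.ofNat 0, .ofNat 0, .ofNat 0, .negSucc 427071, .negSucc 722655, .ofNat 6936808,
      .negSucc 7974687, .negSucc 28836295, .ofNat 6131832, .negSucc 11376531, .ofNat 13248420,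
      .ofNat 13135314, .negSucc 5639309, .negSucc 1629989, .ofNat 37450],
    [.ofNat 0, .ofNat 0, .ofNat 101792, .negSucc 208159, .negSucc 52963, .ofNat 2992740,
      .negSucc 14327551, .ofNat 22353384, .negSucc 9018407, .negSucc 9991431, .ofNat 14201916,
      .negSucc 706675, .negSucc 1338759, .ofNat 515360, .negSucc 149799],
    [.ofNat 0, .ofNat 150528, .ofNat 109376, .negSucc 1920007, .negSucc 2059951, .ofNat 1767040,
      .ofNat 38019784, .ofNat 19613980, .negSucc 37427803, .ofNat 1396572, .ofNat 6027564,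
      .negSucc 1890319, .ofNat 647080, .ofNat 482380, .negSucc 74899],
    [.ofNat 37632, .ofNat 212224, .negSucc 503991, .negSucc 1855127, .negSucc 3631599,
      .ofNat 28396744, .ofNat 31839288, .negSucc 43001783, .negSucc 9298699, .ofNat 16083204,
      .negSucc 4340575, .negSucc 2412351, .ofNat 1235040, .ofNat 299600],
    [.ofNat 60544, .ofNat 298752, .ofNat 560848, .negSucc 2917809, .ofNat 5643222, .ofNat 13110442,
      .negSucc 33212405, .negSucc 18672475, .ofNat 25632356, .ofNat 1578000, .negSucc 7641975,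
      .negSucc 43775, .ofNat 1138480],
    [.ofNat 125312, .ofNat 593408, .ofNat 1372116, .negSucc 3463143, .ofNat 2444296,
      .negSucc 21565579, .negSucc 21912419, .ofNat 24564540, .ofNat 7959984, .negSucc 9022295,
      .negSucc 784095, .ofNat 1138480],
    [.ofNat 123776, .ofNat 796096, .negSucc 931543, .ofNat 783858, .negSucc 6700573,
      .negSucc 10292109, .ofNat 16817058, .ofNat 7979556, .negSucc 7753491, .negSucc 1233399,
      .ofNat 1048600],
    [.ofNat 46832, .ofNat 167856, .negSucc 649827, .ofNat 1495980, .negSucc 2724619,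
      .ofNat 9563352, .ofNat 9567316, .negSucc 5272399, .negSucc 2232063, .ofNat 958720],
    [.ofNat 19480, .negSucc 115727, .ofNat 921392, .negSucc 1492165, .ofNat 631098, .ofNat 5373414,
      .negSucc 461985, .negSucc 943727, .ofNat 119840],
    [.ofNat 51936, .ofNat 267392, .ofNat 497696, .negSucc 3043879, .negSucc 851959, .ofNat 798056,
      .ofNat 25416, .ofNat 59920],
    [.ofNat 63472, .ofNat 423136, .negSucc 732063, .negSucc 1014755, .negSucc 242947,
      .negSucc 157459, .ofNat 224700],
    [.ofNat 30848, .ofNat 111680, .negSucc 219343, .ofNat 95712, .ofNat 88544, .negSucc 59919],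
    [.ofNat 11968, .negSucc 41343, .ofNat 117952, .ofNat 79024, .negSucc 59919]],
    [[],
    [.ofNat 0, .ofNat 0, .ofNat 0, .ofNat 0, .ofNat 0, .ofNat 0, .ofNat 0, .ofNat 166464,
      .negSucc 79295, .ofNat 995832, .negSucc 279495, .negSucc 3111479, .ofNat 2150232,
      .ofNat 1764774, .negSucc 1503809],
    [.ofNat 0, .ofNat 0, .ofNat 0, .ofNat 0, .ofNat 0, .ofNat 0, .ofNat 863856, .ofNat 811344,
      .ofNat 822636, .ofNat 29780, .negSucc 5941261, .negSucc 91481, .ofNat 7570760,
      .negSucc 413691, .negSucc 3007619],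
    [.ofNat 0, .ofNat 0, .ofNat 0, .ofNat 0, .ofNat 0, .ofNat 1448784, .ofNat 2511984,
      .negSucc 2044211, .ofNat 3590180, .ofNat 3134926, .negSucc 19550485, .ofNat 5898443,
      .ofNat 14001603, .negSucc 5965462, .negSucc 2067554],
    [.ofNat 0, .ofNat 0, .ofNat 0, .ofNat 0, .ofNat 907056, .ofNat 2569776, .negSucc 2851391,
      .ofNat 6951160, .ofNat 13679666, .negSucc 31736829, .negSucc 14096821, .ofNat 27419128,
      .ofNat 1609816, .negSucc 6618893, .ofNat 1055460],
    [.ofNat 0, .ofNat 0, .ofNat 0, .ofNat 182320, .ofNat 1579792, .negSucc 2889295, .ofNat 6889008,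
      .ofNat 5660718, .negSucc 19789669, .negSucc 22089423, .ofNat 28916744, .ofNat 9074099,
      .negSucc 15249672, .ofNat 2367263, .ofNat 2139095],
    [.ofNat 0, .ofNat 0, .ofNat 122080, .ofNat 762240, .negSucc 3042291, .ofNat 4971204,
      .negSucc 6523961, .negSucc 20524425, .ofNat 358836, .ofNat 44710772, .ofNat 7022422,
      .negSucc 32570825, .negSucc 1775847, .ofNat 7180726, .ofNat 538510],
    [.ofNat 0, .ofNat 0, .ofNat 108800, .negSucc 1200755, .negSucc 1578603, .ofNat 3128266,
      .negSucc 31483113, .ofNat 1658206, .ofNat 63237470, .ofNat 20878462, .negSucc 46089141,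
      .negSucc 14468300, .ofNat 10263387, .ofNat 2041551, .negSucc 33704],
    [.ofNat 0, .negSucc 29439, .negSucc 1265335, .negSucc 5277647, .ofNat 16804278,
      .negSucc 18115849, .negSucc 25356099, .ofNat 42933920, .ofNat 35044676,
      .negSucc 37603939, .negSucc 20130225, .ofNat 11568622, .ofNat 1397344, .negSucc 1015739,
      .ofNat 299600],
    [.negSucc 7359, .negSucc 937343, .negSucc 3015503, .ofNat 8342802, .ofNat 11206078,
      .negSucc 23459589, .negSucc 6793561, .ofNat 19728502, .negSucc 7645949,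
      .negSucc 21518091, .ofNat 7879244, .ofNat 7522500, .negSucc 1663503, .negSucc 1204439,
      .ofNat 149800],
    [.negSucc 216511, .negSucc 1262335, .negSucc 373807, .ofNat 17609020, .negSucc 9063419,
      .negSucc 28946951, .ofNat 16081112, .ofNat 23208576, .negSucc 29571029,
      .negSucc 11058813, .ofNat 17317848, .ofNat 4693228, .negSucc 2864471, .negSucc 719039],
    [.negSucc 193423, .negSucc 458783, .ofNat 6039976, .negSucc 2263848, .negSucc 25564756,
      .ofNat 8385273, .ofNat 47875601, .negSucc 5747355, .negSucc 36366819, .ofNat 6550150,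
      .ofNat 15550346, .negSucc 717315, .negSucc 2531619],
    [.ofNat 5776, .ofNat 1600112, .ofNat 2804978, .negSucc 16357071, .negSucc 8257475,
      .ofNat 41505210, .ofNat 13916130, .negSucc 37274949, .negSucc 1027639, .ofNat 17179032,
      .negSucc 10279, .negSucc 2696399],
    [.ofNat 167528, .ofNat 1937968, .negSucc 3181227, .negSucc 4676752, .ofNat 16627295,
      .ofNat 5887781, .negSucc 29722874, .negSucc 4091851, .ofNat 16428856, .ofNat 1428116,
      .negSucc 2861179],
    [.ofNat 274056, .negSucc 146679, .negSucc 1449729, .ofNat 6668114, .ofNat 7196166,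
      .negSucc 21292367, .negSucc 12782813, .ofNat 12131596, .ofNat 3413176, .negSucc 2336879],
    [.ofNat 86964, .negSucc 972471, .ofNat 855888, .ofNat 4293937, .negSucc 3387598,
      .negSucc 6581156, .ofNat 2379023, .ofNat 1256500, .negSucc 524299],
    [.negSucc 114431, .negSucc 372175, .negSucc 270107, .ofNat 2259568, .ofNat 615552,
      .ofNat 146380, .ofNat 170840, .negSucc 299599],
    [.negSucc 90399, .negSucc 330111, .ofNat 478640, .ofNat 795608, .ofNat 495720, .ofNat 236484,
      .negSucc 284619],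
    [.negSucc 30847, .negSucc 111679, .ofNat 219344, .negSucc 95711, .negSucc 88543, .ofNat 59920],
    [.negSucc 11967, .ofNat 41344, .negSucc 117951, .negSucc 79023, .ofNat 59920]],
    [[],
    [],
    [.ofNat 0, .ofNat 0, .ofNat 0, .ofNat 0, .ofNat 0, .ofNat 0, .ofNat 0, .ofNat 248688,
      .ofNat 278768, .negSucc 1899395, .ofNat 812028, .ofNat 2666790, .negSucc 1956625,
      .negSucc 1016081, .ofNat 865830],
    [.ofNat 0, .ofNat 0, .ofNat 0, .ofNat 0, .ofNat 0, .ofNat 0, .ofNat 730752, .ofNat 551648,
      .negSucc 3325997, .negSucc 585729, .ofNat 6690766, .negSucc 221073, .negSucc 5827179,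
      .ofNat 255156, .ofNat 1731660],
    [.ofNat 0, .ofNat 0, .ofNat 0, .ofNat 0, .ofNat 0, .ofNat 790632, .ofNat 782952,
      .ofNat 1913430, .negSucc 10551493, .ofNat 991769, .ofNat 17030413, .negSucc 7195435,
      .negSucc 8419495, .ofNat 3499605, .ofNat 1157625],
    [.ofNat 0, .ofNat 0, .ofNat 0, .ofNat 0, .ofNat 638568, .ofNat 1922696, .ofNat 6107780,
      .negSucc 16876327, .negSucc 14477957, .ofNat 29554304, .ofNat 7927838, .negSucc 18369465,
      .ofNat 432932, .ofNat 3768794, .negSucc 629159],
    [.ofNat 0, .ofNat 0, .ofNat 0, .ofNat 765840, .ofNat 2584160, .ofNat 2014720, .negSucc 7461191,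
      .negSucc 19476538, .ofNat 20816621, .ofNat 20800543, .negSucc 24848728, .negSucc 2706300,
      .ofNat 10141315, .negSucc 1398262, .negSucc 1232174],
    [.ofNat 0, .ofNat 0, .ofNat 666960, .ofNat 1807056, .negSucc 2238113, .negSucc 451605,
      .negSucc 4776343, .ofNat 18138742, .ofNat 12706552, .negSucc 38177223, .negSucc 7323805,
      .ofNat 22792386, .ofNat 1279962, .negSucc 4109353, .negSucc 315209],
    [.ofNat 0, .ofNat 376320, .ofNat 1058880, .negSucc 2185529, .negSucc 1251301, .ofNat 4060991,
      .ofNat 18260451, .ofNat 13556859, .negSucc 42114248, .negSucc 23644677, .ofNat 30074950,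
      .ofNat 9007753, .negSucc 6047454, .negSucc 1171714, .ofNat 18725],
    [.ofNat 94080, .ofNat 589440, .ofNat 149108, .ofNat 762136, .negSucc 3935173, .ofNat 127508,
      .ofNat 20613464, .negSucc 17567895, .negSucc 28003691, .ofNat 23264788, .ofNat 12002480,
      .negSucc 7742871, .negSucc 755485, .ofNat 566896, .negSucc 164779],
    [.ofNat 166080, .ofNat 913152, .ofNat 2600504, .negSucc 3280346, .negSucc 21307374,
      .ofNat 2632943, .ofNat 18216315, .negSucc 10861813, .ofNat 5921594, .ofNat 14607695,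
      .negSucc 6564732, .negSucc 4662086, .ofNat 1050005, .ofNat 650458, .negSucc 82389],
    [.ofNat 319200, .ofNat 1550208, .ofNat 2391190, .negSucc 21713111, .negSucc 8071671,
      .ofNat 34296352, .negSucc 7479753, .negSucc 18207489, .ofNat 21953902, .ofNat 6221658,
      .negSucc 10665609, .negSucc 2537095, .ofNat 1552744, .ofNat 389480],
    [.ofNat 250136, .ofNat 1258608, .negSucc 8567295, .negSucc 4290946, .ofNat 34733485,
      .ofNat 2832333, .negSucc 43559346, .ofNat 3771211, .ofNat 24849627, .negSucc 4054972,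
      .negSucc 9084764, .ofNat 483768, .ofNat 1378160],
    [.negSucc 182407, .negSucc 1971191, .negSucc 5408457, .ofNat 24983494, .ofNat 18462368,
      .negSucc 40871437, .negSucc 13576771, .ofNat 26633436, .ofNat 527282, .negSucc 10302259,
      .ofNat 177988, .ofNat 1527960],
    [.negSucc 361011, .negSucc 3258887, .ofNat 7030556, .ofNat 10714735, .negSucc 19517776,
      .negSucc 9256287, .ofNat 21234924, .ofNat 2520107, .negSucc 10086920, .negSucc 719665,
      .ofNat 1700230],
    [.negSucc 200351, .ofNat 54480, .ofNat 3195596, .negSucc 9521175, .negSucc 9152475,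
      .ofNat 16020772, .ofNat 8016256, .negSucc 7962195, .negSucc 1859023, .ofNat 1408120],
    [.ofNat 11184, .ofNat 1526112, .negSucc 2766607, .negSucc 5383443, .ofNat 4757916,
      .ofNat 4647380, .negSucc 2421931, .negSucc 790047, .ofNat 419440],
    [.ofNat 89088, .ofNat 261792, .negSucc 602183, .ofNat 292416, .ofNat 832584, .negSucc 823847,
      .negSucc 319487, .ofNat 269640],
    [.ofNat 35904, .negSucc 124031, .ofNat 317952, .ofNat 361104, .negSucc 533615, .negSucc 237071,
      .ofNat 179760]]]

end Vale.Agent.P219.D6
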