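import Vale.Agent.P219.D6.LitsE
import Vale.Agent.P219.D6.LitsF
import Vale.Agent.P219.D6.LitsG
import Vale.Agent.P219.D6.LitsH
import Vale.Agent.P219.D6.BoxL

/-! # The certificate in dimension 6: tests (generated) -/

namespace Vale.Agent.P219.D6

open Vale.Agent.P219.C5 Vale.Agent.P219.D4
open Vale.Agent.P219.D6.BoxK (chk lens)

theorem O1b_len2 : len2 21 O1bl = true := by decide +kernel
theorem O1bt_lens : lens 3 20 24 (tr3 21 O1bl) = true := by decide +kernel
theorem O1b_chkt : chk (cC 0 1 2 1 2 0 1 1) 3 20 24 1 0 2 12 0 115 (tr3 21 O1bl) = true := by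
  decide +kernel
theorem O1b_lens : lens 3 24 20 O1bl = true := by decide +kernel
theorem O1b_chkp : chk (cP 0 4 5 1 3 4 0 4 0 1 1) 3 24 20 1 2 0 0 5 243 O1bl = true := by
  decide +kernel
theorem O1b_chkr : chk (cP 5 16 20 0 4 1 3 4 0 1 1) 3 24 20 1 0 0 0 0 279 O1bl = true := by
  decide +kernel
theorem P0L_len2 : len2 16 P0Ll = true := by decide +kernel
theorem P0Lt_lens : lens 3 15 21 (tr3 16 P0Ll) = true := by decide +kernel
theorem P0L_chk : chk (cC 0 1 1 1 1 0 1 1) 3 15 21 1 0 0 9 2 72 (tr3 16 P0Ll) = true := by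
  decide +kernel
theorem O2_lens : lens 3 17 12 O2l = true := by decide +kernel
theorem O2_chk : chk (cP 4 5 5 0 1 1 0 1 0 1 1) 3 17 12 1 0 1 0 2 116 O2l = true := by
  decide +kernel
theorem P1L_len2 : len2 15 P1Ll = true := by decide +kernel
theorem P1Lt_lens : lens 2 14 19 (tr3 15 P1Ll) = true := by decide +kernel
theorem P1L_chk : chk (cC 0 1 1 1 1 0 1 1) 2 14 19 1 0 0 9 2 65 (tr3 15 P1Ll) = true := by
  decide +kernel
theorem P0H_len2 : len2 16 P0Hl = true := by decide +kernel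
theorem P0Ht_lens : lens 3 15 21 (tr3 16 P0Hl) = true := by decide +kernel
theorem P0H_chka : chk (cC 0 3 5 1 1 0 1 1) 3 15 21 1 0 0 10 0 102 (tr3 16 P0Hl) = true := by
  decide +kernel
theorem P0H_chkb : chk (cC 3 4 5 1 1 0 1 1) 3 15 21 1 0 0 10 0 106 (tr3 16 P0Hl) = true := by
  decide +kernel
theorem P0H_chkc : chk (cC 4 5 5 1 1 0 1 1) 3 15 21 1 0 0 10 2 108 (tr3 16 P0Hl) = true := by
  decide +kernel
theorem P1H_len2 : len2 15 P1Hl = true := by decide +kernel
theorem P1Ht_lens : lens 2 14 19 (tr3 15 P1Hl) = true := by decide +kernel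
theorem P1H_chka : chk (cC 0 3 5 1 1 0 1 1) 2 14 19 1 0 0 9 0 93 (tr3 15 P1Hl) = true := by
  decide +kernel
theorem P1H_chkb : chk (cC 3 4 5 1 1 0 1 1) 2 14 19 1 0 0 9 0 97 (tr3 15 P1Hl) = true := by
  decide +kernel
theorem P1H_chkc : chk (cC 4 5 5 1 1 0 1 1) 2 14 19 1 0 0 9 2 98 (tr3 15 P1Hl) = true := by
  decide +kernel

end Vale.Agent.P219.D6
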