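import Vale.Agent.P219.C5.Poly

/-! # The certificate in dimension 6: polynomials in `ρ`, `e` (generated)

`ρ = 1/cosh (r/2)`, `e = 1/cosh R`. All quantities are multiplied by the same integer. -/

namespace Vale.Agent.P219.D6

open Vale.Agent.P219.C5

/-- `10 ρ⁸ L1³ u`. -/
def uN : P2 :=
  [[.ofNat 0, .ofNat 0, .ofNat 0, .ofNat 0, .ofNat 0, .ofNat 0, .ofNat 5400, .ofNat 1400],
    [.ofNat 0, .ofNat 0, .ofNat 0, .ofNat 0, .ofNat 0, .ofNat 16200, .ofNat 4200],
    [.ofNat 0, .ofNat 0, .ofNat 0, .ofNat 0, .ofNat 18609, .ofNat 3549, .ofNat 813,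
      .negSucc 9694],
    [.ofNat 0, .ofNat 0, .ofNat 0, .ofNat 14277, .ofNat 6077, .negSucc 18040, .negSucc 17884],
    [.ofNat 0, .ofNat 0, .ofNat 11456, .ofNat 5072, .negSucc 51295, .ofNat 35788,
      .negSucc 6143, .ofNat 3360],
    [.ofNat 0, .ofNat 7056, .negSucc 1775, .negSucc 36047, .ofNat 76792, .negSucc 61977,
      .negSucc 6135, .ofNat 16170],
    [.ofNat 2352, .negSucc 491, .ofNat 3202, .ofNat 27950, .negSucc 91329, .negSucc 9595,
      .ofNat 36828, .negSucc 7489],
    [.ofNat 460, .ofNat 7984, .negSucc 5495, .negSucc 32335, .negSucc 2995, .ofNat 30536,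
      .negSucc 14979],
    [.ofNat 1176, .negSucc 1331, .ofNat 7476, .negSucc 31215, .ofNat 46725, .ofNat 12961,
      .negSucc 5840, .negSucc 3744],
    [.negSucc 131, .ofNat 3736, .negSucc 52615, .ofNat 93753, .ofNat 28243, .negSucc 31888,
      .ofNat 3745],
    [.negSucc 863, .negSucc 27287, .ofNat 67242, .negSucc 21695, .negSucc 45803, .ofNat 22470],
    [.negSucc 2991, .ofNat 10336, .negSucc 29487, .negSucc 19755, .ofNat 14980]]

/-- `10 ρ⁸ L1⁴ b`. -/
def bN : P2 :=
  [[.ofNat 0, .ofNat 0, .ofNat 0, .ofNat 0, .ofNat 0, .ofNat 5796, .ofNat 9156, .negSucc 53477,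
      .ofNat 45570],
    [.ofNat 0, .ofNat 0, .ofNat 0, .ofNat 0, .ofNat 14934, .ofNat 3474, .negSucc 111511,
      .ofNat 126280],
    [.ofNat 0, .ofNat 0, .ofNat 0, .ofNat 10770, .negSucc 22493, .ofNat 29227, .negSucc 72976,
      .ofNat 71841, .negSucc 50714],
    [.ofNat 0, .ofNat 0, .ofNat 780, .negSucc 7595, .ofNat 205636, .negSucc 516391,
      .ofNat 336082, .negSucc 109411, .negSucc 48509],
    [.ofNat 0, .ofNat 0, .ofNat 19200, .ofNat 151341, .negSucc 611506, .ofNat 554033,
      .ofNat 94177, .negSucc 189107, .ofNat 25060],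
    [.ofNat 0, .ofNat 11040, .ofNat 34274, .negSucc 382353, .ofNat 495334, .ofNat 480808,
      .negSucc 429395, .ofNat 60318, .ofNat 32340],
    [.ofNat 2760, .negSucc 8303, .negSucc 170627, .ofNat 345106, .ofNat 516614,
      .negSucc 680553, .ofNat 57094, .ofNat 117678, .negSucc 7489],
    [.negSucc 8759, .negSucc 26103, .ofNat 140696, .ofNat 260912, .negSucc 736881,
      .negSucc 13243, .ofNat 186846, .negSucc 14979],
    [.ofNat 7564, .ofNat 6376, .ofNat 119460, .negSucc 577655, .negSucc 26719, .ofNat 174243,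
      .negSucc 57900, .ofNat 5841, .ofNat 3745],
    [.ofNat 6096, .ofNat 34872, .negSucc 252893, .ofNat 120352, .ofNat 45160, .negSucc 82993,
      .ofNat 52096, .negSucc 14979],
    [.negSucc 10651, .negSucc 19511, .ofNat 120968, .negSucc 58582, .ofNat 55881,
      .ofNat 105523, .negSucc 63664],
    [.ofNat 0, .ofNat 11968, .negSucc 41343, .ofNat 117952, .ofNat 79024, .negSucc 59919],
    [.ofNat 2992, .negSucc 10335, .ofNat 29488, .ofNat 19756, .negSucc 14979]]

/-- `10 ρ¹⁰ L1⁵ c`. -/
def cN : P2 :=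
  [[.ofNat 0, .ofNat 0, .ofNat 0, .ofNat 0, .ofNat 0, .ofNat 0, .negSucc 46367, .negSucc 73247,
      .ofNat 427824, .negSucc 364559],
    [.ofNat 0, .ofNat 0, .ofNat 0, .ofNat 0, .ofNat 0, .negSucc 174089, .negSucc 134189,
      .ofNat 1422320, .negSucc 1430799],
    [.ofNat 0, .ofNat 0, .ofNat 0, .ofNat 0, .negSucc 228893, .ofNat 96750, .ofNat 1103434,
      .negSucc 868813, .negSucc 912347, .ofNat 714420],
    [.ofNat 0, .ofNat 0, .ofNat 0, .negSucc 111599, .ofNat 262920, .negSucc 1125629,
      .ofNat 3458550, .negSucc 3986129, .ofNat 2656860, .ofNat 242550],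
    [.ofNat 0, .ofNat 0, .negSucc 7019, .negSucc 8435, .negSucc 2201489, .ofNat 6977786,
      .negSucc 6374424, .ofNat 1612521, .ofNat 1695909, .negSucc 455244],
    [.ofNat 0, .ofNat 0, .negSucc 186719, .negSucc 1190399, .ofNat 5746108, .negSucc 4362952,
      .negSucc 6096938, .ofNat 5607795, .negSucc 1595770, .negSucc 388079],
    [.ofNat 0, .negSucc 82799, .negSucc 215509, .ofNat 3037774, .negSucc 1344484,
      .negSucc 12620338, .ofNat 10497865, .negSucc 1159648, .negSucc 1892375, .ofNat 140280],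
    [.negSucc 16559, .ofNat 58584, .ofNat 1266832, .negSucc 712166, .negSucc 10393574,
      .ofNat 11787839, .ofNat 2441505, .negSucc 4312469, .ofNat 526732, .ofNat 129360],
    [.ofNat 43800, .ofNat 227120, .negSucc 454199, .negSucc 4875275, .ofNat 8682400,
      .ofNat 5462526, .negSucc 6411059, .ofNat 728726, .ofNat 611754, .negSucc 22469],
    [.negSucc 10935, .negSucc 95055, .negSucc 1689571, .ofNat 4754864, .ofNat 4365354,
      .negSucc 6889453, .ofNat 521780, .ofNat 1226170, .negSucc 112349],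
    [.negSucc 70847, .negSucc 274979, .ofNat 1570210, .ofNat 1565812, .negSucc 5251593,
      .ofNat 254560, .ofNat 1350077, .negSucc 230170, .ofNat 5841, .ofNat 3745],
    [.ofNat 59124, .ofNat 70904, .ofNat 391268, .negSucc 2895145, .ofNat 108494, .ofNat 897241,
      .negSucc 341934, .ofNat 29205, .ofNat 18725],
    [.ofNat 24384, .ofNat 150140, .negSucc 992063, .ofNat 360440, .ofNat 239223,
      .negSucc 387856, .ofNat 102861, .ofNat 3745],
    [.negSucc 31955, .negSucc 58535, .ofNat 338968, .negSucc 93060, .negSucc 68260,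
      .ofNat 158521, .negSucc 71154],
    [.ofNat 0, .ofNat 14960, .negSucc 51679, .ofNat 147440, .ofNat 98780, .negSucc 74899],
    [.ofNat 2992, .negSucc 10335, .ofNat 29488, .ofNat 19756, .negSucc 14979]]

/-- `ρ¹⁰ L1³ F`. -/
def FN : P2 :=
  [[.ofNat 0, .ofNat 0, .ofNat 0, .ofNat 0, .ofNat 0, .ofNat 0, .ofNat 4320, .ofNat 1120],
    [.ofNat 0, .ofNat 0, .ofNat 0, .ofNat 0, .ofNat 0, .ofNat 12960, .ofNat 3360],
    [.ofNat 0, .ofNat 0, .ofNat 0, .ofNat 0, .ofNat 14985, .ofNat 3885, .negSucc 4319,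
      .negSucc 1119],
    [.ofNat 0, .ofNat 0, .ofNat 0, .ofNat 10395, .ofNat 2695, .negSucc 12959, .negSucc 3359],
    [.ofNat 0, .ofNat 0, .ofNat 6686, .ofNat 1946, .negSucc 15007, .negSucc 2239],
    [.ofNat 0, .ofNat 3528, .ofNat 312, .negSucc 6367],
    [.ofNat 1176, .ofNat 444, .ofNat 4164, .negSucc 10619],
    [.ofNat 460, .ofNat 3592, .negSucc 14619, .ofNat 17246, .ofNat 3912, .negSucc 5389],
    [.negSucc 287, .negSucc 2947, .ofNat 19830, .negSucc 5259, .negSucc 10328, .ofNat 3745],
    [.ofNat 1052, .ofNat 2584, .negSucc 9171, .negSucc 4938, .ofNat 3745]]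

/-- `10 ρ⁸ L1³ (1+ρ) γ`. -/
def gN : P2 :=
  [[.ofNat 0, .ofNat 0, .ofNat 0, .ofNat 0, .ofNat 0, .ofNat 0, .ofNat 1746, .ofNat 8106,
      .negSucc 53477, .ofNat 45570],
    [.ofNat 0, .ofNat 0, .ofNat 0, .ofNat 0, .ofNat 0, .negSucc 3011, .negSucc 7085,
      .negSucc 49927, .ofNat 27232, .ofNat 45570],
    [.ofNat 0, .ofNat 0, .ofNat 0, .ofNat 0, .negSucc 14218, .negSucc 27334, .ofNat 110918,
      .negSucc 222059, .ofNat 99073, .negSucc 5144],
    [.ofNat 0, .ofNat 0, .ofNat 0, .negSucc 12704, .negSucc 5875, .ofNat 142309,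
      .negSucc 284721, .ofNat 42181, .ofNat 40376, .negSucc 53654],
    [.ofNat 0, .ofNat 0, .negSucc 2959, .ofNat 3751, .ofNat 14644, .negSucc 49590,
      .negSucc 9265, .ofNat 202895, .negSucc 100221, .negSucc 28594],
    [.ofNat 0, .ofNat 0, .negSucc 3719, .negSucc 29960, .ofNat 12592, .ofNat 48055,
      .ofNat 324300, .negSucc 64342, .negSucc 64963, .ofNat 3745],
    [.ofNat 0, .negSucc 1379, .negSucc 15607, .negSucc 24364, .ofNat 55954, .ofNat 279581,
      .negSucc 38427, .negSucc 50766, .ofNat 20374, .negSucc 3744],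
    [.negSucc 459, .negSucc 5835, .negSucc 7723, .negSucc 1114, .ofNat 183832, .negSucc 71366,
      .negSucc 62875, .ofNat 45351, .ofNat 12884, .negSucc 3744],
    [.negSucc 459, .negSucc 1887, .negSucc 9633, .ofNat 177383, .negSucc 252206,
      .negSucc 212777, .ofNat 34576, .ofNat 21155, .ofNat 18725],
    [.ofNat 856, .ofNat 8992, .ofNat 206378, .negSucc 324309, .negSucc 354719, .negSucc 25225,
      .negSucc 46691, .ofNat 67410],
    [.ofNat 7840, .ofNat 122728, .negSucc 57369, .negSucc 318693, .ofNat 107472, .ofNat 28654,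
      .negSucc 22469],
    [.ofNat 22272, .ofNat 83400, .negSucc 190289, .ofNat 315480, .ofNat 198408,
      .negSucc 157289],
    [.ofNat 17952, .negSucc 62015, .ofNat 176928, .ofNat 118536, .negSucc 89879]]

/-- `10 ρ¹⁰ L1⁴ (1+ρ) φ`. -/
def fN : P2 :=
  [[.ofNat 0, .ofNat 0, .ofNat 0, .ofNat 0, .ofNat 0, .ofNat 0, .ofNat 0, .negSucc 13967,
      .negSucc 64847, .ofNat 427824, .negSucc 364559],
    [.ofNat 0, .ofNat 0, .ofNat 0, .ofNat 0, .ofNat 0, .ofNat 0, .ofNat 1878, .negSucc 41309,
      .ofNat 929648, .negSucc 638415, .negSucc 364559],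
    [.ofNat 0, .ofNat 0, .ofNat 0, .ofNat 0, .ofNat 0, .ofNat 115434, .ofNat 236136,
      .negSucc 153279, .ofNat 1228294, .negSucc 1550763, .ofNat 349860],
    [.ofNat 0, .ofNat 0, .ofNat 0, .ofNat 0, .ofNat 191496, .ofNat 292626, .negSucc 1677263,
      .ofNat 3400724, .negSucc 1845487, .ofNat 391676, .ofNat 592410],
    [.ofNat 0, .ofNat 0, .ofNat 0, .ofNat 113480, .ofNat 58928, .negSucc 1279270,
      .ofNat 1988043, .ofNat 372626, .negSucc 2335881, .ofNat 1845035, .ofNat 137165],
    [.ofNat 0, .ofNat 0, .ofNat 20720, .ofNat 568, .negSucc 201995, .negSucc 122986,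
      .ofNat 1964817, .negSucc 5848229, .ofNat 1753874, .ofNat 704509, .negSucc 250914],
    [.ofNat 0, .ofNat 0, .ofNat 28040, .ofNat 97471, .negSucc 43508, .ofNat 833809,
      .negSucc 5019890, .ofNat 236103, .ofNat 1790471, .negSucc 799786, .negSucc 110634],
    [.ofNat 0, .ofNat 7360, .ofNat 68256, .ofNat 190215, .negSucc 254256, .negSucc 1995106,
      .negSucc 261070, .ofNat 2812647, .negSucc 926072, .negSucc 413334, .ofNat 18725],
    [.ofNat 1840, .ofNat 25184, .ofNat 27260, .negSucc 174432, .negSucc 691344, .ofNat 222293,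
      .ofNat 2794261, .negSucc 530674, .negSucc 608578, .ofNat 69059, .negSucc 3744],
    [.ofNat 1840, .ofNat 5456, .negSucc 36369, .negSucc 156570, .ofNat 421751, .ofNat 1900925,
      .negSucc 188806, .negSucc 506794, .ofNat 124417, .negSucc 20820, .negSucc 3744],
    [.negSucc 3091, .negSucc 24615, .ofNat 234446, .ofNat 433659, .ofNat 951897, .ofNat 259426,
      .negSucc 110161, .ofNat 27181, .negSucc 34598, .negSucc 14979],
    [.negSucc 10075, .ofNat 208736, .ofNat 372570, .ofNat 167275, .ofNat 648071, .ofNat 200710,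
      .negSucc 302407, .ofNat 65217, .negSucc 11234],
    [.ofNat 65872, .ofNat 217112, .negSucc 178793, .ofNat 394816, .negSucc 20859,
      .negSucc 851977, .ofNat 29068, .ofNat 179760],
    [.ofNat 75520, .negSucc 107455, .ofNat 49664, .negSucc 121695, .negSucc 1245791,
      .negSucc 319399, .ofNat 449400],
    [.negSucc 17951, .negSucc 9791, .ofNat 71136, .negSucc 826247, .negSucc 384263,
      .ofNat 359520],
    [.negSucc 17951, .ofNat 62016, .negSucc 176927, .negSucc 118535, .ofNat 89880]]

/-- constant coefficient of the kernel, over `20 ρ¹⁰ L1⁵`. -/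
def k1 : P2 :=
  [[.ofNat 0, .ofNat 0, .ofNat 0, .ofNat 0, .ofNat 0, .ofNat 0, .ofNat 46368, .ofNat 73248,
      .negSucc 387791, .ofNat 313712, .ofNat 427824, .negSucc 364559],
    [.ofNat 0, .ofNat 0, .ofNat 0, .ofNat 0, .ofNat 0, .ofNat 174090, .ofNat 134190,
      .negSucc 1164409, .ofNat 1408610, .ofNat 1422320, .negSucc 1430799],
    [.ofNat 0, .ofNat 0, .ofNat 0, .ofNat 0, .ofNat 228894, .negSucc 96749, .negSucc 427827,
      .ofNat 1200064, .ofNat 1802482, .negSucc 1638533, .negSucc 912347, .ofNat 714420],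
    [.ofNat 0, .ofNat 0, .ofNat 0, .ofNat 111600, .negSucc 262919, .ofNat 2080530,
      .negSucc 2919129, .ofNat 1794000, .ofNat 525190, .negSucc 4228679, .ofNat 2656860,
      .ofNat 242550],
    [.ofNat 0, .ofNat 0, .ofNat 7020, .ofNat 8436, .ofNat 3043690, .negSucc 6761801,
      .ofNat 1946255, .ofNat 4816745, .negSucc 7902473, .ofNat 2078266, .ofNat 1695909,
      .negSucc 455244],
    [.ofNat 0, .ofNat 0, .ofNat 186720, .ofNat 1736300, .negSucc 5794847, .ofNat 659673,
      .ofNat 11294167, .negSucc 9213367, .negSucc 4403867, .ofNat 5995875, .negSucc 1595770,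
      .negSucc 388079],
    [.ofNat 0, .ofNat 82800, .ofNat 513870, .negSucc 3060293, .negSucc 490204, .ofNat 15116213,
      .negSucc 10480569, .negSucc 11001469, .ofNat 12349281, .negSucc 1277528,
      .negSucc 1892375, .ofNat 140280],
    [.ofNat 16560, .ofNat 59016, .negSucc 1250191, .ofNat 218291, .ofNat 10772027,
      .negSucc 10906145, .negSucc 11789659, .ofNat 15524709, .ofNat 1903733, .negSucc 4334029,
      .ofNat 526732, .ofNat 129360],
    [.negSucc 20279, .negSucc 199839, .ofNat 397320, .ofNat 4158676, .negSucc 7501399,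
      .negSucc 9112881, .ofNat 13545240, .ofNat 4612220, .negSucc 6600633, .ofNat 676296,
      .ofNat 611754, .negSucc 22469],
    [.ofNat 20136, .ofNat 37776, .ofNat 1246956, .negSucc 3713879, .negSucc 5230845,
      .ofNat 9687298, .ofNat 3610834, .negSucc 7043163, .ofNat 487670, .ofNat 1118370,
      .negSucc 112349],
    [.ofNat 41568, .ofNat 230820, .negSucc 1333017, .negSucc 1412551, .ofNat 5052464,
      .ofNat 1100592, .negSucc 4688910, .ofNat 236411, .ofNat 922056, .negSucc 159015,
      .ofNat 5841, .ofNat 3745],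
    [.negSucc 47283, .negSucc 79543, .negSucc 138143, .ofNat 1686110, .ofNat 467434,
      .negSucc 1884066, .negSucc 164770, .ofNat 248296, .negSucc 135959, .ofNat 29205,
      .ofNat 18725],
    [.negSucc 18623, .negSucc 133259, .ofNat 510728, .ofNat 244900, .negSucc 327186,
      .ofNat 51517, .negSucc 267777, .negSucc 166901, .ofNat 102861, .ofNat 3745],
    [.ofNat 10916, .ofNat 6856, .negSucc 166443, .ofNat 184985, .ofNat 148889, .negSucc 350361,
      .ofNat 77794, .ofNat 158521, .negSucc 71154],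
    [.ofNat 0, .negSucc 14959, .ofNat 51680, .negSucc 132479, .negSucc 150459, .ofNat 222340,
      .ofNat 98780, .negSucc 74899],
    [.negSucc 2991, .ofNat 10336, .negSucc 26495, .negSucc 30091, .ofNat 44468, .ofNat 19756,
      .negSucc 14979]]

/-- coefficient of `c`. -/
def kc : P2 :=
  [[.ofNat 0, .ofNat 0, .ofNat 0, .ofNat 0, .ofNat 0, .ofNat 0, .negSucc 57959, .negSucc 91559,
      .ofNat 426780, .negSucc 483699],
    [.ofNat 0, .ofNat 0, .ofNat 0, .ofNat 0, .ofNat 0, .negSucc 207299, .negSucc 126299,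
      .ofNat 1109900, .negSucc 1858499],
    [.ofNat 0, .ofNat 0, .ofNat 0, .ofNat 0, .negSucc 257039, .ofNat 190200, .negSucc 247369,
      .negSucc 708449, .negSucc 1161449, .ofNat 1184750],
    [.ofNat 0, .ofNat 0, .ofNat 0, .negSucc 115499, .ofNat 300900, .negSucc 3495229,
      .ofNat 5672490, .negSucc 4860829, .ofNat 4205270, .ofNat 485100],
    [.ofNat 0, .ofNat 0, .negSucc 7799, .negSucc 116039, .negSucc 4485109, .ofNat 10673290,
      .negSucc 6864519, .ofNat 1145900, .ofNat 3233730, .negSucc 1018849],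
    [.ofNat 0, .ofNat 0, .negSucc 302399, .negSucc 2625549, .ofNat 9348810, .negSucc 3657519,
      .negSucc 13905699, .ofNat 11421290, .negSucc 3212229, .negSucc 1131899],
    [.ofNat 0, .negSucc 137999, .negSucc 810299, .ofNat 5625300, .negSucc 1258449,
      .negSucc 25184149, .ofNat 22697950, .negSucc 1149849, .negSucc 5382599, .ofNat 542500],
    [.negSucc 27599, .negSucc 64559, .ofNat 2315720, .negSucc 1683769, .negSucc 19968889,
      .ofNat 27073890, .ofNat 8487490, .negSucc 13122839, .ofNat 1689360, .ofNat 646800],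
    [.ofNat 40560, .ofNat 314840, .negSucc 1059539, .negSucc 9625499, .ofNat 22116500,
      .ofNat 15656380, .negSucc 22031489, .ofNat 2022550, .ofNat 2941950, .negSucc 187249],
    [.negSucc 57239, .negSucc 266879, .negSucc 3390799, .ofNat 13003280, .ofNat 11743740,
      .negSucc 26262649, .ofNat 497270, .ofNat 5744530, .negSucc 636649],
    [.negSucc 125039, .negSucc 387119, .ofNat 4320020, .ofNat 4977760, .negSucc 22011129,
      .negSucc 2019609, .ofNat 7235660, .negSucc 956439, .negSucc 58409, .negSucc 37449],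
    [.ofNat 194000, .ofNat 486400, .ofNat 2251800, .negSucc 12350649, .negSucc 2270149,
      .ofNat 7568400, .negSucc 662699, .negSucc 292049, .negSucc 187249],
    [.ofNat 101760, .ofNat 726120, .negSucc 3683859, .negSucc 722479, .ofNat 6613750,
      .ofNat 384290, .negSucc 732269, .negSucc 262149],
    [.negSucc 79239, .negSucc 258319, .negSucc 579439, .ofNat 3969750, .ofNat 695790,
      .negSucc 1019589, .ofNat 37450],
    [.negSucc 17279, .negSucc 515839, .ofNat 1241480, .negSucc 139039, .negSucc 718519,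
      .ofNat 299600],
    [.negSucc 29919, .ofNat 103360, .negSucc 294879, .negSucc 197559, .ofNat 149800]]

/-- coefficient of `c²`. -/
def kcc : P2 :=
  [[.ofNat 0, .ofNat 0, .ofNat 0, .ofNat 0, .ofNat 0, .ofNat 0, .negSucc 69551, .negSucc 109871,
      .ofNat 777672, .negSucc 389143, .negSucc 855647, .ofNat 729120],
    [.ofNat 0, .ofNat 0, .ofNat 0, .ofNat 0, .ofNat 0, .negSucc 281759, .negSucc 284159,
      .ofNat 2953660, .negSucc 1961819, .negSucc 2844639, .ofNat 2861600],
    [.ofNat 0, .ofNat 0, .ofNat 0, .ofNat 0, .negSucc 401495, .ofNat 6600, .ofNat 3592040,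
      .negSucc 2665919, .negSucc 3443827, .ofNat 2605628, .ofNat 1824696, .negSucc 1428839],
    [.ofNat 0, .ofNat 0, .ofNat 0, .negSucc 215399, .ofNat 449880, .ofNat 719020,
      .ofNat 1552460, .negSucc 3114339, .negSucc 3025099, .ofNat 7972260, .negSucc 5313719,
      .negSucc 485099],
    [.ofNat 0, .ofNat 0, .negSucc 12479, .ofNat 198336, .negSucc 1319391, .ofNat 6129296,
      .negSucc 4391997, .negSucc 7426909, .ofNat 13209872, .negSucc 3386811, .negSucc 3391817,
      .ofNat 910490],
    [.ofNat 0, .ofNat 0, .negSucc 142079, .negSucc 494599, .ofNat 4159352, .negSucc 2760181,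
      .negSucc 7893581, .ofNat 8833936, .ofNat 10454804, .negSucc 10504109, .ofNat 3191542,
      .ofNat 776160],
    [.ofNat 0, .negSucc 55199, .ofNat 168080, .ofNat 846368, .ofNat 1827930, .negSucc 8058805,
      .negSucc 259979, .ofNat 19547240, .negSucc 17785321, .ofNat 1731858, .ofNat 3784752,
      .negSucc 280559],
    [.negSucc 11039, .ofNat 128256, .ofNat 473648, .ofNat 2118474, .negSucc 4327269,
      .negSucc 7274063, .ofNat 10529688, .negSucc 13294577, .negSucc 5951489, .ofNat 7493040,
      .negSucc 1053463, .negSucc 258719],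
    [.ofNat 47040, .ofNat 251840, .ofNat 586440, .ofNat 798848, .negSucc 12922199,
      .negSucc 1235775, .ofNat 5410440, .negSucc 10632399, .ofNat 7787388, .negSucc 910891,
      .negSucc 1223507, .ofNat 44940],
    [.ofNat 57856, .ofNat 321568, .ofNat 738600, .negSucc 10083667, .negSucc 4342219,
      .ofNat 23548888, .negSucc 3856487, .ofNat 2265428, .ofNat 416236, .negSucc 2064259,
      .ofNat 224700],
    [.ofNat 25248, .negSucc 322199, .negSucc 3080483, .negSucc 5618299, .ofNat 30724404,
      .ofNat 6927284, .negSucc 9465913, .ofNat 1347774, .negSucc 841527, .ofNat 407912,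
      .negSucc 11681, .negSucc 7489],
    [.negSucc 192151, .negSucc 863231, .negSucc 4325071, .ofNat 21207140, .ofNat 7226972,
      .negSucc 21410085, .negSucc 63297, .ofNat 2414228, .ofNat 721320, .negSucc 58409,
      .negSucc 37449],
    [.negSucc 159407, .negSucc 810919, .ofNat 6087736, .ofNat 4256576, .negSucc 25583861,
      .negSucc 4773377, .ofNat 6777404, .ofNat 669096, .negSucc 275813, .negSucc 52429],
    [.ofNat 172168, .ofNat 713168, .ofNat 4092728, .negSucc 17529749, .negSucc 3898897,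
      .ofNat 9872784, .negSucc 651227, .negSucc 667501, .negSucc 82389],
    [.ofNat 99072, .ofNat 1551120, .negSucc 5389331, .ofNat 338720, .ofNat 8879104,
      .negSucc 483075, .negSucc 1135551, .negSucc 119839],
    [.ofNat 14400, .negSucc 492671, .negSucc 188767, .ofNat 4848248, .ofNat 264016,
      .negSucc 1376143, .ofNat 209720],
    [.negSucc 17279, .negSucc 545759, .ofNat 1344840, .negSucc 433919, .negSucc 916079,
      .ofNat 449400],
    [.negSucc 35903, .ofNat 124032, .negSucc 353855, .negSucc 237071, .ofNat 179760]]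

/-- coefficient of `p`. -/
def kp : P2 :=
  [[.ofNat 0, .ofNat 0, .ofNat 0, .ofNat 0, .ofNat 0, .ofNat 0, .ofNat 34776, .ofNat 54936,
      .negSucc 360899, .ofNat 324268, .negSucc 427823, .ofNat 364560],
    [.ofNat 0, .ofNat 0, .ofNat 0, .ofNat 0, .ofNat 0, .ofNat 140880, .ofNat 142080,
      .negSucc 1452649, .ofNat 1165290, .negSucc 1422319, .ofNat 1430800],
    [.ofNat 0, .ofNat 0, .ofNat 0, .ofNat 0, .ofNat 200748, .negSucc 3299, .negSucc 2042235,
      .ofNat 900816, .ofNat 71918, .ofNat 143334, .ofNat 912348, .negSucc 714419],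
    [.ofNat 0, .ofNat 0, .ofNat 0, .ofNat 107700, .negSucc 224939, .negSucc 1014829,
      .negSucc 1624389, .ofNat 5978390, .negSucc 6525949, .ofNat 3986130, .negSucc 2656859,
      .negSucc 242549],
    [.ofNat 0, .ofNat 0, .ofNat 6240, .negSucc 99167, .negSucc 1663, .negSucc 3115855,
      .ofNat 9419565, .negSucc 10802050, .ofNat 5393656, .negSucc 1072365, .negSucc 1695908,
      .ofNat 455245],
    [.ofNat 0, .ofNat 0, .ofNat 71040, .negSucc 44199, .negSucc 1528535, .ofNat 4687417,
      .negSucc 4479562, .ofNat 644324, .ofNat 8655002, .negSucc 5737154, .ofNat 1595771,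
      .ofNat 388080],
    [.ofNat 0, .ofNat 27600, .negSucc 127039, .negSucc 235207, .negSucc 1213138,
      .ofNat 3661229, .negSucc 3759049, .ofNat 16722804, .negSucc 10951608, .ofNat 1276129,
      .ofNat 1892376, .negSucc 140279],
    [.ofNat 5520, .negSucc 64127, .negSucc 326663, .negSucc 1667454, .ofNat 3628385,
      .ofNat 63488, .ofNat 12787696, .negSucc 13528872, .negSucc 2463916, .ofNat 4587360,
      .negSucc 526731, .negSucc 129359],
    [.negSucc 23519, .negSucc 171919, .negSucc 455319, .ofNat 603532, .ofNat 6100536,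
      .ofNat 4429904, .negSucc 13785099, .negSucc 6306275, .ofNat 7781706, .negSucc 920945,
      .negSucc 611753, .ofNat 22470],
    [.negSucc 38127, .negSucc 162303, .ofNat 159092, .ofNat 5016546, .ofNat 1026998,
      .negSucc 15044199, .negSucc 7921323, .ofNat 10763430, .negSucc 834149, .negSucc 1387869,
      .ofNat 112350],
    [.ofNat 4896, .ofNat 252100, .ofNat 1457582, .ofNat 1383346, .negSucc 16021537,
      .negSucc 8372085, .ofNat 13632163, .negSucc 459640, .negSucc 2152735, .ofNat 233916,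
      .negSucc 5840, .negSucc 3744],
    [.ofNat 91732, .ofNat 489696, .ofNat 826472, .negSucc 10434853, .negSucc 5421381,
      .ofNat 15945225, .ofNat 1280411, .negSucc 2524789, .negSucc 103719, .negSucc 29204,
      .negSucc 18724],
    [.ofNat 81480, .negSucc 274739, .negSucc 2833531, .negSucc 2375507, .ofNat 15832881,
      .ofNat 5060491, .negSucc 3110413, .negSucc 704803, .negSucc 67814, .ofNat 18725],
    [.negSucc 219307, .negSucc 403303, .negSucc 1497507, .ofNat 10150741, .ofNat 4686943,
      .negSucc 4442319, .negSucc 1042513, .negSucc 184414, .ofNat 393225],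
    [.negSucc 82799, .negSucc 254599, .ofNat 2839230, .ofNat 1367040, .negSucc 5077019,
      .negSucc 2179609, .negSucc 161259, .ofNat 898800],
    [.ofNat 144896, .ofNat 167616, .ofNat 738240, .negSucc 3440327, .negSucc 2221791,
      .ofNat 183568, .ofNat 629160],
    [.ofNat 17280, .ofNat 456000, .negSucc 1034759, .negSucc 450719, .ofNat 323400],
    [.ofNat 17952, .negSucc 62015, .ofNat 176928, .ofNat 118536, .negSucc 89879]]

/-- coefficient of `c p`. -/
def kcp : P2 :=
  [[.ofNat 0, .ofNat 0, .ofNat 0, .ofNat 0, .ofNat 0, .ofNat 0, .ofNat 57960, .ofNat 91560,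
      .negSucc 562715, .ofNat 326004, .ofNat 855648, .negSucc 729119],
    [.ofNat 0, .ofNat 0, .ofNat 0, .ofNat 0, .ofNat 0, .ofNat 207300, .ofNat 126300,
      .negSucc 1674079, .ofNat 1534120, .ofNat 2844640, .negSucc 2861599],
    [.ofNat 0, .ofNat 0, .ofNat 0, .ofNat 0, .ofNat 257040, .negSucc 190199, .negSucc 646185,
      .ofNat 855302, .ofNat 3018242, .negSucc 2498037, .negSucc 1824695, .ofNat 1428840],
    [.ofNat 0, .ofNat 0, .ofNat 0, .ofNat 115500, .negSucc 300899, .ofNat 2755190,
      .negSucc 5197089, .ofNat 1678390, .ofNat 4385530, .negSucc 8457359, .ofNat 5313720,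
      .ofNat 485100],
    [.ofNat 0, .ofNat 0, .ofNat 7800, .ofNat 116040, .ofNat 3922682, .negSucc 10999541,
      .ofNat 2753406, .ofNat 13753242, .negSucc 15298349, .ofNat 3661842, .ofNat 3391818,
      .negSucc 910489],
    [.ofNat 0, .ofNat 0, .ofNat 302400, .ofNat 2009050, .negSucc 10128669, .ofNat 4479398,
      .ofNat 21286722, .negSucc 16366917, .negSucc 10967449, .ofNat 11894730, .negSucc 3191541,
      .negSucc 776159],
    [.ofNat 0, .ofNat 138000, .ofNat 293340, .negSucc 5857043, .ofNat 4506588, .ofNat 23882752,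
      .negSucc 18133509, .negSucc 25084657, .ofNat 24224538, .negSucc 2533357,
      .negSucc 3784751, .ofNat 280560],
    [.ofNat 27600, .negSucc 170639, .negSucc 2240359, .ofNat 3276108, .ofNat 18216332,
      .negSucc 23175933, .negSucc 24938597, .ofNat 30916586, .ofNat 4147802, .negSucc 8765079,
      .ofNat 1053464, .ofNat 258720],
    [.negSucc 87599, .negSucc 304999, .ofNat 1327100, .ofNat 9437036, .negSucc 22700571,
      .negSucc 16905867, .ofNat 28662830, .ofNat 9360822, .negSucc 13561501, .ofNat 1520242,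
      .ofNat 1223508, .negSucc 44939],
    [.ofNat 51720, .ofNat 331008, .ofNat 3389192, .negSucc 14020075, .negSucc 7677391,
      .ofNat 23029382, .ofNat 7620478, .negSucc 15118649, .ofNat 795098, .ofNat 2430780,
      .negSucc 224699],
    [.ofNat 148560, .ofNat 378280, .negSucc 4382183, .negSucc 813163, .ofNat 16417802,
      .ofNat 4546066, .negSucc 11283833, .ofNat 147410, .ofNat 2475534, .negSucc 535241,
      .ofNat 11682, .ofNat 7490],
    [.negSucc 192023, .negSucc 393951, .ofNat 794376, .ofNat 8762938, .ofNat 1329534,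
      .negSucc 4239209, .ofNat 212958, .ofNat 104090, .negSucc 129609, .ofNat 58410,
      .ofNat 37450],
    [.negSucc 74927, .ofNat 526000, .ofNat 2500260, .negSucc 2574295, .ofNat 969460,
      .negSucc 1933163, .negSucc 4066057, .ofNat 1525474, .ofNat 275814, .ofNat 52430],
    [.ofNat 288336, .ofNat 127808, .negSucc 2786343, .ofNat 2108828, .negSucc 4259015,
      .negSucc 6400709, .ofNat 2963958, .ofNat 1069750, .negSucc 337049],
    [.ofNat 19296, .negSucc 985679, .ofNat 1169044, .negSucc 2464479, .negSucc 4846767,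
      .ofNat 3537212, .ofNat 2198504, .negSucc 1258319],
    [.negSucc 216863, .ofNat 298688, .negSucc 108319, .negSucc 2102791, .ofNat 3288280,
      .ofNat 2306128, .negSucc 1617839],
    [.ofNat 0, .ofNat 179520, .negSucc 620159, .ofNat 1769280, .ofNat 1185360, .negSucc 898799],
    [.ofNat 35904, .negSucc 124031, .ofNat 353856, .ofNat 237072, .negSucc 179759]]

/-- coefficient of `c² p`. -/
def kccp : P2 :=
  [[],
    [],
    [.ofNat 0, .ofNat 0, .ofNat 0, .ofNat 0, .ofNat 0, .ofNat 0, .ofNat 23184, .ofNat 36624,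
      .negSucc 213911, .ofNat 182280],
    [.ofNat 0, .ofNat 0, .ofNat 0, .ofNat 0, .ofNat 0, .ofNat 82920, .ofNat 50520,
      .negSucc 659959, .ofNat 687400],
    [.ofNat 0, .ofNat 0, .ofNat 0, .ofNat 0, .ofNat 102816, .negSucc 76079, .negSucc 352323,
      .ofNat 176588, .ofNat 501276, .negSucc 385139],
    [.ofNat 0, .ofNat 0, .ofNat 0, .ofNat 46200, .negSucc 120359, .ofNat 856532,
      .negSucc 2407995, .ofNat 2291652, .negSucc 1327907, .negSucc 194039],
    [.ofNat 0, .ofNat 0, .ofNat 3120, .ofNat 46416, .ofNat 1325092, .negSucc 4435515,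
      .ofNat 3889600, .negSucc 274151, .negSucc 1237835, .ofNat 303100],
    [.ofNat 0, .ofNat 0, .ofNat 120960, .ofNat 696260, .negSucc 3855083, .ofNat 3258016,
      .ofNat 4657416, .negSucc 4105707, .ofNat 982020, .ofNat 323400],
    [.ofNat 0, .ofNat 55200, .ofNat 100760, .negSucc 2258343, .ofNat 1933852, .ofNat 8501284,
      .negSucc 8000259, .ofNat 530588, .ofNat 1550544, .negSucc 130199],
    [.ofNat 11040, .negSucc 68255, .negSucc 907887, .ofNat 1200748, .ofNat 7085548,
      .negSucc 9867211, .negSucc 2124539, .ofNat 3692112, .negSucc 431391, .negSucc 129359],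
    [.negSucc 35039, .negSucc 129359, .ofNat 484408, .ofNat 3733416, .negSucc 8619911,
      .negSucc 4149543, .ofNat 5884156, .negSucc 761171, .negSucc 576707, .ofNat 44940],
    [.ofNat 19216, .ofNat 118144, .ofNat 1404256, .negSucc 5265407, .negSucc 2735575,
      .ofNat 6547356, .negSucc 738979, .negSucc 986347, .ofNat 44940],
    [.ofNat 59424, .ofNat 171040, .negSucc 1677911, .negSucc 556207, .ofNat 5204460,
      .ofNat 51404, .negSucc 813879, .negSucc 23055, .negSucc 23363, .negSucc 14979],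
    [.negSucc 72863, .negSucc 127935, .negSucc 85583, .ofNat 2922492, .ofNat 320804,
      .negSucc 139423, .ofNat 69240, .negSucc 231747, .ofNat 44940],
    [.negSucc 24383, .negSucc 37039, .ofNat 882904, .negSucc 375519, .ofNat 448812,
      .negSucc 191147, .negSucc 630475, .ofNat 314580],
    [.ofNat 54576, .ofNat 36704, .negSucc 413791, .ofNat 478732, .negSucc 755251,
      .negSucc 738187, .ofNat 494340],
    [.ofNat 0, .negSucc 59839, .ofNat 206720, .negSucc 589759, .negSucc 395119, .ofNat 299600],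
    [.negSucc 11967, .ofNat 41344, .negSucc 117951, .negSucc 79023, .ofNat 59920]]

/-- coefficient of `p²`. -/
def kpp : P2 :=
  [[.ofNat 0, .ofNat 0, .ofNat 0, .ofNat 0, .ofNat 0, .ofNat 0, .negSucc 11591, .negSucc 18311,
      .ofNat 106956, .negSucc 91139],
    [.ofNat 0, .ofNat 0, .ofNat 0, .ofNat 0, .ofNat 0, .negSucc 33209, .ofNat 7890,
      .ofNat 227580, .negSucc 287699],
    [.ofNat 0, .ofNat 0, .ofNat 0, .ofNat 0, .negSucc 28145, .ofNat 93450, .negSucc 251603,
      .ofNat 381564, .negSucc 73451, .ofNat 20580],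
    [.ofNat 0, .ofNat 0, .ofNat 0, .negSucc 3899, .ofNat 37980, .negSucc 1127599,
      .ofNat 2465140, .negSucc 815649, .negSucc 252339, .ofNat 242550],
    [.ofNat 0, .ofNat 0, .negSucc 779, .negSucc 107603, .negSucc 1263021, .ofNat 4150694,
      .negSucc 2510383, .negSucc 1663513, .ofNat 862290, .ofNat 123060],
    [.ofNat 0, .ofNat 0, .negSucc 115679, .negSucc 627199, .ofNat 4064252, .negSucc 4265317,
      .negSucc 3894047, .ofNat 2389084, .ofNat 801650, .negSucc 323399],
    [.ofNat 0, .negSucc 55199, .negSucc 41069, .ofNat 2634462, .negSucc 4697815,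
      .negSucc 4981721, .ofNat 6045560, .ofNat 1240086, .negSucc 1216451, .negSucc 42699],
    [.negSucc 11039, .ofNat 112056, .ofNat 906888, .negSucc 2957907, .negSucc 4465499,
      .ofNat 10960750, .ofNat 265968, .negSucc 2389295, .negSucc 307507, .ofNat 48510],
    [.ofNat 43800, .ofNat 54880, .negSucc 896759, .negSucc 3114247, .ofNat 12973284,
      .negSucc 1333041, .negSucc 3801659, .ofNat 412496, .ofNat 100548, .negSucc 47249],
    [.negSucc 45383, .negSucc 192911, .negSucc 1235151, .ofNat 8597050, .negSucc 2605827,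
      .negSucc 5091505, .ofNat 2173770, .negSucc 303685, .ofNat 203188, .ofNat 32340],
    [.negSucc 60191, .negSucc 22519, .ofNat 2533676, .negSucc 2250505, .negSucc 5542089,
      .ofNat 1967298, .negSucc 1313319, .ofNat 445658, .ofNat 231792, .ofNat 44940],
    [.ofNat 126512, .ofNat 242488, .negSucc 813687, .negSucc 3605275, .ofNat 1403168,
      .negSucc 2527617, .ofNat 136380, .ofNat 1036574, .negSucc 209719],
    [.ofNat 10296, .negSucc 204239, .negSucc 903419, .ofNat 1727016, .negSucc 2709501,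
      .ofNat 1158840, .ofNat 2212996, .negSucc 1037657, .negSucc 11681, .negSucc 7489],
    [.negSucc 100007, .negSucc 58271, .ofNat 1022592, .negSucc 1807045, .ofNat 2305488,
      .ofNat 2479622, .negSucc 1454699, .negSucc 144605, .ofNat 52430],
    [.ofNat 6096, .ofNat 257000, .negSucc 795005, .ofNat 1405760, .ofNat 1464852,
      .negSucc 1205317, .negSucc 369995, .ofNat 239680],
    [.ofNat 35904, .negSucc 124031, .ofNat 294016, .ofNat 443792, .negSucc 769519,
      .negSucc 395119, .ofNat 299600],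
    [.ofNat 0, .negSucc 29919, .ofNat 103360, .negSucc 294879, .negSucc 197559, .ofNat 149800],
    [.negSucc 5983, .ofNat 20672, .negSucc 58975, .negSucc 39511, .ofNat 29960]]

end Vale.Agent.P219.D6
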