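import Vale.Agent.P219.D6.LitsA
import Vale.Agent.P219.D6.Lists
import Vale.Agent.P219.D6.BoxL

/-! # The certificate in dimension 6: factorisations (generated) -/

namespace Vale.Agent.P219.D6

open Vale.Agent.P219.C5 Vale.Agent.P219.D4

theorem S1_eq : eqv3 S1 (kmap (mul2 (smul2 2 (mul2 (mpow pv 3) (mpow pL0 1)))) S1l) = true := by
  decide +kernel
theorem S2_eq : eqv3 S2 (kmap (mul2 (mpow pv 1)) S2l) = true := by
  decide +kernel
theorem S3_eq : eqv3 S3 (kmap (mul2 (smul2 2 (mpow pv 1))) S3l) = true := by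
  decide +kernel
theorem S4_eq : eqv3 S4 (kmap (mul2 (mpow pv 1)) S4l) = true := by
  decide +kernel
theorem S5_eq : eqv3 S5 (kmap (mul2 (smul2 2 (mul2 (mpow pv 1) (mpow pL1 1)))) S5l) = true := by
  decide +kernel
theorem S6b_eq : eqv3 S6b (kmap (mul2 (mpow pv 2)) S6bl) = true := by
  decide +kernel
theorem S6u_eq : eqv3 S6u (kmap (mul2 (mpow pv 1)) S6ul) = true := by
  decide +kernel
theorem S9_eq : eqv3 S9 (kmap (mul2 (smul2 2 (mul2 (mpow pv 2) (mpow pL1 1)))) S9l) = true := by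
  decide +kernel
theorem S10_eq : eqv3 S10 (kmap (mul2 (smul2 4 (mul2 (mpow pv 1) (mpow pL1 1)))) S10l) = true := by
  decide +kernel
theorem S11_eq : eqv3 S11 (kmap (mul2 (mul2 (mpow pv 2) (mpow pL1 1))) S11l) = true := by
  decide +kernel

end Vale.Agent.P219.D6
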