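import Vale.Agent.P219.D6.LitsB
import Vale.Agent.P219.D6.Lists
import Vale.Agent.P219.D6.BoxL

/-! # The certificate in dimension 6: factorisations (generated) -/

namespace Vale.Agent.P219.D6

open Vale.Agent.P219.C5 Vale.Agent.P219.D4

theorem S12a_eq : eqv3 S12a (kmap (mul2 (smul2 10 (mpow pv 1))) S12al) = true := by
  decide +kernel
theorem S12b_eq : eqv3 S12b (kmap (mul2 (smul2 20 (mul2 (mul2 (mpow pv 2) (mpow pL0 1)) (mpow pL1 1)))) S12bl) = true := by
  decide +kernel
theorem S13_eq : eqv3 S13 (kmap (mul2 (mpow pv 2)) S13l) = true := by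
  decide +kernel
theorem S14_eq : eqv3 S14 (kmap (mul2 (smul2 2 (mul2 (mpow pv 2) (mpow pL1 1)))) S14l) = true := by
  decide +kernel
theorem T1_eq : eqv3 T1 (kmap (mul2 (mul2 (mpow pv 2) (mpow pL0 1))) T1l) = true := by
  decide +kernel
theorem T2_eq : eqv3 T2 (kmap (mul2 (p1)) T2l) = true := by
  decide +kernel
theorem T3_eq : eqv3 T3 (kmap (mul2 (smul2 2 p1)) T3l) = true := by
  decide +kernel
theorem J1_eq : eqv3 J1 (kmap (mul2 (smul2 2 p1)) J1l) = true := by
  decide +kernel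
theorem J2_eq : eqv3 J2 (kmap (mul2 (smul2 2 (mpow pL1 2))) J2l) = true := by
  decide +kernel

end Vale.Agent.P219.D6
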