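import Vale.Agent.P219.D6.LitsC
import Vale.Agent.P219.D6.Lists
import Vale.Agent.P219.D6.BoxL

/-! # The certificate in dimension 6: factorisations (generated) -/

namespace Vale.Agent.P219.D6

open Vale.Agent.P219.C5 Vale.Agent.P219.D4

theorem V0_eq : eqv3 V0 (kmap (mul2 (smul2 2 (mpow pv 1))) V0l) = true := by
  decide +kernel
theorem V1_eq : eqv3 V1 (kmap (mul2 (smul2 2 (mul2 (mpow pv 1) (mpow pL1 1)))) V1l) = true := by
  decide +kernel

end Vale.Agent.P219.D6
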