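import Vale.Agent.P219.D6.LitsD
import Vale.Agent.P219.D6.Lists
import Vale.Agent.P219.D6.BoxL

/-! # The certificate in dimension 6: factorisations (generated) -/

namespace Vale.Agent.P219.D6

open Vale.Agent.P219.C5 Vale.Agent.P219.D4

theorem O1a_eq : eqv3 O1a (kmap (mul2 (smul2 4 (mul2 (mpow pv 3) (mpow pL0 3)))) O1al) = true := by
  decide +kernel

end Vale.Agent.P219.D6
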