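import Vale.Agent.P219.D6.LitsG
import Vale.Agent.P219.D6.Lists
import Vale.Agent.P219.D6.BoxL

/-! # The certificate in dimension 6: factorisations (generated) -/

namespace Vale.Agent.P219.D6

open Vale.Agent.P219.C5 Vale.Agent.P219.D4

theorem P0H_eq : eqv3 (kaP p1 (smul2 (-1) pr) P0) (kmap (mul2 (mpow pv 2)) P0Hl) = true := by
  decide +kernel
theorem P1L_eq : eqv3 (kaP [] pv P1) (kmap (mul2 (mul2 (mpow pv 2) (mpow pL1 1))) P1Ll) = true := by
  decide +kernel

end Vale.Agent.P219.D6
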