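import Vale.Agent.P219.D6.Kern
import Vale.Agent.P219.D4.Field
import Vale.Agent.P219.C5.Field

/-! # The certificate in dimension 6: the field -/

open Set MeasureTheory Metric
open scoped ContDiff

namespace Vale.Agent.P219.D6

open Vale.Agent.P219.TP Vale.Agent.P219.TPH Vale.Agent.P219.C5
open Vale.Agent.P219.D4 (rh rh_pos rh_lt_one Y_xx sinh_eq cosh_eq T_xx_lt hasDerivAt_xx' hasDerivAt_rh
  contDiff_rh)

variable {T e r a b : ℝ}

theorem ro_xx (hT : 0 < T) (r : ℝ) : ro T (xx T r) = rh r := by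
  rw [ro, Y_xx hT, sub_sub_cancel, Real.sqrt_sq (rh_pos r).le]

theorem xx_L4 (hT : 0 < T) (r : ℝ) : L4 T (xx T r) = r := xx_log hT r

/-! ### The field -/

/-- The field. -/
noncomputable def phi (T e r a : ℝ) : ℝ :=
  rh r ^ 8 * (2 * xx T r ^ 2 * wq e (rh r) - a ^ 2 * bq e (rh r)) /
    (32 * sE e * T ^ 3 * xx T r ^ 5)

/-- Derivative in `r`. -/
noncomputable def phir (T e r a : ℝ) : ℝ :=
  rh r ^ 8 * (rh r ^ 2 * (xx T r ^ 2 * vq e (rh r) + a ^ 2 * cq e (rh r) / 2) -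
    4 * (2 - rh r ^ 2) * (xx T r ^ 2 * wq e (rh r) - a ^ 2 * bq e (rh r) / 2)) /
    (32 * sE e * (T ^ 4 * xx T r ^ 6))

/-- Derivative in `a`. -/
noncomputable def phia (T e r a : ℝ) : ℝ :=
  -(2 * a * (rh r ^ 8 * bq e (rh r))) / (32 * sE e * T ^ 3 * xx T r ^ 5)

theorem hasDerivAt_phi_a (T e r a : ℝ) : HasDerivAt (phi T e r) (phia T e r a) a := by
  have h := ((((hasDerivAt_pow 2 a).mul_const (bq e (rh r))).const_sub
      (2 * xx T r ^ 2 * wq e (rh r))).const_mul (rh r ^ 8)).div_const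
        (32 * sE e * T ^ 3 * xx T r ^ 5)
  refine h.congr_deriv ?_
  unfold phia
  congr 1
  norm_num
  ring

theorem hasDerivAt_phi_r (hT : 0 < T) (he : 0 < e) (he1 : e < 1) (hr : 0 < r) (a : ℝ) :
    HasDerivAt (fun r => phi T e r a) (phir T e r a) r := by
  have hx := xx_pos hT hr
  have hp := rh_pos r
  have hY := Y_xx hT r
  have hs := sE_pos he he1
  have d1 := hasDerivAt_xx' hT r
  have d2 := hasDerivAt_rh hT r
  have d3 := (hasDerivAt_uq hp he).comp r d2
  have d4 := (hasDerivAt_bq hp he).comp r d2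
  have d5 := ((d2.fun_pow 8).fun_mul ((((d1.fun_pow 2).const_mul 2).fun_mul
    (d3.fun_add (d4.div_const 2))).fun_sub (d4.const_mul (a ^ 2)))).fun_div
      ((d1.fun_pow 5).const_mul (32 * sE e * T ^ 3)) (by positivity)
  refine d5.congr_deriv ?_
  have hb := bq' hp he
  have hu := uq' hp he
  rw [← hY] at hb hu
  unfold phir vq wq
  rw [← hY]
  clear d1 d2 d3 d4 d5
  simp only [Function.comp]
  generalize fq e (opD bN 8 4 0) (8 + 1) (4 + 1) (0 + 1) (rh r) = P1 at *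
  generalize fq e (opD uN 8 3 0) (8 + 1) (3 + 1) (0 + 1) (rh r) = P2 at *
  generalize uq e (rh r) = u at *
  generalize bq e (rh r) = b at *
  generalize cq e (rh r) = c at *
  generalize Fq e (rh r) = F at *
  generalize rh r = p at *
  generalize xx T r = x at *
  generalize sE e = s at *
  have hP1 : P1 = 10 * p * (c - b) / (T ^ 2 * x ^ 2) := by
    rw [← hb]; field_simp
  have hP2 : P2 = 10 * p * (u + b - T ^ 2 * x ^ 2 * F) / (T ^ 2 * x ^ 2) := by
    rw [← hu]; field_simp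
  have h2 : 4 * (2 - p ^ 2) = 8 * (T ^ 2 * x ^ 2) + 4 * p ^ 2 := by linear_combination -8 * hY
  rw [hP1, hP2, h2]
  field_simp
  push_cast
  ring

/-! ### Smoothness -/

theorem contDiff_fq (he : 0 < e) (P : P2) (i j l : ℕ) :
    ContDiff ℝ ∞ fun p : ℝ × ℝ => fq e P i j l (rh p.1) := by
  have hx : ContDiff ℝ ∞ fun p : ℝ × ℝ => rh p.1 := contDiff_rh.comp contDiff_fst
  have hn : ContDiff ℝ ∞ fun p : ℝ × ℝ => e2 (rh p.1) e P := (contDiff_e2 e P).comp hx
  unfold fq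
  refine hn.div (((hx.pow i).mul ((hx.add contDiff_const).pow j)).mul
      ((contDiff_const.add hx).pow l)) fun p => ?_
  have := rh_pos p.1
  positivity

theorem contDiffOn_phi (hT : 0 < T) (he : 0 < e) (he1 : e < 1) :
    ContDiffOn ℝ ∞ (Function.uncurry (phi T e)) {p : ℝ × ℝ | 0 < p.1} := by
  have hx : ContDiff ℝ ∞ fun p : ℝ × ℝ => xx T p.1 := (contDiff_xx T).comp contDiff_fst
  have hr : ContDiff ℝ ∞ fun p : ℝ × ℝ => rh p.1 := contDiff_rh.comp contDiff_fst
  have hu : ContDiff ℝ ∞ fun p : ℝ × ℝ => uq e (rh p.1) := (contDiff_fq he uN 8 3 0).div_const 10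
  have hb : ContDiff ℝ ∞ fun p : ℝ × ℝ => bq e (rh p.1) := (contDiff_fq he bN 8 4 0).div_const 10
  have hn : ContDiff ℝ ∞ fun p : ℝ × ℝ => rh p.1 ^ 8 * (2 * xx T p.1 ^ 2 *
      (uq e (rh p.1) + bq e (rh p.1) / 2) - p.2 ^ 2 * bq e (rh p.1)) :=
    (hr.pow 8).mul (((contDiff_const.mul (hx.pow 2)).mul (hu.add (hb.div_const 2))).sub
      ((contDiff_snd.pow 2).mul hb))
  have hd : ContDiff ℝ ∞ fun p : ℝ × ℝ => 32 * sE e * T ^ 3 * xx T p.1 ^ 5 :=
    contDiff_const.mul (hx.pow 5)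
  exact hn.contDiffOn.div hd.contDiffOn (s := {p : ℝ × ℝ | 0 < p.1}) fun p hp => by
    have h1 := xx_pos hT (show 0 < p.1 from hp)
    have h2 := sE_pos he he1
    positivity

/-! ### The kernel -/

theorem KN_eq (hT : 0 < T) (he : 0 < e) (he1 : e < 1) (hr : 0 < r) (ha : 0 ≤ a) (hb : 0 ≤ b)
    (hB : 0 ≤ bq e (rh r)) :
    KN 1 5 (phi T e) (phir T e) (phia T e) (lam6 T e) (5 / T) r a b * Real.sinh r ^ 5 =
      xx T r * T / sE e * Kh e (rh r) (xx T r ^ 2) (a / xx T r) (b / xx T r)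
        (√((1 - a ^ 2) * (1 - b ^ 2))) := by
  have hx := xx_pos hT hr
  have hp := rh_pos r
  have hs := sE_pos he he1
  have hS : (1 - b ^ 2) * (1 - a ^ 2) = (1 - a ^ 2) * (1 - b ^ 2) := by ring
  have abs1 : ∀ c : ℝ, 0 ≤ c → |phia T e r c| = 2 * c * (rh r ^ 8 * bq e (rh r)) /
      (32 * sE e * T ^ 3 * xx T r ^ 5) := by
    intro c hc
    rw [phia, neg_div, abs_neg, abs_of_nonneg (by positivity)]
  unfold KN NN kapN
  rw [hS, sn_one, cs_one, sinh_eq hT, cosh_eq hT, abs1 a ha, abs1 b hb, abs_of_nonneg ha,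
    abs_of_nonneg hb]
  have hY := Y_xx hT r
  unfold phi phir lam6 Kh Rq
  rw [← hY]
  generalize √((1 - a ^ 2) * (1 - b ^ 2)) = S
  clear abs1
  generalize wq e (rh r) = w at *
  generalize bq e (rh r) = b' at *
  generalize cq e (rh r) = c at *
  generalize vq e (rh r) = v at *
  generalize rh r = p at *
  generalize xx T r = x at *
  generalize sE e = s at *
  generalize pNr e = N at *
  push_cast
  field_simp
  ring

end Vale.Agent.P219.D6
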