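import Vale.Agent.P219.D6.Real4
import Vale.Agent.P219.D6.CertR

/-! # The certificate in dimension 6: all inequalities -/

open Set

namespace Vale.Agent.P219.D6

open Vale.Agent.P219.C5 Vale.Agent.P219.D4

variable {r e A B a b x S T : ℝ}

/-! ### Conversions -/

theorem Uh_conv (h : Dm r e) (A : ℝ) :
    Uh r e A = DK r e * (wq e r - A ^ 2 * bq e r / 2) := by
  have := h.r0
  have := h.e0
  unfold Uh DK wq uq bq fq
  field_simp
  ring

theorem KD_conv (h : Dm r e) {X : ℝ} (hX : (1 - e ^ 2) * X = 1 - r ^ 2) (A B S : ℝ) :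
    KD r e A B S = DK r e * (1 - e ^ 2) * Kh e r X A B S := by
  have h1 := h.r0
  have h2 := h.e0
  have hT := h.T
  have hX' : X = (1 - r ^ 2) / (1 - e ^ 2) := by field_simp; linarith
  rw [hX']
  unfold KD DK Kh
  simp only [r_B, r_MB, r_MW]
  have hV : e2 r e pV = 20 * r ^ 10 * (r + e) ^ 5 * vq e r := by
    unfold vq Fq cq fq
    simp only [pV, e2_add, e2_smul, e2_mul, v_Y, v_pow, v_L]
    push_cast
    field_simp
    ring
  have hC : e2 r e cN = 10 * r ^ 10 * (r + e) ^ 5 * cq e r := by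
    unfold cq fq
    field_simp
  have hB : e2 r e bN = 10 * r ^ 8 * (r + e) ^ 4 * bq e r := by
    unfold bq fq
    field_simp
  have hU : e2 r e uN = 10 * r ^ 8 * (r + e) ^ 3 *
      (wq e r - bq e r / 2) := by
    unfold wq uq fq
    field_simp
    ring
  have hR : e2 r e pR = 20 * r ^ 10 * (r + e) ^ 5 * Rq e r := by
    unfold Rq
    simp only [pR, e2_smul, e2_mul, v_pow, v_L, v_Y, v_N]
    push_cast
    field_simp
  rw [hV, hC, hR, hU, hB]
  field_simp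
  ring

/-! ### The bounds of `S` -/

theorem S_sc (h : Dm r e) (hx : 0 < x) (hxr : (1 - e ^ 2) * x ^ 2 = 1 - r ^ 2)
    (hS : S ≤ 1 - (a ^ 2 + b ^ 2) / 2) :
    (1 - r ^ 2) * ((a / x) ^ 2 + (b / x) ^ 2) / 2 ≤ (1 - e ^ 2) * (1 - S) := by
  have h1 : (1 - r ^ 2) * ((a / x) ^ 2 + (b / x) ^ 2) / 2 =
      (1 - e ^ 2) * ((a ^ 2 + b ^ 2) / 2) := by
    rw [← hxr]
    field_simp
  rw [h1]
  exact mul_le_mul_of_nonneg_left (by linarith) h.T.le

theorem S_sc_opp (h : Dm r e) (hx : 0 < x) (hxr : (1 - e ^ 2) * x ^ 2 = 1 - r ^ 2)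
    (ha : 0 ≤ a) (hax : a ≤ x) (hxb : x ≤ b) (hb : b ≤ 1)
    (hS : S = √((1 - a ^ 2) * (1 - b ^ 2))) :
    (1 - r ^ 2) * ((a / x) ^ 2 + (b / x) ^ 2) / 2 +
      (1 - r ^ 2) ^ 2 * ((1 - (a / x) ^ 2) * ((b / x) ^ 2 - 1)) / (2 * r ^ 2) ≤
      (1 - e ^ 2) * (1 - S) := by
  have hr0 := h.r0
  have h0 := S_opp (T2 := 1 - e ^ 2) (r := r ^ 2) ha hax hxb hb h.T.le
    (by nlinarith [h.e0]) (by positivity) (by rw [hxr]; ring)
  rw [← hS] at h0
  have h1 : (1 - r ^ 2) * ((a / x) ^ 2 + (b / x) ^ 2) / 2 +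
      (1 - r ^ 2) ^ 2 * ((1 - (a / x) ^ 2) * ((b / x) ^ 2 - 1)) / (2 * r ^ 2) =
      (1 - e ^ 2) * ((a ^ 2 + b ^ 2) / 2 +
        (1 - e ^ 2) * ((x ^ 2 - a ^ 2) * (b ^ 2 - x ^ 2)) / (2 * r ^ 2)) := by
    rw [← hxr]
    field_simp
  rw [h1]
  exact mul_le_mul_of_nonneg_left (by linarith) h.T.le

theorem X_sc (h : Dm r e) (hx : 0 < x) (hxr : (1 - e ^ 2) * x ^ 2 = 1 - r ^ 2)
    (ha : a ∈ Icc (0 : ℝ) 1) : (1 - r ^ 2) * (a / x) ^ 2 ≤ 1 - e ^ 2 := by
  have h1 : (1 - r ^ 2) * (a / x) ^ 2 = (1 - e ^ 2) * a ^ 2 := by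
    rw [← hxr]
    field_simp
  rw [h1]
  have h2 : a ^ 2 ≤ 1 := pow_le_one₀ ha.1 ha.2
  have := mul_le_mul_of_nonneg_left h2 h.T.le
  linarith

theorem x_ge (h : Dm r e) (hx : 0 < x) (hxr : (1 - e ^ 2) * x ^ 2 = 1 - r ^ 2)
    (hre : r ≤ e) : 1 ≤ x := by
  have h1 : (1 - e ^ 2) * 1 ≤ (1 - e ^ 2) * x ^ 2 := by rw [hxr]; nlinarith [h.r0]
  have := le_of_mul_le_mul_left h1 h.T
  nlinarith

theorem x_le (h : Dm r e) (hx : 0 < x) (hxr : (1 - e ^ 2) * x ^ 2 = 1 - r ^ 2)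
    (hre : e ≤ r) : x ≤ 1 := by
  have h1 : (1 - e ^ 2) * x ^ 2 ≤ (1 - e ^ 2) * 1 := by rw [hxr]; nlinarith [h.e0]
  have := le_of_mul_le_mul_left h1 h.T
  nlinarith

/-- The core of (C7) and (C1). -/
theorem core (h : Dm r e) (hx : 0 < x) (hxr : (1 - e ^ 2) * x ^ 2 = 1 - r ^ 2)
    (ha : a ∈ Icc (0 : ℝ) 1) (hb : b ∈ Icc (0 : ℝ) 1) (hS0 : 0 ≤ S)
    (hS : S ^ 2 = (1 - a ^ 2) * (1 - b ^ 2)) :
    ∃ κ, 0 ≤ κ ∧ κ ≤ a / x * (b / x) ∧ (r * κ) ^ 2 ≤ (b / x) ^ 2 ∧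
      0 < KD r e (a / x) (b / x) S + (1 - r ^ 2) * κ * √(Uh r e (a / x) * Uh r e (b / x)) := by
  have hSq : S = √((1 - a ^ 2) * (1 - b ^ 2)) := by rw [← hS, Real.sqrt_sq hS0]
  have hSle : S ≤ 1 - (a ^ 2 + b ^ 2) / 2 := by rw [hSq]; exact D4.S_le ha hb
  have hSs := S_sc h hx hxr hSle
  have hXA := X_sc h hx hxr ha
  have hXB := X_sc h hx hxr hb
  have hA0 : 0 ≤ a / x := div_nonneg ha.1 hx.le
  have hB0 : 0 ≤ b / x := div_nonneg hb.1 hx.le
  have hAB := mul_nonneg hA0 hB0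
  have hT := h.T
  have hr0 := h.r0
  have hr1 := h.r1
  rcases lt_or_ge (3 * r) e with h1 | h1
  · refine ⟨0, le_rfl, hAB, by rw [mul_zero, zero_pow two_ne_zero]; positivity, ?_⟩
    rw [mul_zero, zero_mul, add_zero]
    have h2 := V_pos h h1.le hx hxr ha hb hSle
    have h3 := DK_pos h
    have h4 := sE_pos h.e0 h.e1
    have h5 : 0 ≤ (1 - e ^ 2) * (a * b) * (DK r e * (2 * sE e / r ^ 2)) :=
      mul_nonneg (mul_nonneg hT.le (mul_nonneg ha.1 hb.1)) (by positivity)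
    linarith
  rcases le_total r e with h2 | h2
  · have hx1 := x_ge h hx hxr h2
    have hA1 : a / x ≤ 1 := by rw [div_le_one hx]; linarith [ha.2]
    have hB1 : b / x ≤ 1 := by rw [div_le_one hx]; linarith [hb.2]
    refine ⟨_, hAB, le_rfl, ?_, c7_a h h1 h2 ⟨hA0, hA1⟩ ⟨hB0, hB1⟩ hXA hXB hSs⟩
    refine pow_le_pow_left₀ (mul_nonneg hr0.le hAB) ?_ 2
    have h5 : r * (a / x) ≤ 1 * 1 := mul_le_mul hr1.le hA1 hA0 zero_le_one
    have := mul_le_mul_of_nonneg_right h5 hB0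
    linarith
  · have h5 := mid_pos h h2 hx hxr ha hb hS
    have hx1 := x_le h hx hxr h2
    refine ⟨a * b, mul_nonneg ha.1 hb.1, ?_, ?_, h5⟩
    · rw [div_mul_div_comm, le_div_iff₀ (by positivity)]
      have : x * x ≤ 1 := by nlinarith
      have := mul_le_mul_of_nonneg_left this (mul_nonneg ha.1 hb.1)
      linarith
    · have h6 : b ≤ b / x := by
        rw [le_div_iff₀ hx]
        have := mul_le_mul_of_nonneg_left hx1 hb.1
        linarith
      have h7 : r * (a * b) ≤ b / x := by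
        have h8 : r * a ≤ 1 := by nlinarith [ha.1, ha.2]
        have := mul_le_mul_of_nonneg_right h8 hb.1
        linarith
      have h9 : 0 ≤ r * (a * b) := mul_nonneg hr0.le (mul_nonneg ha.1 hb.1)
      exact pow_le_pow_left₀ h9 h7 2

theorem c7_all (h : Dm r e) (hx : 0 < x) (hxr : (1 - e ^ 2) * x ^ 2 = 1 - r ^ 2)
    (ha : a ∈ Icc (0 : ℝ) 1) (hb : b ∈ Icc (0 : ℝ) 1) (hS0 : 0 ≤ S)
    (hS : S ^ 2 = (1 - a ^ 2) * (1 - b ^ 2)) :
    0 < KD r e (a / x) (b / x) S +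
      (1 - r ^ 2) * (a / x * (b / x)) * √(Uh r e (a / x) * Uh r e (b / x)) := by
  obtain ⟨κ, h0, h1, -, h2⟩ := core h hx hxr ha hb hS0 hS
  have h3 : (1 - r ^ 2) * κ * √(Uh r e (a / x) * Uh r e (b / x)) ≤
      (1 - r ^ 2) * (a / x * (b / x)) * √(Uh r e (a / x) * Uh r e (b / x)) :=
    mul_le_mul_of_nonneg_right (mul_le_mul_of_nonneg_left h1 h.Y.le) (Real.sqrt_nonneg _)
  linarith

theorem c1_all (h : Dm r e) (hx : 0 < x) (hxr : (1 - e ^ 2) * x ^ 2 = 1 - r ^ 2)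
    (ha : a ∈ Icc (0 : ℝ) 1) (hb : b ∈ Icc (0 : ℝ) 1) (hS0 : 0 ≤ S)
    (hS : S ^ 2 = (1 - a ^ 2) * (1 - b ^ 2)) :
    0 < KD r e (a / x) (b / x) S + 5 / r ^ 2 * (1 - r ^ 2) * (b / x) * Uh r e (a / x) := by
  obtain ⟨κ, h0, -, h1, h2⟩ := core h hx hxr ha hb hS0 hS
  have hXA := X_sc h hx hxr ha
  have hUA := Uh_pos h hXA
  have hc := Uh_comp h hXA (b / x)
  have hr0 := h.r0
  have hB0 : 0 ≤ b / x := div_nonneg hb.1 hx.le
  have hXB := X_sc h hx hxr hb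
  have hUB := Uh_pos h hXB
  have h3 : κ * √(Uh r e (a / x) * Uh r e (b / x)) ≤ 5 / r ^ 2 * (b / x) * Uh r e (a / x) := by
    refine (abs_le_of_sq_le_sq' ?_ (by positivity)).2
    rw [mul_pow, Real.sq_sqrt (mul_nonneg hUA.le hUB.le)]
    have e1 : (5 / r ^ 2 * (b / x) * Uh r e (a / x)) ^ 2 =
        (b / x) ^ 2 * (Uh r e (a / x) * (25 * Uh r e (a / x))) / r ^ 4 := by
      field_simp
      ring
    rw [e1, le_div_iff₀ (by positivity)]
    have e2' : κ ^ 2 * (Uh r e (a / x) * Uh r e (b / x)) * r ^ 4 =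
        (r * κ) ^ 2 * (Uh r e (a / x) * (r ^ 2 * Uh r e (b / x))) := by ring
    rw [e2']
    exact mul_le_mul h1 (mul_le_mul_of_nonneg_left hc hUA.le)
      (mul_nonneg hUA.le (by positivity)) (by positivity)
  have h4 := mul_le_mul_of_nonneg_left h3 h.Y.le
  linarith

/-! ### (PI) -/

theorem log_le {y : ℝ} (hy0 : 0 ≤ y) (hy1 : y < 1) :
    Real.log ((1 + y) / (1 - y)) ≤ 2 * y / (1 - y ^ 2) := by
  have h1 : 0 < 1 - y := by linarith
  have h2 : 0 < (1 + y) / (1 - y) := by positivity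
  have h3 : 0 ≤ Real.log ((1 + y) / (1 - y)) := by
    refine Real.log_nonneg ?_
    rw [one_le_div h1]; linarith
  have h4 := Real.self_le_sinh_iff.2 h3
  rw [Real.sinh_log h2] at h4
  refine h4.trans_eq ?_
  have h5 : 0 < 1 + y := by linarith
  have h6 : 1 - y ^ 2 ≠ 0 := by nlinarith
  rw [inv_div]
  field_simp
  ring

/-- The data of a point. -/
structure Pt (T e x : ℝ) : Prop where
  hT : 0 < T
  he : 0 < e
  heT : e ^ 2 = 1 - T ^ 2
  hx : 0 < x
  hx1 : T * x < 1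

namespace Pt

theorem T1 (p : Pt T e x) : T < 1 := by nlinarith [p.hT, p.he, p.heT]
theorem e1 (p : Pt T e x) : e < 1 := by nlinarith [p.hT, p.he, p.heT]
theorem sq (p : Pt T e x) : T ^ 2 * x ^ 2 < 1 := by
  rw [← mul_pow]
  exact pow_lt_one₀ (mul_nonneg p.hT.le p.hx.le) p.hx1 two_ne_zero
theorem rho (p : Pt T e x) : ro T x ^ 2 = 1 - T ^ 2 * x ^ 2 := ro_sq p.sq
theorem dm (p : Pt T e x) : Dm (ro T x) e := by
  refine ⟨ro_pos p.sq, ?_, p.he, p.e1⟩
  have h1 := p.rho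
  have h2 : 0 < T ^ 2 * x ^ 2 := by have := p.hT; have := p.hx; positivity
  nlinarith [ro_pos p.sq]
theorem xr (p : Pt T e x) : (1 - e ^ 2) * x ^ 2 = 1 - ro T x ^ 2 := by
  rw [p.rho, p.heT]; ring
theorem eT (p : Pt T e x) : 1 - e ^ 2 = T ^ 2 := by rw [p.heT]; ring

end Pt

/-- The profile part, scaled. -/
noncomputable def Psi (T e x a b : ℝ) : ℝ :=
  (1 - ro T x ^ 2) * DK (ro T x) e * (sE e / (x * T)) * (L4 T x - (f4 T e a + f4 T e b) / 2)

theorem Psi_tan (p : Pt T e x) {ta tb : ℝ}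
    (h1 : f4 T e x + f4' T e x * (a - x) + ta ≤ f4 T e a)
    (h2 : f4 T e x + f4' T e x * (b - x) + tb ≤ f4 T e b) :
    Psi T e x a b ≤ gY (ro T x) e + fY (ro T x) e * (1 - (a / x + b / x) / 2) -
      (1 - ro T x ^ 2) * DK (ro T x) e * (sE e / (x * T)) * ((ta + tb) / 2) := by
  have hD := DK_pos p.dm
  have hs := sE_pos p.he p.e1
  have hx := p.hx
  have hT := p.hT
  have hY := p.dm.Y
  have h3 : L4 T x - (f4 T e a + f4 T e b) / 2 ≤
      G4 T e x - f4' T e x * ((a + b) / 2 - x) - (ta + tb) / 2 := by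
    have : f4 T e x = L4 T x - G4 T e x := rfl
    linarith
  have h4 : Psi T e x a b ≤ (1 - ro T x ^ 2) * DK (ro T x) e * (sE e / (x * T)) *
      (G4 T e x - f4' T e x * ((a + b) / 2 - x) - (ta + tb) / 2) :=
    mul_le_mul_of_nonneg_left h3 (by positivity)
  refine h4.trans_eq ?_
  rw [gY_eq p.dm, fY_eq p.dm, G4, f4']
  field_simp
  ring

/-- From the scaled inequality. -/
theorem pi_of (p : Pt T e x) (a b S : ℝ) :
    x * T / sE e * Kh e (ro T x) (x ^ 2) (a / x) (b / x) S -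
      a * b * (L4 T x - (f4 T e a + f4 T e b) / 2) =
    x * T / (sE e * (DK (ro T x) e * (1 - e ^ 2))) *
      (KD (ro T x) e (a / x) (b / x) S - a / x * (b / x) * Psi T e x a b) := by
  have hD := DK_pos p.dm
  have hs := sE_pos p.he p.e1
  have hx := p.hx
  have hT := p.hT
  have hTT := p.dm.T
  rw [KD_conv p.dm p.xr, Psi, ← p.xr]
  field_simp

theorem fac_pos (p : Pt T e x) : 0 < x * T / (sE e * (DK (ro T x) e * (1 - e ^ 2))) := by
  have hD := DK_pos p.dm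
  have hs := sE_pos p.he p.e1
  have hx := p.hx
  have hT := p.hT
  have hTT := p.dm.T
  positivity

theorem ro_le_of (p : Pt T e x) : ro T x ≤ 1 := p.dm.r1.le

theorem tan_at (p : Pt T e x) (h1 : e ≤ 3 * ro T x) (ha : a ∈ Icc (0 : ℝ) 1) :
    f4 T e x + f4' T e x * (a - x) + 0 ≤ f4 T e a := by
  rw [add_zero]
  refine f4_tangent p.hT p.he p.e1 (fun r hr hr1 => (opD10_neg p.he p.e1 (by linarith) hr1).le)
    ha.1 ?_ ?_ p.hx.le p.hx1 (by linarith)
  · have := mul_le_mul_of_nonneg_left ha.2 p.hT.le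
    linarith [p.T1]
  · have := ro_ge p.heT p.he ha.1 ha.2
    linarith [p.he]

/-- (PI), the far region. -/
theorem pi_far (p : Pt T e x) (h1 : 3 * ro T x ≤ e) (ha : a ∈ Icc (0 : ℝ) 1)
    (hb : b ∈ Icc (0 : ℝ) 1) (hSle : S ≤ 1 - (a ^ 2 + b ^ 2) / 2) :
    a / x * (b / x) * Psi T e x a b < KD (ro T x) e (a / x) (b / x) S := by
  have h := p.dm
  have hx := p.hx
  have hxr := p.xr
  have hT := h.T
  have hr0 := h.r0
  have hD := DK_pos h
  have hs := sE_pos p.he p.e1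
  have hTT := p.hT
  have h2 := V_pos h h1 hx hxr ha hb hSle
  have hf0 : ∀ y ∈ Icc (0 : ℝ) 1, 0 ≤ f4 T e y := fun y hy =>
    f4_nonneg p.hT p.he p.heT (fun r hr hr1 => fN_nn' p.he hr hr1) hy.1 hy.2
  have h3 : L4 T x - (f4 T e a + f4 T e b) / 2 ≤ 2 * (T * x) / ro T x ^ 2 := by
    have e1 := hf0 a ha
    have e2' := hf0 b hb
    have e3' : L4 T x ≤ 2 * (T * x) / ro T x ^ 2 := by
      rw [p.rho, ← mul_pow]
      exact log_le (mul_nonneg p.hT.le hx.le) p.hx1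
    linarith
  have h4 : a / x * (b / x) * Psi T e x a b ≤
      (1 - e ^ 2) * (a * b) * (DK (ro T x) e * (2 * sE e / ro T x ^ 2)) := by
    have e1 : a / x * (b / x) * Psi T e x a b = (1 - e ^ 2) * (a * b) * (DK (ro T x) e *
        (sE e / (x * T))) * (L4 T x - (f4 T e a + f4 T e b) / 2) := by
      rw [Psi, ← hxr]
      field_simp
    have e2' : (1 - e ^ 2) * (a * b) * (DK (ro T x) e * (2 * sE e / ro T x ^ 2)) =
        (1 - e ^ 2) * (a * b) * (DK (ro T x) e * (sE e / (x * T))) *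
          (2 * (T * x) / ro T x ^ 2) := by
      field_simp
    rw [e1, e2']
    refine mul_le_mul_of_nonneg_left h3 ?_
    exact mul_nonneg (mul_nonneg hT.le (mul_nonneg ha.1 hb.1)) (by positivity)
  linarith

/-- (PI), same side. -/
theorem pi_same (p : Pt T e x) (h1 : e ≤ 3 * ro T x) (ha : a ∈ Icc (0 : ℝ) 1)
    (hb : b ∈ Icc (0 : ℝ) 1) (hSle : S ≤ 1 - (a ^ 2 + b ^ 2) / 2)
    (h2 : 0 < (KK (ro T x) e).pm (a / x) (b / x)) :
    a / x * (b / x) * Psi T e x a b < KD (ro T x) e (a / x) (b / x) S := by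
  have h := p.dm
  have hx := p.hx
  have hSs := S_sc h hx p.xr hSle
  have hA0 : 0 ≤ a / x := div_nonneg ha.1 hx.le
  have hB0 : 0 ≤ b / x := div_nonneg hb.1 hx.le
  have h3 := Psi_tan p (tan_at p h1 ha) (tan_at p h1 hb)
  rw [add_zero, zero_div, mul_zero, sub_zero] at h3
  have h4 := KD_ge h hA0 hB0 hSs
  have h5 := mul_le_mul_of_nonneg_left h3 (mul_nonneg hA0 hB0)
  linarith

/-- The scaled gaps. -/
theorem gap_sc (p : Pt T e x) (h1 : e ≤ 3 * ro T x) (ha : a ∈ Icc (0 : ℝ) 1)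
    (hA1 : a / x ≤ 1) (hB1 : 1 ≤ b / x) (hXB : (1 - ro T x ^ 2) * (b / x) ^ 2 ≤ 1 - e ^ 2) :
    (1 - a / x) * (b / x - 1) * ((1 + a / x) * FF (ro T x) e) ≤
      (1 - ro T x ^ 2) * DK (ro T x) e * (sE e / (x * T)) *
      ((f4' T e x * T ^ 2 * ((x - a) ^ 2 * (2 * x + a)) / (3 * (1 - T ^ 2 * a ^ 2)) +
        f4' T e x * T ^ 2 * ((b - x) ^ 2 * (2 * x + b)) / (3 * (1 - T ^ 2 * x ^ 2))) / 2) := by
  have h := p.dm
  have hx := p.hx
  have hxr := p.xr
  have hY := h.Y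
  have hr0 := h.r0
  have hs := sE_pos p.he p.e1
  have hTT := p.hT
  have hA0 : 0 ≤ a / x := div_nonneg ha.1 hx.le
  have hβ := c_le h hXB
  have hg : 2 * (1 - ro T x ^ 2) * (b / x - 1) ≤ ro T x ^ 2 := by
    rw [le_div_iff₀ (by linarith)] at hβ
    have := sq_nonneg e
    linarith
  have hgap := gap_lemma (A := a / x) (γ := b / x - 1) (Y := 1 - ro T x ^ 2)
    (r := ro T x ^ 2) hA0 hA1 (by linarith) hY.le (by positivity) rfl hg
  have ha2 : 0 < 1 - T ^ 2 * a ^ 2 := by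
    have e1 : a ^ 2 ≤ 1 := pow_le_one₀ ha.1 ha.2
    have e2' := mul_le_mul_of_nonneg_left e1 (sq_nonneg T)
    have e3' := p.heT
    have e4' : 0 < e ^ 2 := by have := p.he; positivity
    linarith
  have hfac : (1 - ro T x ^ 2) * DK (ro T x) e * (sE e / (x * T)) *
      ((f4' T e x * T ^ 2 * ((x - a) ^ 2 * (2 * x + a)) / (3 * (1 - T ^ 2 * a ^ 2)) +
        f4' T e x * T ^ 2 * ((b - x) ^ 2 * (2 * x + b)) / (3 * (1 - T ^ 2 * x ^ 2))) / 2) =
      fY (ro T x) e * (1 - ro T x ^ 2) / 2 *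
      ((1 - a / x) ^ 2 * (2 + a / x) / (3 * (1 - (1 - ro T x ^ 2) * (a / x) ^ 2)) +
        (b / x - 1) ^ 2 * (3 + (b / x - 1)) / (3 * ro T x ^ 2)) := by
    have e1 : 1 - (1 - ro T x ^ 2) * (a / x) ^ 2 = 1 - T ^ 2 * a ^ 2 := by
      rw [← hxr, p.eT]; field_simp
    rw [fY_eq h, e1, f4']
    have e2' : 0 < ro T x ^ 2 := by positivity
    rw [← p.rho]
    have e3' : T ^ 2 * x ^ 2 = 1 - ro T x ^ 2 := by rw [p.rho]; ring
    generalize ro T x = r at *
    generalize 1 - T ^ 2 * a ^ 2 = qa at *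
    generalize DK r e = D at *
    generalize fph e r = F at *
    generalize sE e = s at *
    rw [← e3']
    field_simp
    ring
  have hfY := fY_nonneg h h1
  rw [hfac]
  have e1 := mul_le_mul_of_nonneg_left hgap
    (by positivity : 0 ≤ fY (ro T x) e * (1 - ro T x ^ 2) / 2)
  refine le_trans (le_of_eq ?_) e1
  unfold FF
  field_simp
  ring

/-- (PI), opposite sides. -/
theorem pi_opp (p : Pt T e x) (h2 : e ≤ ro T x) (ha : a ∈ Icc (0 : ℝ) 1)
    (hb : b ∈ Icc (0 : ℝ) 1) (hA1 : a / x < 1) (hB1 : 1 < b / x)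
    (hSq : S = √((1 - a ^ 2) * (1 - b ^ 2))) :
    a / x * (b / x) * Psi T e x a b < KD (ro T x) e (a / x) (b / x) S := by
  have h := p.dm
  have hx := p.hx
  have hxr := p.xr
  have hXB := X_sc h hx hxr hb
  have hA0 : 0 ≤ a / x := div_nonneg ha.1 hx.le
  have hB0 : 0 ≤ b / x := div_nonneg hb.1 hx.le
  have hax : a ≤ x := by
    have := hA1.le
    rwa [div_le_one hx] at this
  have hbx : x ≤ b := by
    have := hB1.le
    rwa [le_div_iff₀ hx, one_mul] at this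
  have hxl : x < 1 := by
    have : x < b := by rwa [lt_div_iff₀ hx, one_mul] at hB1
    linarith [hb.2]
  have her : e < ro T x := by
    rcases h2.eq_or_lt with h5 | h5
    · have := x_ge h hx hxr h5.ge
      linarith
    · exact h5
  have hs' := S_sc_opp h hx hxr ha.1 hax hbx hb.2 hSq
  have hK := KD_opp h hA0 hA1.le hB1.le hs'
  have hh := hh_pos h her hx hxr ⟨hA0, hA1.le⟩ hB1.le hXB (Or.inr hB1)
  have f0 : ∀ r, e ≤ r → r ≤ 1 → 0 ≤ e2 r e fN := fun r hr hr1 => fN_nn' p.he hr hr1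
  have f1 : ∀ r, e ≤ r → r ≤ 1 → e2 r e (opD fN 8 4 1) ≤ 0 :=
    fun r hr hr1 => (opD8_neg p.he hr hr1).le
  have g1 := f4_gap_left p.hT p.he p.heT f0 f1 ha.1 hax hxl.le
  have g2 := f4_gap_right p.hT p.he p.heT f0 f1 hx.le hbx hb.2
  have h6 := gap_sc p (by linarith [h.e0] : e ≤ 3 * ro T x) ha hA1.le hB1.le hXB
  have h3 := Psi_tan p (a := a) (b := b) (by linarith [g1] : f4 T e x + f4' T e x * (a - x) +
    f4' T e x * T ^ 2 * ((x - a) ^ 2 * (2 * x + a)) / (3 * (1 - T ^ 2 * a ^ 2)) ≤ f4 T e a)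
    (by linarith [g2] : f4 T e x + f4' T e x * (b - x) +
    f4' T e x * T ^ 2 * ((b - x) ^ 2 * (2 * x + b)) / (3 * (1 - T ^ 2 * x ^ 2)) ≤ f4 T e b)
  have h7 := mul_le_mul_of_nonneg_left (h3.trans (sub_le_sub_left h6 _))
    (mul_nonneg hA0 hB0)
  linarith

/-- (PI), strict form. -/
theorem pi_main (p : Pt T e x) (ha : a ∈ Icc (0 : ℝ) 1) (hb : b ∈ Icc (0 : ℝ) 1)
    (hne : ¬(a = x ∧ b = x)) :
    a / x * (b / x) * Psi T e x a b < KD (ro T x) e (a / x) (b / x)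
      (√((1 - a ^ 2) * (1 - b ^ 2))) := by
  obtain ⟨S, hSq⟩ : ∃ S, S = √((1 - a ^ 2) * (1 - b ^ 2)) := ⟨_, rfl⟩
  rw [← hSq]
  have hSle : S ≤ 1 - (a ^ 2 + b ^ 2) / 2 := by rw [hSq]; exact D4.S_le ha hb
  have h := p.dm
  have hx := p.hx
  have hxr := p.xr
  have hXA := X_sc h hx hxr ha
  have hXB := X_sc h hx hxr hb
  have hA0 : 0 ≤ a / x := div_nonneg ha.1 hx.le
  have hB0 : 0 ≤ b / x := div_nonneg hb.1 hx.le
  have hne' : ¬(a / x = 1 ∧ b / x = 1) := by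
    rintro ⟨h1, h2⟩
    rw [div_eq_one_iff_eq hx.ne'] at h1 h2
    exact hne ⟨h1, h2⟩
  rcases lt_or_ge (3 * ro T x) e with h1 | h1
  · exact pi_far p h1.le ha hb hSle
  rcases le_total (ro T x) e with h2 | h2
  · have hx1 := x_ge h hx hxr h2
    have hA1 : a / x ≤ 1 := by rw [div_le_one hx]; linarith [ha.2]
    have hB1 : b / x ≤ 1 := by rw [div_le_one hx]; linarith [hb.2]
    refine pi_same p h1 ha hb hSle (pm_left h ⟨hA0, hA1⟩ ⟨hB0, hB1⟩ ?_)
    by_contra h3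
    exact hne' ⟨by linarith, by linarith⟩
  rcases lt_trichotomy (a / x) 1 with hA | hA | hA
  · rcases le_or_gt (b / x) 1 with hB | hB
    · exact pi_same p h1 ha hb hSle (pm_left h ⟨hA0, hA.le⟩ ⟨hB0, hB⟩ (by linarith))
    · exact pi_opp p h2 ha hb hA hB hSq
  · rcases lt_trichotomy (b / x) 1 with hB | hB | hB
    · exact pi_same p h1 ha hb hSle (pm_left h ⟨hA0, hA.le⟩ ⟨hB0, hB.le⟩ (by linarith))
    · exact absurd ⟨hA, hB⟩ hne'
    · exact pi_same p h1 ha hb hSle (pm_right h h2 hA.ge hB.le (by linarith) hXA hXB)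
  · rcases lt_or_ge (b / x) 1 with hB | hB
    · have h5 := pi_opp (S := S) p h2 hb ha hB hA (by rw [hSq, mul_comm])
      rw [KD_comm, mul_comm (b / x) (a / x)] at h5
      have h6 : Psi T e x b a = Psi T e x a b := by
        unfold Psi; rw [add_comm (f4 T e b)]
      rwa [h6] at h5
    · exact pi_same p h1 ha hb hSle (pm_right h h2 hA.le hB (by linarith) hXA hXB)

/-- Equality on the ball. -/
theorem pi_ball (p : Pt T e x) (hx1 : x ≤ 1) :
    x / x * (x / x) * Psi T e x x x = KD (ro T x) e (x / x) (x / x)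
      (√((1 - x ^ 2) * (1 - x ^ 2))) := by
  have hx := p.hx
  have hTT := p.hT
  have h := p.dm
  have hD := DK_pos h
  have hs := sE_pos p.he p.e1
  have h1 : 0 ≤ 1 - x ^ 2 := by nlinarith
  rw [div_self hx.ne', Real.sqrt_mul_self h1, KD_eq, pm_one h]
  have h2 : L4 T x - (f4 T e x + f4 T e x) / 2 = G4 T e x := by
    have : f4 T e x = L4 T x - G4 T e x := rfl
    linarith
  have h3 : (1 - e ^ 2) * (1 - (1 - x ^ 2)) - (1 - ro T x ^ 2) * (1 ^ 2 + 1 ^ 2) / 2 = 0 := by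
    rw [← p.xr]; ring
  rw [h3, Psi, h2, gY_eq h, G4]
  field_simp
  ring

/-- All inequalities. -/
theorem ineqs' (hT : 0 < T) (he : 0 < e) (heT : e ^ 2 = 1 - T ^ 2) : Ineqs T e where
  hT := hT
  he := he
  heT := heT
  b0 r hr hr1 := by
    have h : Dm r e := ⟨hr, hr1, he, by nlinarith⟩
    have := bN_pos h
    unfold bq fq
    positivity
  f0 r hr hr1 := fN_nn' he hr hr1
  U0 r X A hr hr1 hX hA hA1 := by
    have h : Dm r e := ⟨hr, hr1, he, by nlinarith⟩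
    have h1 : (1 - r ^ 2) * A ^ 2 ≤ 1 - e ^ 2 := by
      rw [← hX, heT]
      nlinarith [mul_le_mul_of_nonneg_left hA1 (sq_nonneg T)]
    have h2 := Uh_pos h h1
    rw [Uh_conv h] at h2
    exact (pos_of_mul_pos_right h2 (DK_pos h).le).le
  C3 r X A hr hr1 hX hA hA1 := by
    have h : Dm r e := ⟨hr, hr1, he, by nlinarith⟩
    have h1 : (1 - r ^ 2) * A ^ 2 ≤ 1 - e ^ 2 := by
      rw [← hX, heT]
      nlinarith [mul_le_mul_of_nonneg_left hA1 (sq_nonneg T)]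
    have h2 := c3_ineq h h1
    have h3 : e2 r e pV + A ^ 2 * e2 r e cN + (2 - r ^ 2) / r ^ 2 * Uh r e A =
        DK r e * (vq e r + A ^ 2 * cq e r / 2 +
          (2 - r ^ 2) / r ^ 2 * (wq e r - A ^ 2 * bq e r / 2)) := by
      rw [Uh_conv h]
      unfold DK vq Fq cq fq
      simp only [pV, e2_add, e2_smul, e2_mul, v_Y, v_pow, v_L]
      push_cast
      field_simp
      ring
    rw [h3] at h2
    exact (pos_of_mul_pos_right h2 (DK_pos h).le).le
  C7 r X A B S hr hr1 hX hA hB hA1 hB1 hS0 hS := by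
    have h : Dm r e := ⟨hr, hr1, he, by nlinarith⟩
    have hX0 : 0 < X := by
      have : 0 < T ^ 2 * X := by rw [hX]; exact h.Y
      exact pos_of_mul_pos_right this (sq_nonneg T)
    have hx : 0 < √X := Real.sqrt_pos.2 hX0
    have hx2 : √X ^ 2 = X := Real.sq_sqrt hX0.le
    have hX' : (1 - e ^ 2) * X = 1 - r ^ 2 := by rw [← hX, heT]; ring
    have hxr : (1 - e ^ 2) * √X ^ 2 = 1 - r ^ 2 := by rw [hx2, hX']
    have ha : A * √X ∈ Icc (0 : ℝ) 1 := by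
      refine ⟨by positivity, (abs_le_of_sq_le_sq' ?_ zero_le_one).2⟩
      rw [mul_pow, hx2, one_pow]; exact hA1
    have hb : B * √X ∈ Icc (0 : ℝ) 1 := by
      refine ⟨by positivity, (abs_le_of_sq_le_sq' ?_ zero_le_one).2⟩
      rw [mul_pow, hx2, one_pow]; exact hB1
    have h1 := c7_all h hx hxr ha hb hS0 (by rw [hS, mul_pow, mul_pow, hx2])
    rw [mul_div_cancel_right₀ _ hx.ne', mul_div_cancel_right₀ _ hx.ne', KD_conv h hX',
      Uh_conv h, Uh_conv h] at h1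
    have hD := DK_pos h
    have e1 : √(DK r e * (wq e r - A ^ 2 * bq e r / 2) *
        (DK r e * (wq e r - B ^ 2 * bq e r / 2))) = DK r e *
        √((wq e r - A ^ 2 * bq e r / 2) * (wq e r - B ^ 2 * bq e r / 2)) := by
      rw [show DK r e * (wq e r - A ^ 2 * bq e r / 2) *
        (DK r e * (wq e r - B ^ 2 * bq e r / 2)) = DK r e ^ 2 *
        ((wq e r - A ^ 2 * bq e r / 2) * (wq e r - B ^ 2 * bq e r / 2)) by ring,
        Real.sqrt_mul (by positivity), Real.sqrt_sq hD.le]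
    rw [e1, ← hX'] at h1
    refine pos_of_mul_pos_right (a := DK r e * (1 - e ^ 2)) ?_ (mul_pos hD h.T).le
    linarith
  C1 r X A B S hr hr1 hX hA hB hA1 hB1 hS0 hS := by
    have h : Dm r e := ⟨hr, hr1, he, by nlinarith⟩
    have hX0 : 0 < X := by
      have : 0 < T ^ 2 * X := by rw [hX]; exact h.Y
      exact pos_of_mul_pos_right this (sq_nonneg T)
    have hx : 0 < √X := Real.sqrt_pos.2 hX0
    have hx2 : √X ^ 2 = X := Real.sq_sqrt hX0.le
    have hX' : (1 - e ^ 2) * X = 1 - r ^ 2 := by rw [← hX, heT]; ring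
    have hxr : (1 - e ^ 2) * √X ^ 2 = 1 - r ^ 2 := by rw [hx2, hX']
    have ha : A * √X ∈ Icc (0 : ℝ) 1 := by
      refine ⟨by positivity, (abs_le_of_sq_le_sq' ?_ zero_le_one).2⟩
      rw [mul_pow, hx2, one_pow]; exact hA1
    have hb : B * √X ∈ Icc (0 : ℝ) 1 := by
      refine ⟨by positivity, (abs_le_of_sq_le_sq' ?_ zero_le_one).2⟩
      rw [mul_pow, hx2, one_pow]; exact hB1
    have h1 := c1_all h hx hxr ha hb hS0 (by rw [hS, mul_pow, mul_pow, hx2])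
    rw [mul_div_cancel_right₀ _ hx.ne', mul_div_cancel_right₀ _ hx.ne', KD_conv h hX',
      Uh_conv h] at h1
    have hD := DK_pos h
    rw [← hX'] at h1
    refine pos_of_mul_pos_right (a := DK r e * (1 - e ^ 2)) ?_ (mul_pos hD h.T).le
    linarith
  PI x a b hx hx1 ha hb := by
    have p : Pt T e x := ⟨hT, he, heT, hx, hx1⟩
    rw [← sub_nonneg, pi_of p]
    refine mul_nonneg (fac_pos p).le (sub_nonneg.2 ?_)
    by_cases h : a = x ∧ b = x
    · obtain ⟨rfl, h2⟩ := h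
      subst h2
      exact (pi_ball p ha.2).le
    · exact (pi_main p ha hb h).le
  PIeq x a b hx hx1 ha hb _ _ heq := by
    by_contra h
    have p : Pt T e x := ⟨hT, he, heT, hx, hx1⟩
    have h1 := pi_main p ha hb h
    have h2 := mul_pos (fac_pos p) (sub_pos.2 h1)
    rw [← pi_of p] at h2
    linarith

/-- The inequalities for the radius `R`. -/
theorem ineqs {R : ℝ} (hR : 0 < R) : Ineqs (Real.tanh R) (1 / Real.cosh R) := by
  have hc := Real.cosh_pos R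
  have h1 := Real.cosh_sq_sub_sinh_sq R
  refine ineqs' ?_ (by positivity) ?_
  · rw [Real.tanh_eq_sinh_div_cosh]
    exact div_pos (Real.sinh_pos_iff.2 hR) hc
  · rw [Real.tanh_eq_sinh_div_cosh]
    field_simp
    linarith

open Vale.Agent.P219.TPH

/-- The certificate in dimension 6, all radii. -/
noncomputable def certH6 {R : ℝ} (hR : 0 < R) : CertH 6 1 R := certH6' hR (ineqs hR)

/-- The strict certificate in dimension 6, all radii. -/
noncomputable def certHR6 {R : ℝ} (hR : 0 < R) : CertHR 6 1 R := certHR6' hR (ineqs hR)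

end Vale.Agent.P219.D6
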