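import Vale.Agent.P219.D6.Data

/-! # The certificate in dimension 6: identities between the polynomials -/

namespace Vale.Agent.P219.D6

open Vale.Agent.P219.C5

/-- `ρ`. -/
def pr : P2 := [[], [.ofNat 1]]
/-- `e`. -/
def pe : P2 := [[.ofNat 0, .ofNat 1]]
/-- `1`. -/
def p1 : P2 := [[.ofNat 1]]
/-- `L1 = ρ + e`. -/
def pL1 : P2 := [[.ofNat 0, .ofNat 1], [.ofNat 1]]
/-- `1 + ρ`. -/
def pL0 : P2 := [[.ofNat 1], [.ofNat 1]]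
/-- `1 - ρ`. -/
def pv : P2 := [[.ofNat 1], [.negSucc 0]]
/-- `Y = 1 - ρ²`. -/
def pY : P2 := [[.ofNat 1], [], [.negSucc 0]]
/-- `T² = 1 - e²`. -/
def pT : P2 := [[.ofNat 1, .ofNat 0, .negSucc 0]]
/-- `C = 2 - ρ²`. -/
def pC : P2 := [[.ofNat 2], [], [.negSucc 0]]
/-- `G = ρ² - e²`. -/
def pG : P2 := [[.ofNat 0, .ofNat 0, .negSucc 0], [], [.ofNat 1]]
/-- `s = 3600 (1 - e²)`. -/
def ps : P2 := [[.ofNat 3600, .ofNat 0, .negSucc 3599]]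
/-- `N`. -/
def pN : P2 := [[.ofNat 0, .ofNat 0, .ofNat 0, .ofNat 0, .ofNat 0, .ofNat 4320, .ofNat 1120]]

/-- Powers. -/
def ppow (p : P2) (n : ℕ) : P2 :=
  Nat.rec (motive := fun _ => P2) [[.ofNat 1]] (fun _ ih => mul2 ih p) n

/-- Numerator of the derivative of `P/(ρ^i L1^j (1+ρ)^l)`, over
`ρ^(i+1) L1^(j+1) (1+ρ)^(l+1)`. -/
def opD (P : P2) (i j l : ℤ) : P2 :=
  add2 (mul2 (mul2 (mul2 pr pL1) pL0) (dx P))
    (smul2 (-1 : ℤ) (mul2 P (add2 (smul2 i (mul2 pL1 pL0))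
      (add2 (smul2 j (mul2 pr pL0)) (smul2 l (mul2 pr pL1))))))

/-- `c = b + (Y/ρ) b_ρ`. -/
theorem cN_eq : eqv (mul2 pL0 cN) (add2 (mul2 (mul2 (mul2 (mul2 pr pr) pL1) pL0) bN)
    (mul2 pY (opD bN 8 4 0))) = true := by decide +kernel

/-- `Y F = u + b - (Y/ρ) u_ρ`. -/
theorem FN_eq : eqv (smul2 10 (mul2 (mul2 (mul2 pY pL0) pL1) FN))
    (add2 (mul2 (mul2 (mul2 pr pr) pL0) (add2 bN (mul2 pL1 uN)))
    (smul2 (-1 : ℤ) (mul2 pY (opD uN 8 3 0)))) = true := by decide +kernel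

/-- `φ = 2 s/ρ² - γ + (Y/ρ) γ_ρ`. -/
theorem fN_eq : eqv (mul2 pL0 fN)
    (add2 (smul2 20 (mul2 (mul2 (ppow pr 8) (ppow pL1 4)) (mul2 (ppow pL0 2) ps)))
    (add2 (smul2 (-1 : ℤ) (mul2 (mul2 (mul2 (mul2 pr pr) pL1) pL0) gN))
    (mul2 pY (opD gN 8 3 1)))) = true := by decide +kernel

/-! ### The kernel; all over `20 ρ¹⁰ L1⁵` -/

/-- `L1`. -/
def pL : P2 := pL1
/-- `ρ²`. -/
def pr2 : P2 := mul2 pr pr
/-- `b`. -/
def pB : P2 := smul2 2 (mul2 (mul2 pr2 pL) bN)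
/-- `u`. -/
def pU : P2 := smul2 2 (mul2 (mul2 (mul2 pr2 pL) pL) uN)
/-- `M (u + b/2)`, `M = 5/ρ²`. -/
def pMW : P2 := smul2 5 (mul2 pL (add2 (smul2 2 (mul2 pL uN)) bN))
/-- `M b`. -/
def pMB : P2 := smul2 10 (mul2 pL bN)
/-- `v = Y F - c/2`. -/
def pV : P2 := add2 (smul2 20 (mul2 (mul2 pY (ppow pL 2)) FN)) (smul2 (-1 : ℤ) cN)
/-- `R = N Y/ρ¹⁰`. -/
def pR : P2 := smul2 20 (mul2 (mul2 (ppow pL 5) pY) pN)
/-- `(1+ρ) γ`. -/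
def pg1 : P2 := smul2 2 (mul2 (mul2 (mul2 pr2 pL1) pL) gN)
/-- `(1+ρ) φ`. -/
def pf1 : P2 := smul2 2 (mul2 pL1 fN)

theorem k1_eq : eqv k1 (add2 (mul2 pY pR) (mul2 pT pV)) = true := by decide +kernel
theorem kc_eq : eqv kc (smul2 (-2 : ℤ) (mul2 pY pMW)) = true := by decide +kernel
theorem kcc_eq : eqv kcc (add2 (smul2 (-2 : ℤ) (mul2 pY pV)) (add2 (smul2 2 (mul2 pT cN))
    (smul2 2 (mul2 (mul2 pC pY) pMW)))) = true := by decide +kernel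
theorem kp_eq : eqv kp (add2 (mul2 pY pV) (smul2 (-1 : ℤ) (add2 (mul2 pT cN)
    (add2 (mul2 (mul2 pC pY) pMW) (add2 (mul2 pT pB) (mul2 pv (add2 pg1 pf1))))))) = true := by
  decide +kernel
theorem kcp_eq : eqv kcp (add2 (mul2 pY pMB) (mul2 pv pf1)) = true := by decide +kernel
theorem kccp_eq : eqv kccp (smul2 2 (mul2 pY pB)) = true := by decide +kernel
theorem kpp_eq : eqv (smul2 2 kpp) (smul2 (-1 : ℤ) (mul2 pY (add2 (smul2 2 cN)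
    (add2 (mul2 pC pMB) (smul2 2 pB))))) = true := by decide +kernel

/-- Tangency. -/
theorem tan1 : eqv kcp (add2 kc (add2 (smul2 2 k1) (smul2 (-2 : ℤ) (add2 kccp kpp)))) = true := by
  decide +kernel
theorem tan2 : eqv (add2 kp (add2 (smul2 3 k1) (add2 (smul2 2 kc) kcc))) (add2 kccp kpp) =
    true := by decide +kernel

end Vale.Agent.P219.D6
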