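import Vale.Agent.P219.D6.Lists
import Vale.Agent.P219.D4.Alg
import Vale.Agent.P219.D6.Base

/-! # The certificate in dimension 6: the kernel -/

open Set

namespace Vale.Agent.P219.D6

open Vale.Agent.P219.C5
open Vale.Agent.P219.D4 (KS)

/-- The domain: `ρ = 1/cosh (r/2)`, `e = 1/cosh R`. -/
structure Dm (r e : ℝ) : Prop where
  r0 : 0 < r
  r1 : r < 1
  e0 : 0 < e
  e1 : e < 1

/-- `20 ρ¹⁰ L1⁵`. -/
noncomputable def DK (r e : ℝ) : ℝ := 20 * r ^ 10 * (r + e) ^ 5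

/-- `20 ρ¹⁰ L1⁵ (u + (1 - A²) b/2)`. -/
noncomputable def Uh (r e A : ℝ) : ℝ :=
  r ^ 2 * (r + e) * (2 * ((r + e) * e2 r e uN) + e2 r e bN - A ^ 2 * e2 r e bN)

/-- `20 ρ¹⁰ L1⁵ (1 - e²)` times the kernel. -/
noncomputable def KD (r e A B S : ℝ) : ℝ :=
  (1 - r ^ 2) * e2 r e pR + (1 - e ^ 2) * e2 r e pV +
    (A ^ 2 + B ^ 2) * (-(1 - r ^ 2) * e2 r e pV + (1 - e ^ 2) * e2 r e cN +
      (2 - r ^ 2) * (1 - r ^ 2) * e2 r e pMW) / 2 -
    (1 - r ^ 2) * e2 r e cN * (A * B) ^ 2 -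
    (2 - r ^ 2) * (1 - r ^ 2) * e2 r e pMB * (A * B) ^ 2 / 2 -
    (1 - r ^ 2) * e2 r e pMW * (A + B) + (1 - r ^ 2) * e2 r e pMB * (A * B) * (A + B) / 2 -
    (1 - e ^ 2) * e2 r e pB * (A * B) * S

/-- The coefficients. -/
noncomputable def KK (r e : ℝ) : KS :=
  ⟨e2 r e k1, e2 r e kc, e2 r e kcc, e2 r e kp, e2 r e kcp, e2 r e kccp, e2 r e kpp⟩

theorem v_L (r e : ℝ) : e2 r e pL = r + e := by
  rw [pL, v_L1]
theorem v_r2 (r e : ℝ) : e2 r e pr2 = r ^ 2 := by rw [pr2, e2_mul, v_r]; ring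

theorem r_B (r e : ℝ) : e2 r e pB = 2 * (r ^ 2 * (r + e) * e2 r e bN) := by
  simp only [pB, e2_mul, e2_smul, v_L, v_r2]; push_cast; ring
theorem r_MB (r e : ℝ) : e2 r e pMB = 10 * ((r + e) * e2 r e bN) := by
  simp only [pMB, e2_mul, e2_smul, v_L]; push_cast; ring
theorem r_MW (r e : ℝ) : e2 r e pMW = 5 * ((r + e) *
    (2 * ((r + e) * e2 r e uN) + e2 r e bN)) := by
  simp only [pMW, e2_mul, e2_smul, e2_add, v_L]; push_cast; ring

/-- `(1 - ρ²) γ` and `(1 - ρ²) φ` over the common denominator. -/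
noncomputable def gY (r e : ℝ) : ℝ := (1 - r) * e2 r e pg1
noncomputable def fY (r e : ℝ) : ℝ := (1 - r) * e2 r e pf1

theorem gY_eq {r e : ℝ} (h : Dm r e) : gY r e = (1 - r ^ 2) * gam e r * DK r e := by
  have h1 := h.r0; have h2 := h.e0
  simp only [gY, pg1, e2_mul, e2_smul, v_r2, v_L1, v_L, gam, fq, DK]
  push_cast
  field_simp
  ring

theorem fY_eq {r e : ℝ} (h : Dm r e) : fY r e = (1 - r ^ 2) * fph e r * DK r e := by
  have h1 := h.r0; have h2 := h.e0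
  simp only [fY, pf1, e2_mul, e2_smul, v_L1, fph, fq, DK]
  push_cast
  field_simp
  ring

/-- The kernel, in terms of the coefficients. -/
theorem KD_eq (r e A B S : ℝ) : KD r e A B S = (KK r e).pm A B +
    A * B * (gY r e + fY r e * (1 - (A + B) / 2)) +
    e2 r e pB * (A * B) * ((1 - e ^ 2) * (1 - S) - (1 - r ^ 2) * (A ^ 2 + B ^ 2) / 2) := by
  have h1 := e2_eqv k1_eq r e
  have h2 := e2_eqv kc_eq r e
  have h3 := e2_eqv kcc_eq r e
  have h4 := e2_eqv kp_eq r e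
  have h5 := e2_eqv kcp_eq r e
  have h6 := e2_eqv kccp_eq r e
  have h7 := e2_eqv kpp_eq r e
  simp only [e2_add, e2_mul, e2_smul, v_Y, v_T, v_C, v_v] at h1 h2 h3 h4 h5 h6 h7
  push_cast at h1 h2 h3 h4 h5 h6 h7
  have h7' : e2 r e kpp = -((1 - r ^ 2) * (2 * e2 r e cN + ((2 - r ^ 2) * e2 r e pMB +
    2 * e2 r e pB))) / 2 := by linarith
  simp only [KK, KS.pm, KS.g, gY, fY, KD]
  rw [h1, h2, h3, h4, h5, h6, h7']
  ring

end Vale.Agent.P219.D6
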