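import Vale.Agent.P219.C5.Poly

/-! # The certificate in dimension 6: reduced polynomials (generated) -/

namespace Vale.Agent.P219.D6

open Vale.Agent.P219.C5

/-- `S1`, reduced. -/
def S1l : List P2 :=
  [[[.ofNat 0, .ofNat 0, .ofNat 0, .ofNat 0, .ofNat 0, .ofNat 0, .ofNat 11592, .ofNat 18312,
      .negSucc 106955, .ofNat 91140],
    [.ofNat 0, .ofNat 0, .ofNat 0, .ofNat 0, .ofNat 0, .ofNat 37335, .ofNat 31869, .negSucc 242155,
      .ofNat 101788, .ofNat 182280],
    [.ofNat 0, .ofNat 0, .ofNat 0, .ofNat 0, .ofNat 39777, .ofNat 8925, .ofNat 95663,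
      .negSucc 640102, .ofNat 419099, .ofNat 212415],
    [.ofNat 0, .ofNat 0, .ofNat 0, .ofNat 13500, .ofNat 30474, .ofNat 775053, .negSucc 1679056,
      .negSucc 171101, .ofNat 674453, .ofNat 72765],
    [.ofNat 0, .ofNat 0, .ofNat 1170, .ofNat 92406, .ofNat 998028, .negSucc 1689769,
      .negSucc 1094586, .ofNat 879492, .ofNat 172451, .negSucc 17359],
    [.ofNat 0, .ofNat 0, .ofNat 90420, .ofNat 660927, .negSucc 1049304, .negSucc 627024,
      .ofNat 1364746, .ofNat 3152, .negSucc 214850, .ofNat 13790],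
    [.ofNat 0, .ofNat 41400, .ofNat 225785, .negSucc 598566, .ofNat 381317, .ofNat 2929830,
      .ofNat 188024, .negSucc 710452, .negSucc 54187, .ofNat 7490],
    [.ofNat 8280, .ofNat 9708, .negSucc 261425, .ofNat 236630, .ofNat 3764960, .ofNat 1252571,
      .negSucc 942307, .negSucc 206888, .ofNat 21576, .negSucc 14979],
    [.negSucc 14099, .negSucc 54163, .negSucc 158229, .ofNat 2298876, .ofNat 1501475,
      .negSucc 426763, .negSucc 336760, .negSucc 69777, .ofNat 63218, .negSucc 7489],
    [.negSucc 3463, .negSucc 48071, .ofNat 518002, .ofNat 540749, .ofNat 38644, .negSucc 690817,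
      .negSucc 425318, .ofNat 266730, .ofNat 37450],
    [.ofNat 30224, .ofNat 12200, .negSucc 22776, .ofNat 62518, .negSucc 844176, .negSucc 890359,
      .ofNat 204153, .ofNat 198485],
    [.ofNat 10652, .negSucc 40327, .ofNat 43864, .negSucc 386472, .negSucc 863832, .negSucc 82506,
      .ofNat 273385],
    [.negSucc 11967, .ofNat 11424, .negSucc 14591, .negSucc 373903, .negSucc 137639, .ofNat 149800],
    [.negSucc 5983, .ofNat 20672, .negSucc 58975, .negSucc 39511, .ofNat 29960]]]

/-- `S2`, reduced. -/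
def S2l : List P2 :=
  [[[.ofNat 0, .ofNat 0, .ofNat 0, .ofNat 0, .ofNat 0, .ofNat 0, .ofNat 34776, .ofNat 54936,
      .negSucc 280835, .ofNat 222572, .ofNat 427824, .negSucc 364559],
    [.ofNat 0, .ofNat 0, .ofNat 0, .ofNat 0, .ofNat 0, .ofNat 132630, .ofNat 143706,
      .negSucc 779493, .ofNat 784074, .ofNat 1644892, .negSucc 1002975, .negSucc 364559],
    [.ofNat 0, .ofNat 0, .ofNat 0, .ofNat 0, .ofNat 177486, .ofNat 73920, .negSucc 96367,
      .ofNat 350588, .ofNat 2228962, .ofNat 290068, .negSucc 1915323, .ofNat 349860],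
    [.ofNat 0, .ofNat 0, .ofNat 0, .ofNat 88500, .negSucc 25253, .ofNat 1767644, .negSucc 1786239,
      .ofNat 668782, .ofNat 3761806, .negSucc 3841591, .ofNat 741536, .ofNat 592410],
    [.ofNat 0, .ofNat 0, .ofNat 5460, .ofNat 73728, .ofNat 2407298, .negSucc 2814439,
      .negSucc 1960946, .ofNat 5710897, .negSucc 3271111, .negSucc 2107445, .ofNat 2437445,
      .ofNat 137165],
    [.ofNat 0, .ofNat 0, .ofNat 131700, .ofNat 1484998, .negSucc 1520187, .negSucc 3355508,
      .ofNat 5800514, .negSucc 303790, .negSucc 8829943, .ofNat 3629709, .ofNat 841674,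
      .negSucc 250914],
    [.ofNat 0, .ofNat 55200, .ofNat 596750, .negSucc 422915, .negSucc 2314772, .ofNat 5292304,
      .ofNat 1264874, .negSucc 11707630, .ofNat 2125147, .ofNat 2568830, .negSucc 1050701,
      .negSucc 110634],
    [.ofNat 11040, .ofNat 148344, .negSucc 139017, .negSucc 456868, .ofNat 2986938, .ofNat 948772,
      .negSucc 7133807, .negSucc 81831, .ofNat 4735586, .negSucc 1538819, .negSucc 523969,
      .ofNat 18725],
    [.ofNat 8280, .ofNat 40784, .ofNat 66478, .ofNat 705927, .ofNat 762420, .negSucc 1838695,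
      .negSucc 530775, .ofNat 5176268, .negSucc 801421, .negSucc 950093, .ofNat 87784,
      .negSucc 3744],
    [.ofNat 24328, .negSucc 14639, .ofNat 157362, .ofNat 225125, .ofNat 442136, .negSucc 358681,
      .ofNat 2387278, .ofNat 472334, .negSucc 551917, .ofNat 103596, .negSucc 24565,
      .negSucc 3744],
    [.ofNat 18664, .ofNat 65980, .negSucc 94495, .ofNat 957385, .negSucc 1417585, .negSucc 1358563,
      .ofNat 1047385, .ofNat 339687, .ofNat 93466, .negSucc 25459, .negSucc 18724],
    [.ofNat 17420, .ofNat 109476, .ofNat 512280, .negSucc 1450454, .negSucc 2478341, .ofNat 100759,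
      .ofNat 478504, .ofNat 210683, .negSucc 42493, .ofNat 3745],
    [.ofNat 40700, .ofNat 80256, .negSucc 257399, .negSucc 1295898, .negSucc 427704, .ofNat 273552,
      .ofNat 119024, .negSucc 125036, .ofNat 48685],
    [.negSucc 12103, .ofNat 4792, .negSucc 259739, .ofNat 110966, .ofNat 259212, .ofNat 222572,
      .negSucc 15731, .negSucc 82389],
    [.negSucc 24295, .ofNat 1232, .ofNat 130032, .ofNat 85606, .ofNat 530718, .ofNat 199538,
      .negSucc 232189],
    [.ofNat 5984, .ofNat 9248, .negSucc 44383, .ofNat 334392, .ofNat 167600, .negSucc 149799],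
    [.ofNat 5984, .negSucc 20671, .ofNat 58976, .ofNat 39512, .negSucc 29959]]]

/-- `S3`, reduced. -/
def S3l : List P2 :=
  [[[.ofNat 0, .ofNat 0, .ofNat 0, .ofNat 0, .ofNat 0, .ofNat 0, .ofNat 17388, .ofNat 27468,
      .negSucc 174401, .ofNat 71862, .ofNat 427824, .negSucc 364559],
    [.ofNat 0, .ofNat 0, .ofNat 0, .ofNat 0, .ofNat 0, .ofNat 70440, .ofNat 88428, .negSucc 581991,
      .ofNat 304958, .ofNat 1494182, .negSucc 1002975, .negSucc 364559],
    [.ofNat 0, .ofNat 0, .ofNat 0, .ofNat 0, .ofNat 100374, .ofNat 68790, .negSucc 463084,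
      .ofNat 263847, .ofNat 1526715, .ofNat 448023, .negSucc 1915323, .ofNat 349860],
    [.ofNat 0, .ofNat 0, .ofNat 0, .ofNat 53850, .negSucc 12095, .ofNat 401705, .negSucc 545969,
      .negSucc 372567, .ofNat 4154540, .negSucc 3538106, .ofNat 741536, .ofNat 592410],
    [.ofNat 0, .ofNat 0, .ofNat 3120, .ofNat 4266, .ofNat 789039, .negSucc 1023451,
      .negSucc 2031974, .ofNat 5017127, .negSucc 2131068, .negSucc 1969265, .ofNat 2437445,
      .ofNat 137165],
    [.ofNat 0, .ofNat 0, .ofNat 38640, .ofNat 427791, .negSucc 331403, .negSucc 2192538,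
      .ofNat 2309342, .ofNat 1514404, .negSucc 8141051, .ofNat 3460659, .ofNat 841674,
      .negSucc 250914],
    [.ofNat 0, .ofNat 13800, .ofNat 147360, .ofNat 180147, .negSucc 1450833, .ofNat 331599,
      .ofNat 3177747, .negSucc 10061990, .ofNat 1516929, .ofNat 2454380, .negSucc 1050701,
      .negSucc 110634],
    [.ofNat 2760, .ofNat 40536, .ofNat 55028, .negSucc 443446, .negSucc 663251, .ofNat 2962398,
      .negSucc 4368167, .negSucc 1098701, .ofNat 4265342, .negSucc 1556249, .negSucc 523969,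
      .ofNat 18725],
    [.ofNat 2760, .negSucc 1883, .negSucc 77421, .negSucc 1097520, .ofNat 2893598, .ofNat 1677706,
      .negSucc 1838672, .ofNat 4524793, .negSucc 864316, .negSucc 973578, .ofNat 87784,
      .negSucc 3744],
    [.negSucc 5723, .negSucc 97547, .negSucc 525865, .ofNat 1690239, .ofNat 3534622,
      .negSucc 1766320, .ofNat 2020796, .ofNat 353894, .negSucc 694971, .ofNat 144791,
      .negSucc 24565, .negSucc 3744],
    [.negSucc 26675, .negSucc 60287, .ofNat 301126, .ofNat 2766567, .negSucc 2418478,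
      .negSucc 1675533, .ofNat 949715, .ofNat 112085, .ofNat 197879, .negSucc 32949,
      .negSucc 18724],
    [.ofNat 23040, .ofNat 103368, .ofNat 1288882, .negSucc 1722647, .negSucc 3086119,
      .ofNat 224599, .ofNat 453594, .ofNat 214356, .negSucc 31705, .negSucc 3744],
    [.ofNat 55296, .ofNat 333168, .negSucc 42319, .negSucc 1838987, .negSucc 106431, .ofNat 468261,
      .negSucc 180318, .negSucc 83620, .ofNat 71155],
    [.ofNat 26592, .ofNat 210864, .negSucc 498483, .ofNat 330872, .ofNat 390352, .negSucc 391895,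
      .negSucc 83799, .ofNat 74900],
    [.ofNat 17952, .negSucc 62015, .ofNat 173936, .ofNat 128872, .negSucc 119367, .negSucc 19755,
      .ofNat 14980]]]

/-- `S4`, reduced. -/
def S4l : List P2 :=
  [[[.ofNat 0, .ofNat 0, .ofNat 0, .ofNat 0, .ofNat 0, .ofNat 0, .ofNat 69552, .ofNat 109872,
      .negSucc 629639, .ofNat 366296, .ofNat 1283472, .negSucc 1093679],
    [.ofNat 0, .ofNat 0, .ofNat 0, .ofNat 0, .ofNat 0, .ofNat 281760, .ofNat 353712,
      .negSucc 2045877, .ofNat 1449990, .ofNat 4633256, .negSucc 3008927, .negSucc 1093679],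
    [.ofNat 0, .ofNat 0, .ofNat 0, .ofNat 0, .ofNat 401496, .ofNat 275160, .negSucc 1405561,
      .ofNat 1264052, .ofNat 5408622, .ofNat 1105264, .negSucc 5745971, .ofNat 1049580],
    [.ofNat 0, .ofNat 0, .ofNat 0, .ofNat 215400, .negSucc 48383, .ofNat 1976840, .negSucc 1974801,
      .ofNat 309612, .ofNat 11624522, .negSucc 10853125, .ofNat 2224608, .ofNat 1777230],
    [.ofNat 0, .ofNat 0, .ofNat 12480, .ofNat 17064, .ofNat 3437370, .negSucc 3560661,
      .negSucc 5863264, .ofNat 14418821, .negSucc 7485603, .negSucc 5899257, .ofNat 7312335,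
      .ofNat 411495],
    [.ofNat 0, .ofNat 0, .ofNat 154560, .ofNat 2019414, .negSucc 654471, .negSucc 8647948,
      .ofNat 7811492, .ofNat 2880743, .negSucc 24435695, .ofNat 10439027, .ofNat 2525022,
      .negSucc 752744],
    [.ofNat 0, .ofNat 55200, .ofNat 847920, .ofNat 1144710, .negSucc 6756260, .ofNat 2099302,
      .ofNat 9002892, .negSucc 30307582, .ofNat 4775259, .ofNat 7409340, .negSucc 3152105,
      .negSucc 331904],
    [.ofNat 11040, .ofNat 279744, .ofNat 440912, .negSucc 2145834, .negSucc 2729653,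
      .ofNat 10673520, .negSucc 12955213, .negSucc 3351299, .ofNat 12850330, .negSucc 4574039,
      .negSucc 1571909, .ofNat 56175],
    [.ofNat 34560, .ofNat 105144, .negSucc 222667, .negSucc 4667898, .ofNat 11789782,
      .ofNat 6159496, .negSucc 6152903, .ofNat 13450994, .negSucc 2358529, .negSucc 2909851,
      .ofNat 263352, .negSucc 11234],
    [.ofNat 3384, .negSucc 309575, .negSucc 2015639, .ofNat 6991539, .ofNat 12320704,
      .negSucc 5999977, .ofNat 5226098, .ofNat 1454458, .negSucc 1760373, .ofNat 348238,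
      .negSucc 73697, .negSucc 11234],
    [.negSucc 92183, .negSucc 156115, .ofNat 1323410, .ofNat 9214553, .negSucc 8695035,
      .negSucc 6900057, .ofNat 2965861, .ofNat 891737, .ofNat 602468, .negSucc 76379,
      .negSucc 56174],
    [.ofNat 105692, .ofNat 452284, .ofNat 3751346, .negSucc 6948450, .negSucc 10895291,
      .negSucc 964120, .ofNat 1206248, .ofNat 1394801, .negSucc 157441, .ofNat 11235],
    [.ofNat 221300, .ofNat 745424, .negSucc 981661, .negSucc 5765422, .negSucc 2768144,
      .ofNat 784964, .ofNat 1069760, .negSucc 428768, .ofNat 116095],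
    [.ofNat 1936, .ofNat 321464, .negSucc 1123425, .negSucc 125271, .ofNat 1000604, .ofNat 1054486,
      .negSucc 44867, .negSucc 329559],
    [.negSucc 33631, .negSucc 19295, .ofNat 360992, .ofNat 368488, .ofNat 1744368, .ofNat 624640,
      .negSucc 748999],
    [.ofNat 17952, .ofNat 27744, .negSucc 133151, .ofNat 1003176, .ofNat 502800, .negSucc 449399],
    [.ofNat 17952, .negSucc 62015, .ofNat 176928, .ofNat 118536, .negSucc 89879]]]

/-- `S5`, reduced. -/
def S5l : List P2 :=
  [[[.ofNat 0, .ofNat 0, .ofNat 0, .ofNat 0, .ofNat 0, .ofNat 0, .ofNat 0, .ofNat 40032,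
      .negSucc 50847, .ofNat 427824, .negSucc 364559],
    [.ofNat 0, .ofNat 0, .ofNat 0, .ofNat 0, .ofNat 0, .ofNat 0, .ofNat 217878, .ofNat 68690,
      .ofNat 943648, .negSucc 638415, .negSucc 364559],
    [.ofNat 0, .ofNat 0, .ofNat 0, .ofNat 0, .ofNat 0, .ofNat 475116, .ofNat 547938,
      .negSucc 204205, .ofNat 1220384, .negSucc 1550763, .ofNat 349860],
    [.ofNat 0, .ofNat 0, .ofNat 0, .ofNat 0, .ofNat 550224, .ofNat 755516, .negSucc 2009165,
      .ofNat 3262158, .negSucc 1853397, .ofNat 391676, .ofNat 592410],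
    [.ofNat 0, .ofNat 0, .ofNat 0, .ofNat 392350, .ofNat 484158, .negSucc 1855388, .ofNat 1590405,
      .ofNat 369658, .negSucc 2351561, .ofNat 1845035, .ofNat 137165],
    [.ofNat 0, .ofNat 0, .ofNat 207400, .ofNat 297206, .negSucc 623201, .negSucc 719116,
      .ofNat 1894427, .negSucc 5924741, .ofNat 1802874, .ofNat 704509, .negSucc 250914],
    [.ofNat 0, .ofNat 94080, .ofNat 230440, .ofNat 79671, .negSucc 740600, .ofNat 583681,
      .negSucc 5190342, .ofNat 344123, .ofNat 1796771, .negSucc 799786, .negSucc 110634],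
    [.ofNat 23520, .ofNat 123200, .ofNat 260024, .negSucc 391400, .negSucc 418832,
      .negSucc 2158534, .negSucc 179918, .ofNat 2871307, .negSucc 973672, .negSucc 413334,
      .ofNat 18725],
    [.ofNat 35480, .ofNat 121936, .negSucc 177627, .negSucc 60568, .negSucc 863888, .ofNat 595251,
      .ofNat 3223687, .negSucc 723872, .negSucc 650228, .ofNat 69059, .negSucc 3744],
    [.ofNat 6200, .ofNat 32000, .ofNat 25226, .negSucc 504574, .ofNat 1268715, .ofNat 2982339,
      .negSucc 390216, .negSucc 500508, .ofNat 71987, .negSucc 20820, .negSucc 3744],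
    [.ofNat 9556, .negSucc 57111, .negSucc 187261, .ofNat 818821, .ofNat 2526843, .negSucc 278875,
      .negSucc 423311, .ofNat 142213, .ofNat 10341, .negSucc 14979],
    [.negSucc 5635, .negSucc 31647, .ofNat 114482, .ofNat 1838897, .negSucc 1116718,
      .negSucc 1269671, .ofNat 345622, .ofNat 105349, .ofNat 33705],
    [.ofNat 23040, .ofNat 48072, .ofNat 990014, .negSucc 1350095, .negSucc 2025287, .ofNat 82270,
      .ofNat 121080, .ofNat 149800],
    [.ofNat 55296, .ofNat 306576, .negSucc 246147, .negSucc 1397407, .negSucc 161151,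
      .ofNat 174236, .ofNat 59920],
    [.ofNat 26592, .ofNat 192912, .negSucc 433475, .ofNat 158568, .ofNat 249624, .negSucc 134819],
    [.ofNat 17952, .negSucc 62015, .ofNat 176928, .ofNat 118536, .negSucc 89879]]]

/-- `S6b`, reduced. -/
def S6bl : List P2 :=
  [[[.ofNat 0, .ofNat 0, .ofNat 0, .ofNat 0, .ofNat 0, .ofNat 5796, .ofNat 9156, .negSucc 53477,
      .ofNat 45570],
    [.ofNat 0, .ofNat 0, .ofNat 0, .ofNat 0, .ofNat 14934, .ofNat 15066, .negSucc 93199,
      .ofNat 19324, .ofNat 91140],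
    [.ofNat 0, .ofNat 0, .ofNat 0, .ofNat 10770, .ofNat 7374, .ofNat 53563, .negSucc 268532,
      .ofNat 163967, .ofNat 85995],
    [.ofNat 0, .ofNat 0, .ofNat 780, .ofNat 13944, .ofNat 205450, .negSucc 424331, .negSucc 107783,
      .ofNat 199198, .ofNat 32340],
    [.ofNat 0, .ofNat 0, .ofNat 20760, .ofNat 168459, .negSucc 207980, .negSucc 348193,
      .ofNat 147142, .ofNat 45321, .ofNat 3745],
    [.ofNat 0, .ofNat 11040, .ofNat 75014, .negSucc 59379, .negSucc 126077, .ofNat 208752,
      .negSucc 27327, .negSucc 48237, .ofNat 7490],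
    [.ofNat 2760, .ofNat 13776, .negSucc 41359, .ofNat 57887, .ofNat 472439, .ofNat 85144,
      .negSucc 144703, .negSucc 24118, .ofNat 3745],
    [.negSucc 3239, .negSucc 9591, .negSucc 17037, .ofNat 436066, .ofNat 334074, .negSucc 51707,
      .negSucc 75233, .negSucc 14979],
    [.negSucc 1675, .negSucc 26583, .ofNat 126744, .ofNat 236589, .ofNat 168989, .negSucc 14316,
      .negSucc 63664],
    [.ofNat 5984, .negSucc 8703, .ofNat 17632, .ofNat 157464, .ofNat 49064, .negSucc 59919],
    [.ofNat 2992, .negSucc 10335, .ofNat 29488, .ofNat 19756, .negSucc 14979]]]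

/-- `S6u`, reduced. -/
def S6ul : List P2 :=
  [[[.ofNat 0, .ofNat 0, .ofNat 0, .ofNat 0, .ofNat 0, .ofNat 0, .ofNat 5400, .ofNat 1400],
    [.ofNat 0, .ofNat 0, .ofNat 0, .ofNat 0, .ofNat 0, .ofNat 16200, .ofNat 9600, .ofNat 1400],
    [.ofNat 0, .ofNat 0, .ofNat 0, .ofNat 0, .ofNat 18609, .ofNat 19749, .ofNat 10413,
      .negSucc 8294],
    [.ofNat 0, .ofNat 0, .ofNat 0, .ofNat 14277, .ofNat 24686, .ofNat 1708, .negSucc 7471,
      .negSucc 8294],
    [.ofNat 0, .ofNat 0, .ofNat 11456, .ofNat 19349, .negSucc 26609, .ofNat 37496, .negSucc 13615,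
      .negSucc 4934],
    [.ofNat 0, .ofNat 7056, .ofNat 9680, .negSucc 16698, .ofNat 50182, .negSucc 24481,
      .negSucc 19751, .ofNat 11235],
    [.ofNat 2352, .ofNat 6564, .ofNat 12882, .ofNat 11251, .negSucc 41147, .negSucc 34077,
      .ofNat 17076, .ofNat 3745],
    [.ofNat 2812, .ofNat 14548, .ofNat 7386, .negSucc 21084, .negSucc 44143, .negSucc 3541,
      .ofNat 2096, .ofNat 3745],
    [.ofNat 3988, .ofNat 13216, .ofNat 14862, .negSucc 52300, .ofNat 2581, .ofNat 9419,
      .negSucc 3744],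
    [.ofNat 3856, .ofNat 16952, .negSucc 37753, .ofNat 41452, .ofNat 30824, .negSucc 22469],
    [.ofNat 2992, .negSucc 10335, .ofNat 29488, .ofNat 19756, .negSucc 14979]]]

/-- `S9`, reduced. -/
def S9l : List P2 :=
  [[[.ofNat 0, .ofNat 0, .ofNat 0, .ofNat 0, .ofNat 0, .ofNat 0, .ofNat 0, .ofNat 103788,
      .ofNat 49868, .negSucc 174401, .ofNat 71862, .ofNat 427824, .negSucc 364559],
    [.ofNat 0, .ofNat 0, .ofNat 0, .ofNat 0, .ofNat 0, .ofNat 0, .ofNat 398652, .ofNat 340748,
      .negSucc 335321, .ofNat 58694, .ofNat 1138220, .negSucc 210591, .negSucc 729119],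
    [.ofNat 0, .ofNat 0, .ofNat 0, .ofNat 0, .ofNat 0, .ofNat 559854, .ofNat 823734, .ofNat 624225,
      .negSucc 615902, .negSucc 168062, .ofNat 2819169, .negSucc 1761355, .negSucc 379259],
    [.ofNat 0, .ofNat 0, .ofNat 0, .ofNat 0, .ofNat 386406, .ofNat 1123118, .ofNat 1534274,
      .negSucc 954251, .negSucc 3279815, .ofNat 3918964, .ofNat 1426336, .negSucc 1369679,
      .ofNat 213150],
    [.ofNat 0, .ofNat 0, .ofNat 0, .ofNat 237040, .ofNat 1040988, .ofNat 114507, .ofNat 725507,
      .negSucc 3511658, .negSucc 2988038, .ofNat 6378577, .negSucc 1590190, .ofNat 475355,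
      .ofNat 350315],
    [.ofNat 0, .ofNat 0, .ofNat 197260, .ofNat 642324, .negSucc 1304189, .ofNat 1608980,
      .ofNat 358458, .negSucc 8070693, .ofNat 2626144, .negSucc 68893, .negSucc 1115251,
      .ofNat 1179864, .ofNat 99400],
    [.ofNat 0, .ofNat 94080, .ofNat 291920, .negSucc 801241, .negSucc 182453, .ofNat 3523565,
      .negSucc 4971094, .negSucc 4559735, .ofNat 3154980, .negSucc 3708063, .ofNat 413804,
      .ofNat 380077, .negSucc 11234],
    [.ofNat 23520, .ofNat 140000, .negSucc 144193, .negSucc 779585, .ofNat 2435798,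
      .negSucc 2913735, .negSucc 4275173, .ofNat 7462912, .negSucc 1616315, .negSucc 2552011,
      .ofNat 282756, .negSucc 33257, .ofNat 7490],
    [.ofNat 39680, .ofNat 78624, .ofNat 70344, .ofNat 244339, .negSucc 3008360, .negSucc 2597285,
      .ofNat 9207410, .ofNat 4723331, .negSucc 3884204, .negSucc 704018, .ofNat 11297,
      .ofNat 35801, .ofNat 3745],
    [.ofNat 46840, .ofNat 181224, .ofNat 194258, .negSucc 1791895, .negSucc 3504339,
      .ofNat 6358010, .ofNat 7112022, .negSucc 2945385, .negSucc 1299743, .ofNat 228778,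
      .ofNat 30854, .ofNat 14980],
    [.ofNat 45704, .ofNat 273216, .negSucc 428103, .negSucc 1995528, .ofNat 1723895,
      .ofNat 3584787, .negSucc 2553512, .negSucc 1256094, .ofNat 593753, .ofNat 102861,
      .ofNat 3745],
    [.ofNat 8760, .ofNat 125024, .negSucc 143391, .negSucc 18713, .ofNat 1104356, .negSucc 2590893,
      .negSucc 2030493, .ofNat 731634, .ofNat 277340],
    [.negSucc 1939, .negSucc 13927, .ofNat 235104, .ofNat 672019, .negSucc 970516,
      .negSucc 1589204, .ofNat 132623, .ofNat 159614, .ofNat 52430],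
    [.ofNat 5984, .negSucc 8703, .ofNat 50208, .ofNat 305768, .negSucc 242747, .negSucc 97743,
      .ofNat 61616, .negSucc 14979],
    [.ofNat 2992, .negSucc 10335, .ofNat 41456, .negSucc 21587, .ofNat 102972, .ofNat 79024,
      .negSucc 59919]]]

/-- `S10`, reduced. -/
def S10l : List P2 :=
  [[[.ofNat 0, .ofNat 0, .ofNat 0, .ofNat 0, .ofNat 0, .ofNat 28980, .ofNat 45780, .negSucc 213389,
      .ofNat 241850],
    [.ofNat 0, .ofNat 0, .ofNat 0, .ofNat 0, .ofNat 74670, .ofNat 46350, .negSucc 295779,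
      .ofNat 474010, .ofNat 241850],
    [.ofNat 0, .ofNat 0, .ofNat 0, .ofNat 53850, .negSucc 37799, .ofNat 511595, .negSucc 628954,
      .ofNat 1054735, .negSucc 350524],
    [.ofNat 0, .ofNat 0, .ofNat 3900, .ofNat 15870, .ofNat 1244570, .negSucc 1991474,
      .ofNat 1220735, .negSucc 455524, .negSucc 593074],
    [.ofNat 0, .ofNat 0, .ofNat 99900, .ofNat 976055, .negSucc 1589004, .negSucc 408904,
      .ofNat 2158045, .negSucc 1829839, .negSucc 83649],
    [.ofNat 0, .ofNat 55200, .ofNat 452490, .negSucc 864774, .negSucc 1342814, .ofNat 5606635,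
      .negSucc 2178284, .negSucc 733149, .ofNat 482300],
    [.ofNat 13800, .ofNat 107760, .negSucc 519329, .negSucc 481739, .ofNat 5233720,
      .negSucc 1406009, .negSucc 2700049, .ofNat 1392200, .ofNat 211050],
    [.negSucc 6479, .negSucc 78279, .negSucc 60479, .ofNat 2926170, .negSucc 1290579,
      .negSucc 5127989, .ofNat 1736020, .ofNat 818770, .negSucc 112349],
    [.ofNat 22140, .negSucc 7359, .ofNat 1344360, .negSucc 1607779, .negSucc 5396789,
      .ofNat 1451685, .ofNat 1298175, .negSucc 328804, .negSucc 18724],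
    [.ofNat 84660, .ofNat 283200, .negSucc 623329, .negSucc 3373439, .ofNat 1154860,
      .ofNat 1640895, .negSucc 426514, .negSucc 104104, .negSucc 18724],
    [.negSucc 12339, .ofNat 90880, .negSucc 1346549, .ofNat 1080475, .ofNat 1975455,
      .negSucc 252244, .negSucc 172994, .negSucc 74899],
    [.negSucc 63219, .negSucc 311799, .ofNat 374860, .ofNat 1394955, .ofNat 84395, .negSucc 174414,
      .negSucc 56174],
    [.negSucc 23599, .negSucc 191279, .ofNat 421620, .negSucc 20859, .negSucc 185579, .ofNat 74900],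
    [.negSucc 14959, .ofNat 51680, .negSucc 147439, .negSucc 98779, .ofNat 74900]],
    [[.ofNat 0, .ofNat 0, .ofNat 0, .ofNat 0, .ofNat 0, .ofNat 0, .ofNat 0, .negSucc 27935,
      .negSucc 129695, .ofNat 855648, .negSucc 729119],
    [.ofNat 0, .ofNat 0, .ofNat 0, .ofNat 0, .ofNat 0, .ofNat 0, .ofNat 3756, .negSucc 82619,
      .ofNat 1859296, .negSucc 1276831, .negSucc 729119],
    [.ofNat 0, .ofNat 0, .ofNat 0, .ofNat 0, .ofNat 0, .ofNat 242460, .ofNat 490584,
      .negSucc 421615, .ofNat 2545628, .negSucc 3101527, .ofNat 699720],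
    [.ofNat 0, .ofNat 0, .ofNat 0, .ofNat 0, .ofNat 412860, .ofNat 603792, .negSucc 3591639,
      .ofNat 6930552, .negSucc 3601935, .ofNat 783352, .ofNat 1184820],
    [.ofNat 0, .ofNat 0, .ofNat 0, .ofNat 248500, .ofNat 102736, .negSucc 2537549, .ofNat 3571698,
      .ofNat 1079524, .negSucc 4721043, .ofNat 3690070, .ofNat 274330],
    [.ofNat 0, .ofNat 0, .ofNat 43000, .ofNat 7484, .negSucc 63247, .negSucc 1274533,
      .ofNat 4361434, .negSucc 11683771, .ofNat 3361448, .ofNat 1409018, .negSucc 501829],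
    [.ofNat 0, .ofNat 0, .ofNat 96040, .ofNat 472642, .negSucc 958089, .ofNat 1824770,
      .negSucc 9371693, .ofNat 78006, .ofNat 3500442, .negSucc 1599573, .negSucc 221269],
    [.ofNat 0, .ofNat 36800, .ofNat 239100, .negSucc 97265, .negSucc 483849, .negSucc 2494641,
      .negSucc 957309, .ofNat 5378674, .negSucc 1824845, .negSucc 826669, .ofNat 37450],
    [.ofNat 9200, .ofNat 55840, .negSucc 193947, .negSucc 210941, .ofNat 23546, .ofNat 170854,
      .ofNat 5364498, .negSucc 971437, .negSucc 1221357, .ofNat 138118, .negSucc 7489],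
    [.negSucc 8319, .negSucc 39503, .negSucc 54983, .ofNat 425774, .ofNat 627806, .ofNat 3698614,
      .negSucc 181533, .negSucc 948893, .ofNat 233854, .negSucc 41641, .negSucc 7489],
    [.negSucc 3975, .negSucc 95807, .ofNat 734104, .ofNat 480850, .ofNat 2008490, .ofNat 345440,
      .negSucc 418323, .ofNat 169394, .negSucc 24257, .negSucc 29959],
    [.negSucc 5751, .ofNat 451168, .ofNat 510312, .ofNat 908062, .ofNat 121482, .negSucc 666531,
      .negSucc 218935, .ofNat 170566, .ofNat 22470],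
    [.ofNat 127472, .ofNat 464624, .ofNat 330320, .negSucc 245879, .negSucc 1540347,
      .negSucc 1144207, .ofNat 150148, .ofNat 329560],
    [.ofNat 160736, .ofNat 95760, .ofNat 98396, .negSucc 1321543, .negSucc 1556743,
      .negSucc 145163, .ofNat 509320],
    [.ofNat 8640, .ofNat 183120, .negSucc 362339, .negSucc 667679, .negSucc 134639, .ofNat 224700]],
    [[.ofNat 0, .ofNat 0, .ofNat 0, .ofNat 0, .ofNat 0, .negSucc 28979, .negSucc 45779,
      .ofNat 281358, .negSucc 163001, .negSucc 427823, .ofNat 364560],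
    [.ofNat 0, .ofNat 0, .ofNat 0, .ofNat 0, .negSucc 74669, .negSucc 46349, .ofNat 509902,
      .negSucc 322699, .negSucc 1157497, .ofNat 638416, .ofNat 364560],
    [.ofNat 0, .ofNat 0, .ofNat 0, .negSucc 53849, .ofNat 37800, .negSucc 278938, .ofNat 686309,
      .negSucc 837324, .negSucc 974718, .ofNat 1550764, .negSucc 349859],
    [.ofNat 0, .ofNat 0, .negSucc 3899, .negSucc 15869, .negSucc 1107205, .ofNat 2143199,
      .ofNat 361739, .negSucc 3212868, .ofNat 2341613, .negSucc 391675, .negSucc 592409],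
    [.ofNat 0, .ofNat 0, .negSucc 99899, .negSucc 832204, .ofNat 1970427, .ofNat 1091066,
      .negSucc 4139337, .ofNat 1119974, .ofNat 2453132, .negSucc 1845034, .negSucc 137164],
    [.ofNat 0, .negSucc 55199, .negSucc 288089, .ofNat 1154497, .ofNat 782861, .negSucc 5051217,
      .negSucc 288721, .ofNat 6492180, .negSucc 2040873, .negSucc 704508, .ofNat 250915],
    [.negSucc 13799, .negSucc 13679, .ofNat 653730, .ofNat 88769, .negSucc 5016230, .ofNat 164921,
      .ofNat 6881401, .negSucc 1126082, .negSucc 1914720, .ofNat 799787, .ofNat 110635],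
    [.ofNat 30000, .ofNat 164680, .ofNat 81404, .negSucc 3220304, .ofNat 1355597, .ofNat 5464097,
      .negSucc 958628, .negSucc 3326136, .ofNat 963523, .ofNat 413335, .negSucc 18724],
    [.ofNat 4140, .ofNat 73456, .negSucc 1328039, .ofNat 1758153, .ofNat 4509355, .negSucc 1027287,
      .negSucc 3438985, .ofNat 576370, .ofNat 589854, .negSucc 69058, .ofNat 3745],
    [.negSucc 70139, .negSucc 211695, .ofNat 703540, .ofNat 2443091, .negSucc 513950,
      .negSucc 2357169, .ofNat 217832, .ofNat 552490, .negSucc 143141, .ofNat 20821,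
      .ofNat 3745],
    [.ofNat 25872, .negSucc 52183, .ofNat 425184, .negSucc 742503, .negSucc 1457101,
      .negSucc 372070, .ofNat 168007, .ofNat 47719, .ofNat 34599, .ofNat 14980],
    [.ofNat 63336, .negSucc 171015, .negSucc 770689, .negSucc 464119, .negSucc 1322595,
      .negSucc 428724, .ofNat 620733, .negSucc 65216, .ofNat 11235],
    [.negSucc 80831, .negSucc 225271, .ofNat 238074, .negSucc 1083355, .negSucc 299359,
      .ofNat 1151578, .negSucc 29067, .negSucc 179759],
    [.negSucc 90479, .ofNat 159136, .negSucc 197103, .ofNat 22916, .ofNat 1320692, .ofNat 319400,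
      .negSucc 449399],
    [.ofNat 17952, .ofNat 9792, .negSucc 71135, .ofNat 826248, .ofNat 384264, .negSucc 359519],
    [.ofNat 17952, .negSucc 62015, .ofNat 176928, .ofNat 118536, .negSucc 89879]],
    [[],
    [],
    [.ofNat 0, .ofNat 0, .ofNat 0, .ofNat 0, .ofNat 0, .negSucc 5795, .negSucc 9155, .ofNat 53478,
      .negSucc 45569],
    [.ofNat 0, .ofNat 0, .ofNat 0, .ofNat 0, .negSucc 14933, .negSucc 9269, .ofNat 102356,
      .negSucc 72801, .negSucc 45569],
    [.ofNat 0, .ofNat 0, .ofNat 0, .negSucc 10769, .ofNat 7560, .negSucc 32700, .ofNat 184489,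
      .negSucc 198120, .ofNat 50715],
    [.ofNat 0, .ofNat 0, .negSucc 779, .negSucc 3173, .negSucc 183141, .ofNat 487165,
      .negSucc 263104, .ofNat 37571, .ofNat 99225],
    [.ofNat 0, .ofNat 0, .negSucc 19979, .negSucc 143744, .ofNat 405871, .negSucc 37640,
      .negSucc 430258, .ofNat 298520, .ofNat 23450],
    [.ofNat 0, .negSucc 11039, .negSucc 53473, .ofNat 231013, .ofNat 116173, .negSucc 1034840,
      .ofNat 335219, .ofNat 128790, .negSucc 57399],
    [.negSucc 2759, .negSucc 2735, .ofNat 136354, .ofNat 37248, .negSucc 1011947, .ofNat 199746,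
      .ofNat 372302, .negSucc 177995, .negSucc 24849],
    [.ofNat 6000, .ofNat 34408, .ofNat 29932, .negSucc 606017, .ofNat 220268, .ofNat 693798,
      .negSucc 243939, .negSucc 102697, .ofNat 7490],
    [.ofNat 1196, .ofNat 19728, .negSucc 260155, .ofNat 316744, .ofNat 763602, .negSucc 160998,
      .negSucc 128944, .ofNat 9139, .negSucc 3744],
    [.negSucc 13659, .negSucc 41247, .ofNat 133434, .ofNat 457304, .negSucc 18439, .negSucc 91248,
      .ofNat 5805, .ofNat 9139, .negSucc 3744],
    [.ofNat 4556, .negSucc 15359, .ofNat 131926, .negSucc 61768, .negSucc 101040, .negSucc 22528,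
      .ofNat 11569, .ofNat 14980],
    [.ofNat 10652, .ofNat 7544, .negSucc 79623, .negSucc 59368, .negSucc 134904, .negSucc 45602,
      .ofNat 63665],
    [.negSucc 2991, .negSucc 1631, .ofNat 11856, .negSucc 137707, .negSucc 64043, .ofNat 59920],
    [.negSucc 2991, .ofNat 10336, .negSucc 29487, .negSucc 19755, .ofNat 14980]]]

/-- `S11`, reduced. -/
def S11l : List P2 :=
  [[[.ofNat 0, .ofNat 0, .ofNat 0, .ofNat 0, .ofNat 0, .ofNat 0, .ofNat 16596, .ofNat 11956,
      .negSucc 53477, .ofNat 45570],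
    [.ofNat 0, .ofNat 0, .ofNat 0, .ofNat 0, .ofNat 0, .ofNat 41538, .ofNat 35910, .negSucc 34121,
      .negSucc 26245, .ofNat 91140],
    [.ofNat 0, .ofNat 0, .ofNat 0, .ofNat 0, .ofNat 33054, .ofNat 64206, .ofNat 186789,
      .negSucc 301646, .ofNat 72827, .ofNat 85995],
    [.ofNat 0, .ofNat 0, .ofNat 0, .ofNat 18564, .ofNat 93160, .ofNat 194801, .negSucc 149916,
      .negSucc 304930, .ofNat 113203, .ofNat 32340],
    [.ofNat 0, .ofNat 0, .ofNat 22132, .ofNat 74068, .negSucc 40838, .ofNat 294759,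
      .negSucc 282585, .negSucc 78515, .ofNat 12981, .ofNat 3745],
    [.ofNat 0, .ofNat 14112, .ofNat 32552, .negSucc 88144, .ofNat 195745, .ofNat 248144,
      .negSucc 5125, .negSucc 60048, .negSucc 51982, .ofNat 7490],
    [.ofNat 4704, .ofNat 18960, .negSucc 16113, .ofNat 7124, .ofNat 202033, .ofNat 146567,
      .ofNat 107120, .negSucc 66505, .negSucc 31608, .ofNat 3745],
    [.ofNat 7568, .ofNat 25208, .ofNat 72304, .negSucc 94592, .negSucc 206956, .ofNat 173690,
      .ofNat 131340, .negSucc 36134, .negSucc 18724],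
    [.ofNat 16840, .ofNat 63444, .ofNat 34950, .negSucc 456093, .negSucc 180610, .ofNat 232451,
      .ofNat 57619, .negSucc 41194],
    [.ofNat 17364, .ofNat 92904, .negSucc 181231, .negSucc 240654, .ofNat 55285, .ofNat 37279,
      .negSucc 3744],
    [.ofNat 7712, .ofNat 24928, .negSucc 44499, .negSucc 5559, .ofNat 2380],
    [.ofNat 2992, .negSucc 10335, .ofNat 29488, .ofNat 19756, .negSucc 14979]]]

end Vale.Agent.P219.D6
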