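import Vale.Agent.P219.C5.Poly

/-! # The certificate in dimension 6: reduced polynomials (generated) -/

namespace Vale.Agent.P219.D6

open Vale.Agent.P219.C5

/-- `O1b`, reduced. -/
def O1bl : List P2 :=
  [[[.ofNat 0, .ofNat 0, .ofNat 0, .ofNat 0, .ofNat 0, .ofNat 0, .ofNat 0, .ofNat 0, .ofNat 0,
      .ofNat 0, .ofNat 0, .negSucc 223487, .negSucc 1037567, .ofNat 6789312, .negSucc 6092351,
      .ofNat 1767168, .negSucc 1198847, .negSucc 1697327, .ofNat 1523088, .negSucc 427823,
      .ofNat 364560],
    [.ofNat 0, .ofNat 0, .ofNat 0, .ofNat 0, .ofNat 0, .ofNat 0, .ofNat 0, .ofNat 0, .ofNat 0,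
      .ofNat 0, .ofNat 30048, .negSucc 437471, .ofNat 15919448, .negSucc 17169207,
      .ofNat 3970472, .negSucc 4155591, .negSucc 3979861, .ofNat 4292302, .negSucc 994495,
      .ofNat 1066240],
    [.ofNat 0, .ofNat 0, .ofNat 0, .ofNat 0, .ofNat 0, .ofNat 0, .ofNat 0, .ofNat 0, .ofNat 0,
      .ofNat 1552032, .ofNat 4651296, .negSucc 6472887, .ofNat 15663208, .negSucc 41506527,
      .ofNat 32527328, .ofNat 3244486, .negSucc 4546081, .ofNat 5920246, .negSucc 4905121,
      .ofNat 431046, .negSucc 304289],
    [.ofNat 0, .ofNat 0, .ofNat 0, .ofNat 0, .ofNat 0, .ofNat 0, .ofNat 0, .ofNat 0, .ofNat 564288,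
      .ofNat 1143744, .negSucc 37501831, .ofNat 74481192, .negSucc 117632471, .ofNat 108267912,
      .ofNat 13703854, .negSucc 22866877, .ofNat 20164264, .negSucc 16624147, .ofNat 997574,
      .negSucc 749919, .negSucc 242549],
    [.ofNat 0, .ofNat 0, .ofNat 0, .ofNat 0, .ofNat 0, .ofNat 0, .ofNat 0, .negSucc 2957247,
      .negSucc 6856383, .negSucc 15098407, .ofNat 17563832, .ofNat 2625476, .negSucc 51200043,
      .ofNat 71992594, .negSucc 59541285, .ofNat 1129815, .ofNat 11194691, .negSucc 4726128,
      .ofNat 3489635, .negSucc 950471, .ofNat 100240],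
    [.ofNat 0, .ofNat 0, .ofNat 0, .ofNat 0, .ofNat 0, .ofNat 0, .negSucc 1255071, .ofNat 1036064,
      .ofNat 17553704, .negSucc 72863751, .ofNat 245737928, .negSucc 416703639,
      .ofNat 220021724, .negSucc 110410283, .negSucc 72155877, .ofNat 73400314,
      .negSucc 20632383, .ofNat 10366700, .ofNat 979170, .ofNat 281194, .ofNat 97020],
    [.ofNat 0, .ofNat 0, .ofNat 0, .ofNat 0, .ofNat 0, .ofNat 2370464, .ofNat 4124576,
      .ofNat 18999912, .negSucc 37729239, .ofNat 148039336, .negSucc 207562151,
      .ofNat 120683512, .ofNat 141548448, .negSucc 156891709, .ofNat 66587854,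
      .negSucc 16357721, .negSucc 7617669, .ofNat 8409940, .negSucc 806819, .ofNat 364716,
      .negSucc 14979],
    [.ofNat 0, .ofNat 0, .ofNat 0, .ofNat 0, .ofNat 478976, .negSucc 4071935, .ofNat 15543080,
      .negSucc 22785095, .negSucc 111187607, .ofNat 432712680, .negSucc 396576691,
      .ofNat 637044772, .negSucc 221372733, .negSucc 12346209, .ofNat 69958466,
      .negSucc 41160611, .ofNat 8957518, .negSucc 2883105, .negSucc 452781, .negSucc 44939],
    [.ofNat 0, .ofNat 0, .ofNat 0, .negSucc 741759, .negSucc 631679, .negSucc 2084151,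
      .negSucc 19373751, .negSucc 98151855, .ofNat 411756976, .negSucc 543277155,
      .ofNat 273111460, .negSucc 96417544, .negSucc 198222476, .ofNat 204638093,
      .negSucc 30673014, .negSucc 9349911, .ofNat 620672, .negSucc 3260883, .ofNat 134820],
    [.ofNat 0, .ofNat 0, .ofNat 181760, .ofNat 2211840, .negSucc 12649055, .ofNat 54532640,
      .negSucc 55039151, .ofNat 19645088, .negSucc 78355509, .negSucc 779056289,
      .ofNat 444186024, .negSucc 411379887, .ofNat 182871748, .ofNat 13768736,
      .negSucc 44357491, .ofNat 7654012, .negSucc 2297969, .ofNat 555450, .negSucc 28731,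
      .ofNat 29960],
    [.ofNat 0, .ofNat 0, .negSucc 279679, .negSucc 1681679, .ofNat 38780688, .negSucc 54676039,
      .negSucc 101934295, .ofNat 206848542, .negSucc 732933481, .ofNat 822283090,
      .negSucc 99733333, .negSucc 87249667, .ofNat 90463268, .negSucc 85833593,
      .ofNat 10352878, .ofNat 6292473, .negSucc 273486, .negSucc 8502, .ofNat 63665],
    [.ofNat 0, .ofNat 117760, .ofNat 1318976, .negSucc 16464575, .ofNat 25553872,
      .negSucc 186331983, .ofNat 347532798, .ofNat 124991842, .ofNat 339700636,
      .ofNat 617052856, .negSucc 460178357, .ofNat 141183336, .negSucc 45547123,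
      .ofNat 12433140, .ofNat 12281940, .negSucc 785181, .ofNat 443608, .negSucc 344539],
    [.ofNat 29440, .negSucc 452095, .negSucc 9856223, .ofNat 36282476, .negSucc 131653939,
      .ofNat 349394050, .ofNat 308849434, .negSucc 349861402, .ofNat 602941309,
      .negSucc 634152838, .ofNat 15842141, .ofNat 119249474, .negSucc 19110501,
      .ofNat 12187536, .ofNat 2198192, .ofNat 465850, .negSucc 786449],
    [.negSucc 184319, .ofNat 268800, .ofNat 6981472, .ofNat 41515616, .negSucc 31677743,
      .ofNat 179053920, .negSucc 728837637, .negSucc 191204293, .negSucc 232951903,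
      .negSucc 204278235, .ofNat 231808150, .negSucc 45630149, .ofNat 4090844,
      .negSucc 5032787, .negSucc 1528515, .ofNat 913780],
    [.ofNat 1043840, .ofNat 5619968, .ofNat 53355616, .negSucc 190731003, .ofNat 158333436,
      .negSucc 620894345, .negSucc 408852381, .ofNat 411442870, .negSucc 278475481,
      .ofNat 214475280, .ofNat 10992776, .negSucc 33376854, .negSucc 16306982,
      .negSucc 2356320, .ofNat 2767555],
    [.ofNat 1615488, .ofNat 5049920, .negSucc 67155831, .negSucc 9528391, .ofNat 73030426,
      .negSucc 58634065, .ofNat 732009814, .ofNat 57942244, .ofNat 65607190, .ofNat 40545006,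
      .negSucc 70305293, .negSucc 49487, .ofNat 988416, .ofNat 509320],
    [.negSucc 4090639, .negSucc 16457695, .negSucc 91241607, .ofNat 373167709, .negSucc 42546646,
      .ofNat 517747315, .ofNat 294208711, .negSucc 209597355, .ofNat 49429724,
      .negSucc 61780019, .ofNat 24354004, .ofNat 5719560, .negSucc 2097199],
    [.negSucc 3512735, .negSucc 23520991, .ofNat 142773860, .negSucc 38940003, .negSucc 124627971,
      .ofNat 15510288, .negSucc 394608919, .negSucc 20759711, .ofNat 491166, .ofNat 31279018,
      .ofNat 8303548, .negSucc 1318239],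
    [.ofNat 4896592, .ofNat 21991968, .ofNat 74895848, .negSucc 375485981, .negSucc 57731869,
      .negSucc 258705537, .negSucc 113355801, .ofNat 98587875, .negSucc 9779076,
      .ofNat 7039879, .negSucc 1651544],
    [.ofNat 3505536, .ofNat 37609200, .negSucc 145805383, .ofNat 36112728, .ofNat 91185798,
      .ofNat 20656448, .ofNat 127940456, .negSucc 37612613, .negSucc 2980295, .negSucc 6576219],
    [.negSucc 1724299, .negSucc 16286983, .negSucc 28398351, .ofNat 213562218, .ofNat 69731562,
      .ofNat 40686104, .ofNat 7831080, .negSucc 19883357, .negSucc 1116009],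
    [.negSucc 1641599, .negSucc 28695263, .ofNat 85941780, .negSucc 20705855, .negSucc 51444227,
      .ofNat 7932528, .negSucc 17721659, .ofNat 12358500],
    [.negSucc 803075, .ofNat 8739960, .negSucc 8592023, .negSucc 57499376, .negSucc 14424512,
      .ofNat 4814865, .ofNat 6010725],
    [.ofNat 276480, .ofNat 8409024, .negSucc 20401151, .ofNat 3758016, .ofNat 12523632,
      .negSucc 5572559],
    [.ofNat 637296, .negSucc 2201567, .ofNat 6280944, .ofNat 4208028, .negSucc 3190739]],
    [[.ofNat 0, .ofNat 0, .ofNat 0, .ofNat 0, .ofNat 0, .ofNat 0, .ofNat 0, .ofNat 0, .ofNat 0,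
      .ofNat 446976, .ofNat 2075136, .negSucc 13019903, .ofNat 14778624, .negSucc 20479679,
      .ofNat 17758272, .negSucc 1878911, .ofNat 680064, .ofNat 5091984, .negSucc 4569263,
      .ofNat 1283472, .negSucc 1093679],
    [.ofNat 0, .ofNat 0, .ofNat 0, .ofNat 0, .ofNat 0, .ofNat 0, .ofNat 0, .ofNat 0,
      .negSucc 60095, .ofNat 874944, .negSucc 31914015, .ofNat 35432096, .negSucc 47743319,
      .ofNat 51288888, .negSucc 3955447, .ofNat 3936856, .ofNat 11939586, .negSucc 12876905,
      .ofNat 2983488, .negSucc 3198719],
    [.ofNat 0, .ofNat 0, .ofNat 0, .ofNat 0, .ofNat 0, .ofNat 0, .ofNat 0, .negSucc 2657087,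
      .negSucc 7227455, .negSucc 6536415, .negSucc 35335519, .ofNat 124971384,
      .negSucc 126251047, .ofNat 102567712, .negSucc 77475871, .negSucc 16176593,
      .ofNat 18624486, .negSucc 17760737, .ofNat 14715366, .negSucc 1293137, .ofNat 912870],
    [.ofNat 0, .ofNat 0, .ofNat 0, .ofNat 0, .ofNat 0, .ofNat 0, .negSucc 1188671,
      .negSucc 1412543, .ofNat 37224096, .negSucc 121424799, .ofNat 394904536,
      .negSucc 465333111, .ofNat 281813968, .negSucc 244552927, .negSucc 64327225,
      .ofNat 82343674, .negSucc 58552391, .ofNat 49872444, .negSucc 2992721, .ofNat 2249760,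
      .ofNat 727650],
    [.ofNat 0, .ofNat 0, .ofNat 0, .ofNat 0, .ofNat 0, .ofNat 3257408, .ofNat 6485312,
      .ofNat 38876992, .negSucc 20226367, .ofNat 103978280, .ofNat 36651656,
      .negSucc 279301883, .ofNat 348979092, .negSucc 192985813, .ofNat 139171218,
      .ofNat 7368891, .negSucc 36737992, .ofNat 14178387, .negSucc 10468904, .ofNat 2851416,
      .negSucc 300719],
    [.ofNat 0, .ofNat 0, .ofNat 0, .ofNat 0, .ofNat 1321472, .negSucc 3484671, .ofNat 21083616,
      .ofNat 40970528, .negSucc 453978967, .ofNat 1085410232, .negSucc 1446671863,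
      .ofNat 1604928328, .negSucc 453499499, .ofNat 188734460, .ofNat 229923914,
      .negSucc 229317533, .ofNat 60150792, .negSucc 31100099, .negSucc 2937509,
      .negSucc 843581, .negSucc 291059],
    [.ofNat 0, .ofNat 0, .ofNat 0, .negSucc 1483519, .negSucc 1763839, .negSucc 11197407,
      .negSucc 10152031, .negSucc 345016935, .ofNat 688883800, .negSucc 868050871,
      .ofNat 261288568, .ofNat 221441328, .negSucc 631522183, .ofNat 418497210,
      .negSucc 170986985, .ofNat 41739366, .ofNat 23579050, .negSucc 25229819, .ofNat 2420460,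
      .negSucc 1094147, .ofNat 44940],
    [.ofNat 0, .ofNat 0, .ofNat 363520, .ofNat 4659200, .negSucc 29395487, .ofNat 75422624,
      .negSucc 10147895, .negSucc 399076775, .ofNat 1189223608, .negSucc 3159265287,
      .ofNat 2254746276, .negSucc 2143435859, .ofNat 376666674, .ofNat 136202614,
      .negSucc 201100765, .ofNat 126052052, .negSucc 26807873, .ofNat 8649318, .ofNat 1358346,
      .ofNat 134820],
    [.ofNat 0, .ofNat 0, .negSucc 500479, .negSucc 5037951, .ofNat 73345152, .ofNat 43460408,
      .negSucc 506784135, .ofNat 1433690224, .negSucc 2462564399, .ofNat 2329343404,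
      .negSucc 329031147, .negSucc 408671812, .ofNat 709557191, .negSucc 535575414,
      .ofNat 80124597, .ofNat 28495368, .negSucc 1742175, .ofNat 9782652, .negSucc 404459],
    [.ofNat 0, .ofNat 235520, .ofNat 1189312, .negSucc 34053055, .ofNat 108408016,
      .negSucc 456742927, .ofNat 492987504, .ofNat 1198069856, .negSucc 917728333,
      .ofNat 4147001334, .negSucc 2209932079, .ofNat 1334264264, .negSucc 336720747,
      .negSucc 77748159, .ofNat 122781252, .negSucc 23301483, .ofNat 7023270, .negSucc 1666349,
      .ofNat 86196, .negSucc 89879],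
    [.ofNat 58880, .negSucc 904191, .negSucc 18732927, .ofNat 74675024, .negSucc 274453711,
      .ofNat 216943448, .ofNat 1935033608, .negSucc 2861959145, .ofNat 3361375630,
      .negSucc 2738158117, .ofNat 12282450, .ofNat 656166076, .negSucc 302032763,
      .ofNat 216446710, .negSucc 27024929, .negSucc 18687074, .ofNat 610741, .ofNat 25509,
      .negSucc 190994],
    [.negSucc 368639, .negSucc 1582079, .ofNat 7157952, .ofNat 180084672, .negSucc 329577063,
      .ofNat 1007974088, .negSucc 2228614681, .negSucc 1738104341, .ofNat 220607692,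
      .negSucc 2680742439, .ofNat 1677895978, .negSucc 472495591, .ofNat 71350340,
      .negSucc 25734259, .negSucc 36845379, .ofNat 3254346, .negSucc 1330823, .ofNat 1033620],
    [.ofNat 1557760, .ofNat 14485504, .ofNat 162860512, .negSucc 545610419, .ofNat 430247340,
      .negSucc 1223525733, .negSucc 2874429229, .ofNat 3377475233, .negSucc 2260068006,
      .ofNat 1597679717, .ofNat 9154617, .negSucc 430862597, .ofNat 53457618,
      .negSucc 33162063, .negSucc 3865871, .negSucc 1304093, .ofNat 2419270],
    [.ofNat 5325696, .ofNat 17455744, .negSucc 169120223, .negSucc 342177247, .ofNat 770932792,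
      .negSucc 872023495, .ofNat 3543147258, .ofNat 1178985042, .negSucc 286374551,
      .ofNat 755135348, .negSucc 691683913, .ofNat 155895266, .negSucc 1639395,
      .ofNat 11608580, .ofNat 5534012, .negSucc 3100859],
    [.negSucc 11752063, .negSucc 56178175, .negSucc 444962143, .ofNat 1634462956,
      .negSucc 214009595, .ofNat 1832599758, .ofNat 2307788554, .negSucc 2533869177,
      .ofNat 773037078, .negSucc 347773567, .ofNat 9771096, .ofNat 103285085, .ofNat 38342989,
      .ofNat 8581067, .negSucc 9710784],
    [.negSucc 16881599, .negSucc 86362623, .ofNat 601284656, .ofNat 172337264, .negSucc 1172695861,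
      .ofNat 327350822, .negSucc 2775577289, .negSucc 206056803, .ofNat 324765654,
      .negSucc 97204345, .ofNat 179518426, .negSucc 20666831, .negSucc 5120895, .negSucc 808919],
    [.ofNat 26222704, .ofNat 106488736, .ofNat 543176280, .negSucc 2360323206, .negSucc 251905066,
      .negSucc 1187708248, .negSucc 1039143284, .ofNat 1067757860, .negSucc 71682579,
      .ofNat 67500412, .negSucc 90204187, .negSucc 20123751, .ofNat 12463360],
    [.ofNat 23085312, .ofNat 189110592, .negSucc 911959411, .ofNat 90006564, .ofNat 1126700060,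
      .negSucc 97668751, .ofNat 1176378240, .negSucc 48688375, .negSucc 160940745,
      .negSucc 67646061, .negSucc 17087443, .ofNat 12343520],
    [.negSucc 21872911, .negSucc 116236703, .negSucc 320852983, .ofNat 1872953002,
      .ofNat 397556394, .ofNat 378799886, .ofNat 209712886, .negSucc 359221392,
      .ofNat 40059751, .ofNat 2955403, .ofNat 4355435],
    [.negSucc 16263263, .negSucc 208657743, .ofNat 730018800, .negSucc 114619463,
      .negSucc 642267129, .negSucc 10218807, .negSucc 298719391, .ofNat 140913570,
      .ofNat 29427288, .negSucc 644139],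
    [.ofNat 2535844, .ofNat 77910552, .ofNat 61134000, .negSucc 856156893, .negSucc 219610621,
      .ofNat 28072312, .ofNat 21902376, .ofNat 50530458, .negSucc 10793089],
    [.ofNat 5819328, .ofNat 117124160, .negSucc 331041043, .ofNat 67247808, .ofNat 247347964,
      .negSucc 48996327, .ofNat 29855716, .negSucc 28327179],
    [.ofNat 5273900, .negSucc 34764583, .ofNat 47054472, .ofNat 196423387, .ofNat 13771979,
      .negSucc 27092218, .negSucc 8834454],
    [.negSucc 829439, .negSucc 25801535, .ofNat 63187968, .negSucc 16935743, .negSucc 41364047,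
      .ofNat 19593840],
    [.negSucc 2055503, .ofNat 7100832, .negSucc 20258255, .negSucc 13572371, .ofNat 10291260]],
    [[.ofNat 0, .ofNat 0, .ofNat 0, .ofNat 0, .ofNat 0, .ofNat 0, .ofNat 0, .ofNat 0, .ofNat 0,
      .negSucc 670463, .negSucc 3112703, .ofNat 19865088, .negSucc 20611583, .ofNat 20535552,
      .negSucc 17498879, .ofNat 167616, .ofNat 778176, .negSucc 5091983, .ofNat 4569264,
      .negSucc 1283471, .ofNat 1093680],
    [.ofNat 0, .ofNat 0, .ofNat 0, .ofNat 0, .ofNat 0, .ofNat 0, .ofNat 0, .ofNat 0, .ofNat 90144,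
      .negSucc 1312415, .ofNat 47825952, .negSucc 52491935, .ofNat 47735808, .negSucc 51179519,
      .negSucc 22535, .ofNat 328104, .negSucc 11939585, .ofNat 12876906, .negSucc 2983487,
      .ofNat 3198720],
    [.ofNat 0, .ofNat 0, .ofNat 0, .ofNat 0, .ofNat 0, .ofNat 0, .ofNat 0, .ofNat 8419680,
      .ofNat 14194912, .negSucc 9691391, .ofNat 55447552, .negSucc 154525151, .ofNat 146855200,
      .negSucc 92694023, .ofNat 68111448, .ofNat 20895546, .negSucc 22393565, .ofNat 17760738,
      .negSucc 14715365, .ofNat 1293138, .negSucc 912869],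
    [.ofNat 0, .ofNat 0, .ofNat 0, .ofNat 0, .ofNat 0, .ofNat 0, .ofNat 17935200, .ofNat 9168928,
      .negSucc 102591647, .ofNat 219818848, .negSucc 481881087, .ofNat 530564640,
      .negSucc 248451735, .ofNat 206791352, .ofNat 79671794, .negSucc 93087033,
      .ofNat 57582192, .negSucc 49872443, .ofNat 2992722, .negSucc 2249759, .negSucc 727649],
    [.ofNat 0, .ofNat 0, .ofNat 0, .ofNat 0, .ofNat 0, .ofNat 15315936, .negSucc 12948383,
      .negSucc 72227951, .ofNat 49308624, .negSucc 99961071, .negSucc 82974831,
      .ofNat 327217784, .negSucc 376392615, .ofNat 180014546, .negSucc 117686661,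
      .negSucc 16250546, .ofNat 41131473, .negSucc 14178386, .ofNat 10468905, .negSucc 2851415,
      .ofNat 300720],
    [.ofNat 0, .ofNat 0, .ofNat 0, .ofNat 0, .ofNat 8361024, .negSucc 1534015, .negSucc 14145599,
      .negSucc 198151423, .ofNat 686140560, .negSucc 1418497999, .ofNat 1543784272,
      .negSucc 1594121167, .ofNat 355623028, .negSucc 100602019, .negSucc 248228185,
      .ofNat 242079430, .negSucc 58792511, .ofNat 31100100, .ofNat 2937510, .ofNat 843582,
      .ofNat 291060],
    [.ofNat 0, .ofNat 0, .ofNat 0, .ofNat 7253120, .ofNat 13812480, .negSucc 44511583,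
      .negSucc 108728223, .ofNat 515468784, .negSucc 879197135, .ofNat 934094840,
      .negSucc 178500135, .negSucc 323312759, .ofNat 641765456, .negSucc 395191957,
      .ofNat 149697694, .negSucc 33852881, .negSucc 25665189, .ofNat 25229820,
      .negSucc 2420459, .ofNat 1094148, .negSucc 44939],
    [.ofNat 0, .ofNat 0, .ofNat 5617280, .ofNat 3355520, .negSucc 75353919, .negSucc 12939327,
      .negSucc 84596767, .ofNat 831539776, .negSucc 1386901791, .ofNat 3424048448,
      .negSucc 2237766067, .ofNat 1960142164, .negSucc 254595753, .negSucc 229072029,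
      .ofNat 210079406, .negSucc 131879835, .ofNat 25578954, .negSucc 8649317,
      .negSucc 1358345, .negSucc 134819],
    [.ofNat 0, .ofNat 3010560, .negSucc 2693759, .negSucc 64072047, .negSucc 5771439,
      .negSucc 42982191, .ofNat 919369296, .negSucc 1686508887, .ofNat 2674448936,
      .negSucc 2289770755, .ofNat 247441396, .ofNat 501294061, .negSucc 707814670,
      .ofNat 509349583, .negSucc 69448620, .negSucc 33499319, .ofNat 2123536, .negSucc 9782651,
      .ofNat 404460],
    [.ofNat 752640, .negSucc 1894399, .negSucc 30920895, .ofNat 55155648, .ofNat 119869328,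
      .ofNat 198850416, .negSucc 325557415, .negSucc 1487246647, .ofNat 858330310,
      .negSucc 3962819661, .ofNat 2049100160, .negSucc 1107868967, .ofNat 268509660,
      .ofNat 118226248, .negSucc 123500083, .ofNat 24887140, .negSucc 6635189, .ofNat 1666350,
      .negSucc 86195, .ofNat 89880],
    [.negSucc 323839, .negSucc 8835583, .ofNat 46376832, .ofNat 84945168, .negSucc 115053871,
      .ofNat 60986288, .negSucc 2207696143, .ofNat 2672502418, .negSucc 3345408085,
      .ofNat 2518548598, .ofNat 53502526, .negSucc 661206183, .ofNat 289276528,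
      .negSucc 195337713, .ofNat 24254342, .ofNat 20426307, .negSucc 490900, .negSucc 25508,
      .ofNat 190995],
    [.negSucc 1424639, .ofNat 10227200, .ofNat 33163136, .negSucc 309789439, .ofNat 240888312,
      .negSucc 502604407, .ofNat 1641792266, .ofNat 1407665310, .ofNat 75462476,
      .ofNat 2295425384, .negSucc 1520603433, .ofNat 376110016, .negSucc 57647891,
      .ofNat 14760852, .ofNat 39144556, .negSucc 4392825, .ofNat 1330824, .negSucc 1033619],
    [.negSucc 1273279, .negSucc 2415743, .negSucc 224286463, .ofNat 416391488, .ofNat 235781152,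
      .ofNat 434230754, .ofNat 2486023354, .negSucc 2483206816, .ofNat 2013582775,
      .negSucc 1447312844, .negSucc 8086544, .ofNat 377815710, .negSucc 40128745,
      .ofNat 29653468, .ofNat 665884, .ofNat 1234002, .negSucc 2464209],
    [.negSucc 4518527, .negSucc 40954239, .ofNat 167101344, .ofNat 530496224, .negSucc 975477911,
      .ofNat 411049320, .negSucc 2354729513, .negSucc 647965113, .negSucc 30464311,
      .negSucc 577587147, .ofNat 631517202, .negSucc 133009929, .negSucc 8792435,
      .negSucc 7786891, .negSucc 6389019, .ofNat 3520300],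
    [.ofNat 10496640, .ofNat 44841728, .ofNat 480499136, .negSucc 1507925107, .negSucc 271695643,
      .negSucc 742081409, .negSucc 1530982301, .ofNat 1605657182, .negSucc 593689985,
      .ofNat 384439064, .negSucc 58981455, .negSucc 99930164, .negSucc 27540740,
      .negSucc 9658362, .ofNat 11148865],
    [.ofNat 16519104, .ofNat 124049344, .negSucc 597365575, .negSucc 326431863, .ofNat 1429427086,
      .negSucc 87813181, .ofNat 1646787986, .ofNat 4209876, .negSucc 165753813,
      .ofNat 52161586, .negSucc 162385617, .ofNat 27341816, .ofNat 8864416, .negSucc 689079],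
    [.negSucc 18190463, .negSucc 91918975, .negSucc 525203511, .ofNat 2107420471, .ofNat 309026363,
      .ofNat 327366377, .ofNat 495100725, .negSucc 720988323, .ofNat 79822244,
      .negSucc 65732019, .ofNat 98485700, .ofNat 26818264, .negSucc 19533919],
    [.negSucc 20381855, .negSucc 222228639, .ofNat 841977156, .negSucc 9110627,
      .negSucc 1277980867, .negSucc 36184223, .negSucc 659149847, .ofNat 104088648,
      .ofNat 147043698, .ofNat 42838358, .ofNat 13298516, .negSucc 15519279],
    [.ofNat 6328800, .ofNat 103842624, .ofNat 296897960, .negSucc 1627063477, .negSucc 238575637,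
      .ofNat 73361334, .negSucc 34897857, .ofNat 297702033, .negSucc 93179270,
      .negSucc 17062770, .ofNat 3104605],
    [.ofNat 12687264, .ofNat 219314416, .negSucc 649424967, .ofNat 132197192, .ofNat 756490530,
      .ofNat 34223104, .ofNat 158032752, .negSucc 142475705, .negSucc 37260343, .ofNat 16163420],
    [.ofNat 10024924, .negSucc 76029591, .negSucc 45135519, .ofNat 757943958, .ofNat 73406710,
      .negSucc 167868587, .negSucc 6957755, .negSucc 39631261, .ofNat 23061710],
    [.negSucc 4218047, .negSucc 110839871, .ofNat 291235764, .negSucc 118713023,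
      .negSucc 296413403, .ofNat 69999720, .negSucc 5784899, .ofNat 19099500],
    [.negSucc 9084107, .ofNat 36062184, .negSucc 53319815, .negSucc 184770626, .ofNat 30538509,
      .ofNat 44744403, .negSucc 9650864],
    [.ofNat 622080, .ofNat 21693888, .negSucc 55484063, .ofNat 35790912, .ofNat 46491984,
      .negSucc 26424719],
    [.ofNat 2127312, .negSucc 7348895, .ofNat 20965968, .ofNat 14046516, .negSucc 10650779]],
    [[.ofNat 0, .ofNat 0, .ofNat 0, .ofNat 0, .ofNat 0, .ofNat 0, .ofNat 0, .ofNat 0, .ofNat 0,
      .ofNat 223488, .ofNat 1037568, .negSucc 6621695, .ofNat 6870528, .negSucc 6845183,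
      .ofNat 5832960, .negSucc 55871, .negSucc 259391, .ofNat 1697328, .negSucc 1523087,
      .ofNat 427824, .negSucc 364559],
    [.ofNat 0, .ofNat 0, .ofNat 0, .ofNat 0, .ofNat 0, .ofNat 0, .ofNat 0, .ofNat 0,
      .negSucc 30047, .ofNat 437472, .negSucc 15941983, .ofNat 17497312, .negSucc 15911935,
      .ofNat 17059840, .ofNat 7512, .negSucc 109367, .ofNat 3979862, .negSucc 4292301,
      .ofNat 994496, .negSucc 1066239],
    [.ofNat 0, .ofNat 0, .ofNat 0, .ofNat 0, .ofNat 0, .ofNat 0, .ofNat 0, .negSucc 2441375,
      .negSucc 5371679, .ofNat 8816704, .negSucc 22903231, .ofNat 52827712, .negSucc 49489855,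
      .ofNat 28210248, .negSucc 20246423, .negSucc 7963437, .ofNat 8315162, .negSucc 5920245,
      .ofNat 4905122, .negSucc 431045, .ofNat 304290],
    [.ofNat 0, .ofNat 0, .ofNat 0, .ofNat 0, .ofNat 0, .ofNat 0, .negSucc 3989663,
      .negSucc 3494879, .ofNat 50032576, .negSucc 87195007, .ofNat 165006208,
      .negSucc 180123103, .ofNat 76314272, .negSucc 61976415, .negSucc 29048421,
      .ofNat 33610238, .negSucc 19194063, .ofNat 16624148, .negSucc 997573, .ofNat 749920,
      .ofNat 242550],
    [.ofNat 0, .ofNat 0, .ofNat 0, .ofNat 0, .ofNat 0, .negSucc 658015, .ofNat 7308832,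
      .ofNat 30953584, .negSucc 20467407, .ofNat 7248672, .ofNat 43006752, .negSucc 109202095,
      .ofNat 122423056, .negSucc 48299949, .ofNat 29424890, .ofNat 7751841, .negSucc 15588170,
      .ofNat 4726129, .negSucc 3489634, .ofNat 950472, .negSucc 100239],
    [.ofNat 0, .ofNat 0, .ofNat 0, .ofNat 0, .ofNat 2682496, .ofNat 5127808, .negSucc 20468799,
      .ofNat 90509568, .negSucc 317485407, .ofNat 541774112, .negSucc 504289135,
      .ofNat 511531792, .negSucc 81837427, .negSucc 1791595, .ofNat 88519750,
      .negSucc 86162209, .ofNat 19274104, .negSucc 10366699, .negSucc 979169, .negSucc 281193,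
      .negSucc 97019],
    [.ofNat 0, .ofNat 0, .ofNat 0, .ofNat 1815680, .negSucc 3467007, .negSucc 31501503,
      .ofNat 62277120, .negSucc 230939823, .ofNat 337046672, .negSucc 244467535,
      .ofNat 20457744, .ofNat 112401872, .negSucc 206384999, .ofNat 114660802,
      .negSucc 35941241, .ofNat 8471238, .ofNat 9703810, .negSucc 8409939, .ofNat 806820,
      .negSucc 364715, .ofNat 14980],
    [.ofNat 0, .ofNat 0, .ofNat 331520, .negSucc 2630911, .negSucc 17146335, .ofNat 18334304,
      .ofNat 101022144, .negSucc 377527007, .ofNat 643199520, .negSucc 1248072767,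
      .ofNat 668501396, .negSucc 546724931, .ofNat 20261030, .ofNat 129879354,
      .negSucc 73892065, .ofNat 46988396, .negSucc 7728597, .ofNat 2883106, .ofNat 452782,
      .ofNat 44940],
    [.ofNat 0, .ofNat 0, .negSucc 88959, .negSucc 5293679, .ofNat 28189648, .ofNat 143078592,
      .negSucc 483320191, .ofNat 707520608, .negSucc 976366687, .ofNat 628397108,
      .ofNat 11038828, .negSucc 197701926, .ofNat 230062349, .negSucc 154751020,
      .ofNat 15232839, .ofNat 14353864, .negSucc 1002031, .ofNat 3260884, .negSucc 134819],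
    [.ofNat 0, .ofNat 117760, .negSucc 109503, .ofNat 14343360, .ofNat 33845856,
      .negSucc 214465055, .ofNat 41132600, .ofNat 651973576, .negSucc 464513201,
      .ofNat 1344323290, .negSucc 569786135, .ofNat 221739216, .negSucc 39685139,
      .negSucc 66462647, .ofNat 40936804, .negSucc 9239667, .ofNat 1909890, .negSucc 555449,
      .ofNat 28732, .negSucc 29959],
    [.ofNat 29440, .ofNat 285184, .negSucc 280319, .negSucc 2118127, .negSucc 109560111,
      .negSucc 119605783, .ofNat 1105477128, .negSucc 1047268413, .ofNat 1116741306,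
      .negSucc 651068937, .negSucc 131513505, .ofNat 257149816, .negSucc 90798607,
      .ofNat 48831078, .negSucc 6280289, .negSucc 8031704, .ofNat 153647, .ofNat 8503,
      .negSucc 63664],
    [.ofNat 0, .negSucc 610047, .negSucc 4237119, .negSucc 40969535, .ofNat 30944096,
      .ofNat 550468736, .negSucc 585925293, .negSucc 554233817, .ofNat 94173244,
      .negSucc 703669255, .ofNat 446838758, .negSucc 60645951, .negSucc 2909563,
      .ofNat 2350924, .negSucc 13546235, .ofNat 1923662, .negSucc 443607, .ofNat 344540],
    [.negSucc 152511, .negSucc 1754751, .ofNat 3435584, .ofNat 36189744, .ofNat 238623472,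
      .negSucc 279122293, .negSucc 1119042653, .ofNat 898170547, .negSucc 556225748,
      .ofNat 343440847, .ofNat 40355291, .negSucc 125419305, .ofNat 10689070, .negSucc 4866515,
      .ofNat 792076, .negSucc 395757, .ofNat 831390],
    [.negSucc 251903, .ofNat 4460800, .ofNat 13866304, .ofNat 82723328, .negSucc 219964367,
      .negSucc 614339071, .ofNat 906225686, .ofNat 208023838, .negSucc 81360639,
      .ofNat 170697636, .negSucc 189335117, .ofNat 33477422, .ofNat 12621724, .ofNat 372220,
      .ofNat 2383524, .negSucc 1333219],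
    [.ofNat 1622400, .ofNat 4118016, .negSucc 12952991, .negSucc 92315683, .negSucc 299637131,
      .ofNat 587012126, .ofNat 481217682, .negSucc 560098409, .ofNat 141962006,
      .negSucc 97284879, .ofNat 32733288, .ofNat 35511751, .ofNat 3962967, .ofNat 3480345,
      .negSucc 4175674],
    [.ofNat 1259520, .negSucc 18800127, .negSucc 24934367, .negSucc 109676031, .ofNat 311578094,
      .ofNat 309516682, .negSucc 634659053, .ofNat 14837036, .ofNat 102657114,
      .negSucc 21846229, .ofNat 43223830, .negSucc 10994967, .negSucc 4545023, .ofNat 1108520],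
    [.negSucc 7236031, .negSucc 3262847, .ofNat 29265352, .ofNat 105150851, .ofNat 232070231,
      .negSucc 379703450, .negSucc 8186590, .ofNat 280516692, .negSucc 60410691,
      .ofNat 5985316, .negSucc 33516643, .negSucc 11404271, .ofNat 9317560],
    [.negSucc 2267135, .ofNat 36696704, .ofNat 20578684, .ofNat 102380660, .negSucc 134147811,
      .negSucc 33820447, .ofNat 243706704, .negSucc 51877711, .negSucc 67104069,
      .ofNat 2239486, .negSucc 2387131, .ofNat 4973360],
    [.ofNat 13738976, .negSucc 3922495, .negSucc 33032247, .negSucc 19419597, .negSucc 140166925,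
      .ofNat 47593590, .negSucc 46914817, .negSucc 105973338, .ofNat 62698189, .ofNat 11361625,
      .negSucc 5598774],
    [.ofNat 1700352, .negSucc 34338959, .ofNat 8656560, .negSucc 100205495, .negSucc 63138365,
      .negSucc 9677591, .negSucc 38175623, .ofNat 42184638, .ofNat 15728328, .negSucc 10381139],
    [.negSucc 12008339, .ofNat 10490184, .ofNat 6846048, .negSucc 52545401, .ofNat 80242182,
      .ofNat 61129404, .negSucc 18771155, .ofNat 11338074, .negSucc 10583369],
    [.negSucc 425087, .ofNat 14607648, .negSucc 22782275, .ofNat 78867648, .ofNat 72195300,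
      .negSucc 33374591, .negSucc 4220963, .negSucc 1213379],
    [.ofNat 4507812, .negSucc 7970615, .ofNat 13196952, .ofNat 30690009, .negSucc 30078998,
      .negSucc 19046312, .ofNat 12234915],
    [.ofNat 0, .negSucc 2261951, .ofNat 7814016, .negSucc 22292927, .negSucc 14935535,
      .ofNat 11324880],
    [.negSucc 565487, .ofNat 1953504, .negSucc 5573231, .negSucc 3733883, .ofNat 2831220]]]

end Vale.Agent.P219.D6
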