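import Mathlib

/-! # The primitive of `z⁴ (1-z²)^(3/2)` -/

open Set MeasureTheory
open scoped Real

namespace Vale.Agent.P219.D6

/-- Primitive of `z⁴ (1-z²)^(3/2)`. -/
noncomputable def Phi (z : ℝ) : ℝ :=
  √(1 - z ^ 2) * (-(z ^ 7) / 8 + 3 * z ^ 5 / 16 - z ^ 3 / 64 - 3 * z / 128) +
    3 / 128 * Real.arcsin z

theorem hasDerivAt_Phi {z : ℝ} (h1 : -1 < z) (h2 : z < 1) :
    HasDerivAt Phi (z ^ 4 * √(1 - z ^ 2) ^ 3) z := by
  have hw' : 0 < 1 - z ^ 2 := by nlinarith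
  have hw := Real.sqrt_pos.2 hw'
  have sw := Real.sq_sqrt hw'.le
  have d4 : HasDerivAt (fun t : ℝ => √(1 - t ^ 2)) (-z / √(1 - z ^ 2)) z := by
    have e1 : HasDerivAt (fun t : ℝ => 1 - t ^ 2) (-(2 * z)) z := by
      simpa using ((hasDerivAt_pow 2 z).const_sub 1)
    refine (e1.sqrt hw'.ne').congr_deriv ?_
    field_simp
  have d5 : HasDerivAt (fun t : ℝ => -(t ^ 7) / 8 + 3 * t ^ 5 / 16 - t ^ 3 / 64 - 3 * t / 128)
      (-(7 * z ^ 6) / 8 + 3 * (5 * z ^ 4) / 16 - 3 * z ^ 2 / 64 - 3 / 128) z := by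
    have e7 : HasDerivAt (fun t : ℝ => t ^ 7) (7 * z ^ 6) z := by
      simpa using hasDerivAt_pow 7 z
    have e5 : HasDerivAt (fun t : ℝ => t ^ 5) (5 * z ^ 4) z := by
      simpa using hasDerivAt_pow 5 z
    have e3 : HasDerivAt (fun t : ℝ => t ^ 3) (3 * z ^ 2) z := by
      simpa using hasDerivAt_pow 3 z
    have e1 : HasDerivAt (fun t : ℝ => 3 * t) 3 z := by
      simpa using (hasDerivAt_id z).const_mul 3
    exact (((e7.neg.div_const 8).add ((e5.const_mul 3).div_const 16)).sub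
      (e3.div_const 64)).sub (e1.div_const 128)
  have d6 := (Real.hasDerivAt_arcsin h1.ne' h2.ne).const_mul (3 / 128)
  refine ((d4.mul d5).add d6).congr_deriv ?_
  generalize √(1 - z ^ 2) = w at *
  field_simp
  have hz : z ^ 2 = 1 - w ^ 2 := by linarith
  have e4 : z ^ 4 = (1 - w ^ 2) ^ 2 := by rw [← hz]; ring
  have e6 : z ^ 6 = (1 - w ^ 2) ^ 3 := by rw [← hz]; ring
  have e8 : z ^ 8 = (1 - w ^ 2) ^ 4 := by rw [← hz]; ring
  ring_nf
  simp only [hz, e4, e6, e8]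
  ring

theorem continuous_Phi : Continuous Phi := by
  unfold Phi
  have := Real.continuous_arcsin
  fun_prop

theorem Phi_zero : Phi 0 = 0 := by simp [Phi]

theorem Phi_one : Phi 1 = 3 * π / 256 := by
  simp [Phi]
  ring

end Vale.Agent.P219.D6
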