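import Vale.Agent.P219.D6.FacsA
import Vale.Agent.P219.D6.FacsB
import Vale.Agent.P219.D6.FacsC
import Vale.Agent.P219.D6.FacsD
import Vale.Agent.P219.D6.FacsE
import Vale.Agent.P219.D6.FacsF
import Vale.Agent.P219.D6.FacsG
import Vale.Agent.P219.D6.FacsH
import Vale.Agent.P219.D6.ChecksA
import Vale.Agent.P219.D6.ChecksB
import Vale.Agent.P219.D6.Kdef

/-! # The certificate in dimension 6: positivity (partly generated) -/

open Set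

namespace Vale.Agent.P219.D6

open Vale.Agent.P219.C5 Vale.Agent.P219.D4

variable {r e a : ℝ}

theorem div_Icc {x y : ℝ} (hx : 0 ≤ x) (hy : 0 < y) (h : x ≤ y) : x / y ∈ Icc (0 : ℝ) 1 :=
  ⟨div_nonneg hx hy.le, (div_le_one hy).2 h⟩

/-- From the reduced polynomial. -/
theorem pos_of {c : P2} {P Q : List P2} (h : eqv3 P (kmap (mul2 c) Q) = true)
    (hc : 0 < e2 r e c) (hQ : 0 < e3 a r e Q) : 0 < e3 a r e P := by
  rw [e3_eqv h, e3_kmap_mul]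
  exact mul_pos hc hQ

/-! ### The unit square -/

theorem S2_fac (h : Dm r e) : 0 < e2 r e (mpow pv 1) := by
  have h0 := h.r0
  have h1 : 0 < 1 - r := sub_pos.2 h.r1
  have h2 := h.e0
  simp only [e2_smul, e2_mul, v_mpow, v_v, v_L0, v_L1, v_r, v_1]
  push_cast
  positivity

theorem S2_pos (h : Dm r e) (ha : a ∈ Icc (0 : ℝ) 1) : 0 < e3 a r e S2 := by
  refine pos_of S2_eq (S2_fac h) ?_
  obtain ⟨h1, h2, h3, h4⟩ := h
  obtain ⟨h5, h6⟩ := ha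
  refine reg_B S2_lens S2_chk ?_ ?_ ?_ ?_ ?_ ?_ ?_ ?_ ?_ ?_ ?_ ?_ ?_ <;>
    first | exact Or.inl rfl | (refine Or.inr ?_; push_cast; linarith) | (push_cast; linarith) | norm_num

theorem S5_fac (h : Dm r e) : 0 < e2 r e (smul2 2 (mul2 (mpow pv 1) (mpow pL1 1))) := by
  have h0 := h.r0
  have h1 : 0 < 1 - r := sub_pos.2 h.r1
  have h2 := h.e0
  simp only [e2_smul, e2_mul, v_mpow, v_v, v_L0, v_L1, v_r, v_1]
  push_cast
  positivity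

theorem S5_pos (h : Dm r e) (ha : a ∈ Icc (0 : ℝ) 1) : 0 < e3 a r e S5 := by
  refine pos_of S5_eq (S5_fac h) ?_
  obtain ⟨h1, h2, h3, h4⟩ := h
  obtain ⟨h5, h6⟩ := ha
  refine reg_B S5_lens S5_chk ?_ ?_ ?_ ?_ ?_ ?_ ?_ ?_ ?_ ?_ ?_ ?_ ?_ <;>
    first | exact Or.inl rfl | (refine Or.inr ?_; push_cast; linarith) | (push_cast; linarith) | norm_num

theorem S6u_fac (h : Dm r e) : 0 < e2 r e (mpow pv 1) := by
  have h0 := h.r0
  have h1 : 0 < 1 - r := sub_pos.2 h.r1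
  have h2 := h.e0
  simp only [e2_smul, e2_mul, v_mpow, v_v, v_L0, v_L1, v_r, v_1]
  push_cast
  positivity

theorem S6u_pos (h : Dm r e) (ha : a ∈ Icc (0 : ℝ) 1) : 0 < e3 a r e S6u := by
  refine pos_of S6u_eq (S6u_fac h) ?_
  obtain ⟨h1, h2, h3, h4⟩ := h
  obtain ⟨h5, h6⟩ := ha
  refine reg_B S6u_lens S6u_chk ?_ ?_ ?_ ?_ ?_ ?_ ?_ ?_ ?_ ?_ ?_ ?_ ?_ <;>
    first | exact Or.inl rfl | (refine Or.inr ?_; push_cast; linarith) | (push_cast; linarith) | norm_num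

theorem S9_fac (h : Dm r e) : 0 < e2 r e (smul2 2 (mul2 (mpow pv 2) (mpow pL1 1))) := by
  have h0 := h.r0
  have h1 : 0 < 1 - r := sub_pos.2 h.r1
  have h2 := h.e0
  simp only [e2_smul, e2_mul, v_mpow, v_v, v_L0, v_L1, v_r, v_1]
  push_cast
  positivity

theorem S9_pos (h : Dm r e) (ha : a ∈ Icc (0 : ℝ) 1) : 0 < e3 a r e S9 := by
  refine pos_of S9_eq (S9_fac h) ?_
  obtain ⟨h1, h2, h3, h4⟩ := h
  obtain ⟨h5, h6⟩ := ha
  refine reg_B S9_lens S9_chk ?_ ?_ ?_ ?_ ?_ ?_ ?_ ?_ ?_ ?_ ?_ ?_ ?_ <;>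
    first | exact Or.inl rfl | (refine Or.inr ?_; push_cast; linarith) | (push_cast; linarith) | norm_num

theorem S10_fac (h : Dm r e) : 0 < e2 r e (smul2 4 (mul2 (mpow pv 1) (mpow pL1 1))) := by
  have h0 := h.r0
  have h1 : 0 < 1 - r := sub_pos.2 h.r1
  have h2 := h.e0
  simp only [e2_smul, e2_mul, v_mpow, v_v, v_L0, v_L1, v_r, v_1]
  push_cast
  positivity

theorem S10_pos (h : Dm r e) (ha : a ∈ Icc (0 : ℝ) 1) : 0 < e3 a r e S10 := by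
  refine pos_of S10_eq (S10_fac h) ?_
  obtain ⟨h1, h2, h3, h4⟩ := h
  obtain ⟨h5, h6⟩ := ha
  refine reg_B S10_lens S10_chk ?_ ?_ ?_ ?_ ?_ ?_ ?_ ?_ ?_ ?_ ?_ ?_ ?_ <;>
    first | exact Or.inl rfl | (refine Or.inr ?_; push_cast; linarith) | (push_cast; linarith) | norm_num

theorem S11_fac (h : Dm r e) : 0 < e2 r e (mul2 (mpow pv 2) (mpow pL1 1)) := by
  have h0 := h.r0
  have h1 : 0 < 1 - r := sub_pos.2 h.r1
  have h2 := h.e0
  simp only [e2_smul, e2_mul, v_mpow, v_v, v_L0, v_L1, v_r, v_1]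
  push_cast
  positivity

theorem S11_pos (h : Dm r e) (ha : a ∈ Icc (0 : ℝ) 1) : 0 < e3 a r e S11 := by
  refine pos_of S11_eq (S11_fac h) ?_
  obtain ⟨h1, h2, h3, h4⟩ := h
  obtain ⟨h5, h6⟩ := ha
  refine reg_B S11_lens S11_chk ?_ ?_ ?_ ?_ ?_ ?_ ?_ ?_ ?_ ?_ ?_ ?_ ?_ <;>
    first | exact Or.inl rfl | (refine Or.inr ?_; push_cast; linarith) | (push_cast; linarith) | norm_num

theorem S12b_fac (h : Dm r e) : 0 < e2 r e (smul2 20 (mul2 (mul2 (mpow pv 2) (mpow pL0 1)) (mpow pL1 1))) := by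
  have h0 := h.r0
  have h1 : 0 < 1 - r := sub_pos.2 h.r1
  have h2 := h.e0
  simp only [e2_smul, e2_mul, v_mpow, v_v, v_L0, v_L1, v_r, v_1]
  push_cast
  positivity

theorem S12b_pos (h : Dm r e) (ha : a ∈ Icc (0 : ℝ) 1) : 0 < e3 a r e S12b := by
  refine pos_of S12b_eq (S12b_fac h) ?_
  obtain ⟨h1, h2, h3, h4⟩ := h
  obtain ⟨h5, h6⟩ := ha
  refine reg_B S12b_lens S12b_chk ?_ ?_ ?_ ?_ ?_ ?_ ?_ ?_ ?_ ?_ ?_ ?_ ?_ <;>
    first | exact Or.inl rfl | (refine Or.inr ?_; push_cast; linarith) | (push_cast; linarith) | norm_num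

theorem S13_fac (h : Dm r e) : 0 < e2 r e (mpow pv 2) := by
  have h0 := h.r0
  have h1 : 0 < 1 - r := sub_pos.2 h.r1
  have h2 := h.e0
  simp only [e2_smul, e2_mul, v_mpow, v_v, v_L0, v_L1, v_r, v_1]
  push_cast
  positivity

theorem S13_pos (h : Dm r e) (ha : a ∈ Icc (0 : ℝ) 1) : 0 < e3 a r e S13 := by
  refine pos_of S13_eq (S13_fac h) ?_
  obtain ⟨h1, h2, h3, h4⟩ := h
  obtain ⟨h5, h6⟩ := ha
  refine reg_B S13_lens S13_chk ?_ ?_ ?_ ?_ ?_ ?_ ?_ ?_ ?_ ?_ ?_ ?_ ?_ <;>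
    first | exact Or.inl rfl | (refine Or.inr ?_; push_cast; linarith) | (push_cast; linarith) | norm_num

theorem S14_fac (h : Dm r e) : 0 < e2 r e (smul2 2 (mul2 (mpow pv 2) (mpow pL1 1))) := by
  have h0 := h.r0
  have h1 : 0 < 1 - r := sub_pos.2 h.r1
  have h2 := h.e0
  simp only [e2_smul, e2_mul, v_mpow, v_v, v_L0, v_L1, v_r, v_1]
  push_cast
  positivity

theorem S14_pos (h : Dm r e) (ha : a ∈ Icc (0 : ℝ) 1) : 0 < e3 a r e S14 := by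
  refine pos_of S14_eq (S14_fac h) ?_
  obtain ⟨h1, h2, h3, h4⟩ := h
  obtain ⟨h5, h6⟩ := ha
  refine reg_B S14_lens S14_chk ?_ ?_ ?_ ?_ ?_ ?_ ?_ ?_ ?_ ?_ ?_ ?_ ?_ <;>
    first | exact Or.inl rfl | (refine Or.inr ?_; push_cast; linarith) | (push_cast; linarith) | norm_num

theorem S3_fac (h : Dm r e) : 0 < e2 r e (smul2 2 (mpow pv 1)) := by
  have h0 := h.r0
  have h1 : 0 < 1 - r := sub_pos.2 h.r1
  have h2 := h.e0
  simp only [e2_smul, e2_mul, v_mpow, v_v, v_L0, v_L1, v_r, v_1]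
  push_cast
  positivity

theorem S3_pos (h : Dm r e) (ha : a ∈ Icc (0 : ℝ) 1) : 0 < e3 a r e S3 := by
  refine pos_of S3_eq (S3_fac h) ?_
  obtain ⟨h1, h2, h3, h4⟩ := h
  obtain ⟨h5, h6⟩ := ha
  rcases le_total e (1 / 2) with h7 | h7
  · refine reg_B S3_lens S3_chka ?_ ?_ ?_ ?_ ?_ ?_ ?_ ?_ ?_ ?_ ?_ ?_ ?_ <;>
    first | exact Or.inl rfl | (refine Or.inr ?_; push_cast; linarith) | (push_cast; linarith) | norm_num
  · refine reg_B S3_lens S3_chkb ?_ ?_ ?_ ?_ ?_ ?_ ?_ ?_ ?_ ?_ ?_ ?_ ?_ <;>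
    first | exact Or.inl rfl | (refine Or.inr ?_; push_cast; linarith) | (push_cast; linarith) | norm_num

theorem S4_fac (h : Dm r e) : 0 < e2 r e (mpow pv 1) := by
  have h0 := h.r0
  have h1 : 0 < 1 - r := sub_pos.2 h.r1
  have h2 := h.e0
  simp only [e2_smul, e2_mul, v_mpow, v_v, v_L0, v_L1, v_r, v_1]
  push_cast
  positivity

theorem S4_pos (h : Dm r e) (ha : a ∈ Icc (0 : ℝ) 1) : 0 < e3 a r e S4 := by
  refine pos_of S4_eq (S4_fac h) ?_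
  obtain ⟨h1, h2, h3, h4⟩ := h
  obtain ⟨h5, h6⟩ := ha
  rcases le_total e (1 / 2) with h7 | h7
  · refine reg_B S4_lens S4_chka ?_ ?_ ?_ ?_ ?_ ?_ ?_ ?_ ?_ ?_ ?_ ?_ ?_ <;>
    first | exact Or.inl rfl | (refine Or.inr ?_; push_cast; linarith) | (push_cast; linarith) | norm_num
  · refine reg_B S4_lens S4_chkb ?_ ?_ ?_ ?_ ?_ ?_ ?_ ?_ ?_ ?_ ?_ ?_ ?_ <;>
    first | exact Or.inl rfl | (refine Or.inr ?_; push_cast; linarith) | (push_cast; linarith) | norm_num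

theorem S12a_fac (h : Dm r e) : 0 < e2 r e (smul2 10 (mpow pv 1)) := by
  have h0 := h.r0
  have h1 : 0 < 1 - r := sub_pos.2 h.r1
  have h2 := h.e0
  simp only [e2_smul, e2_mul, v_mpow, v_v, v_L0, v_L1, v_r, v_1]
  push_cast
  positivity

theorem S12a_pos (h : Dm r e) (ha : a ∈ Icc (0 : ℝ) 1) : 0 < e3 a r e S12a := by
  refine pos_of S12a_eq (S12a_fac h) ?_
  obtain ⟨h1, h2, h3, h4⟩ := h
  obtain ⟨h5, h6⟩ := ha
  rcases le_total e (1 / 2) with h7 | h7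
  · refine reg_B S12a_lens S12a_chka ?_ ?_ ?_ ?_ ?_ ?_ ?_ ?_ ?_ ?_ ?_ ?_ ?_ <;>
    first | exact Or.inl rfl | (refine Or.inr ?_; push_cast; linarith) | (push_cast; linarith) | norm_num
  · refine reg_B S12a_lens S12a_chkb ?_ ?_ ?_ ?_ ?_ ?_ ?_ ?_ ?_ ?_ ?_ ?_ ?_ <;>
    first | exact Or.inl rfl | (refine Or.inr ?_; push_cast; linarith) | (push_cast; linarith) | norm_num

theorem S1_fac (h : Dm r e) : 0 < e2 r e (smul2 2 (mul2 (mpow pv 3) (mpow pL0 1))) := by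
  have h0 := h.r0
  have h1 : 0 < 1 - r := sub_pos.2 h.r1
  have h2 := h.e0
  simp only [e2_smul, e2_mul, v_mpow, v_v, v_L0, v_L1, v_r, v_1]
  push_cast
  positivity

theorem S1_pos (h : Dm r e) (ha : a ∈ Icc (0 : ℝ) 1) : 0 < e3 a r e S1 := by
  refine pos_of S1_eq (S1_fac h) ?_
  obtain ⟨h1, h2, h3, h4⟩ := h
  obtain ⟨h5, h6⟩ := ha
  rcases le_total e (1 / 2) with h7 | h7
  · refine reg_B S1_lens S1_chka ?_ ?_ ?_ ?_ ?_ ?_ ?_ ?_ ?_ ?_ ?_ ?_ ?_ <;>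
    first | exact Or.inl rfl | (refine Or.inr ?_; push_cast; linarith) | (push_cast; linarith) | norm_num
  rcases le_total r (1 / 2) with h8 | h8
  · refine reg_B S1_lens S1_chkb ?_ ?_ ?_ ?_ ?_ ?_ ?_ ?_ ?_ ?_ ?_ ?_ ?_ <;>
    first | exact Or.inl rfl | (refine Or.inr ?_; push_cast; linarith) | (push_cast; linarith) | norm_num
  · refine reg_B S1_lens S1_chkc ?_ ?_ ?_ ?_ ?_ ?_ ?_ ?_ ?_ ?_ ?_ ?_ ?_ <;>
    first | exact Or.inl rfl | (refine Or.inr ?_; push_cast; linarith) | (push_cast; linarith) | norm_num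

theorem S6b_fac (h : Dm r e) : 0 < e2 r e (mpow pv 2) := by
  have h0 := h.r0
  have h1 : 0 < 1 - r := sub_pos.2 h.r1
  have h2 := h.e0
  simp only [e2_smul, e2_mul, v_mpow, v_v, v_L0, v_L1, v_r, v_1]
  push_cast
  positivity

theorem S6b_pos (h : Dm r e) (ha : a ∈ Icc (0 : ℝ) 1) : 0 < e3 a r e S6b := by
  refine pos_of S6b_eq (S6b_fac h) ?_
  obtain ⟨h1, h2, h3, h4⟩ := h
  obtain ⟨h5, h6⟩ := ha
  rcases le_total e (1 / 2) with h7 | h7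
  · refine reg_B S6b_lens S6b_chka ?_ ?_ ?_ ?_ ?_ ?_ ?_ ?_ ?_ ?_ ?_ ?_ ?_ <;>
    first | exact Or.inl rfl | (refine Or.inr ?_; push_cast; linarith) | (push_cast; linarith) | norm_num
  rcases le_total r (1 / 2) with h8 | h8
  · refine reg_B S6b_lens S6b_chkb ?_ ?_ ?_ ?_ ?_ ?_ ?_ ?_ ?_ ?_ ?_ ?_ ?_ <;>
    first | exact Or.inl rfl | (refine Or.inr ?_; push_cast; linarith) | (push_cast; linarith) | norm_num
  · refine reg_B S6b_lens S6b_chkc ?_ ?_ ?_ ?_ ?_ ?_ ?_ ?_ ?_ ?_ ?_ ?_ ?_ <;>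
    first | exact Or.inl rfl | (refine Or.inr ?_; push_cast; linarith) | (push_cast; linarith) | norm_num

/-! ### `e ≤ ρ` -/

theorem T1_fac (h : Dm r e) : 0 < e2 r e (mul2 (mpow pv 2) (mpow pL0 1)) := by
  have h0 := h.r0
  have h1 : 0 < 1 - r := sub_pos.2 h.r1
  have h2 := h.e0
  simp only [e2_smul, e2_mul, v_mpow, v_v, v_L0, v_L1, v_r, v_1]
  push_cast
  positivity

theorem T1_pos (h : Dm r e) (he : e ≤ r) (ha : a ∈ Icc (0 : ℝ) 1) : 0 < e3 a r e T1 := by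
  refine pos_of T1_eq (T1_fac h) ?_
  rw [← e3_tr3 T1_len2]
  obtain ⟨h1, h2, h3, h4⟩ := h
  obtain ⟨h5, h6⟩ := ha
  refine reg_C T1t_lens T1_chk ?_ ?_ ?_ ?_ ?_ ?_ ?_ ?_ ?_ ?_ ?_ ?_ <;>
    first | exact Or.inl rfl | (refine Or.inr ?_; push_cast; linarith) | (push_cast; linarith) | norm_num

theorem T2_fac (h : Dm r e) : 0 < e2 r e (p1) := by
  have h0 := h.r0
  have h1 : 0 < 1 - r := sub_pos.2 h.r1
  have h2 := h.e0
  simp only [e2_smul, e2_mul, v_mpow, v_v, v_L0, v_L1, v_r, v_1]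
  push_cast
  positivity

theorem T2_pos (h : Dm r e) (he : e ≤ r) (ha : a ∈ Icc (0 : ℝ) 1) : 0 < e3 a r e T2 := by
  refine pos_of T2_eq (T2_fac h) ?_
  rw [← e3_tr3 T2_len2]
  obtain ⟨h1, h2, h3, h4⟩ := h
  obtain ⟨h5, h6⟩ := ha
  refine reg_C T2t_lens T2_chk ?_ ?_ ?_ ?_ ?_ ?_ ?_ ?_ ?_ ?_ ?_ ?_ <;>
    first | exact Or.inl rfl | (refine Or.inr ?_; push_cast; linarith) | (push_cast; linarith) | norm_num

theorem T3_fac (h : Dm r e) : 0 < e2 r e (smul2 2 p1) := by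
  have h0 := h.r0
  have h1 : 0 < 1 - r := sub_pos.2 h.r1
  have h2 := h.e0
  simp only [e2_smul, e2_mul, v_mpow, v_v, v_L0, v_L1, v_r, v_1]
  push_cast
  positivity

theorem T3_pos (h : Dm r e) (he : e ≤ r) (ha : a ∈ Icc (0 : ℝ) 1) : 0 < e3 a r e T3 := by
  refine pos_of T3_eq (T3_fac h) ?_
  rw [← e3_tr3 T3_len2]
  obtain ⟨h1, h2, h3, h4⟩ := h
  obtain ⟨h5, h6⟩ := ha
  refine reg_C T3t_lens T3_chk ?_ ?_ ?_ ?_ ?_ ?_ ?_ ?_ ?_ ?_ ?_ ?_ <;>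
    first | exact Or.inl rfl | (refine Or.inr ?_; push_cast; linarith) | (push_cast; linarith) | norm_num

/-- The closed version of the chart, without sign of the monomial. -/
theorem reg_C_nonneg {na nx ny K i j k l b x0 x1 D y1 E a0 a1 F : ℕ} {Q : List P2}
    (hl : BoxK.lens na nx ny Q = true)
    (h : BoxK.chk (cC x0 x1 D y1 E a0 a1 F) na nx ny K i j k l b Q = true) {a x y : ℝ}
    (hK : (0 : ℝ) < K) (hx01 : (x0 : ℝ) < x1) (hy01 : (0 : ℝ) < y1) (ha01 : (a0 : ℝ) < a1)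
    (ha0 : (a0 : ℝ) ≤ F * a) (ha1 : F * a ≤ (a1 : ℝ)) (hy0 : 0 < y)
    (hx0 : (x0 : ℝ) * (E * y) ≤ D * y1 * x) (hx1 : D * y1 * x ≤ (x1 : ℝ) * (E * y))
    (hy1 : E * y ≤ (y1 : ℝ)) : 0 ≤ e3 a x y Q := by
  have hsc : BoxK.sc (cC x0 x1 D y1 E a0 a1 F) nx ny i j k l = true := by
    rw [BoxK.chk, Bool.and_eq_true] at h; exact h.1
  obtain ⟨-, ⟨hD, hE, hF⟩, -⟩ := BoxK.sc_spec hsc
  have hD : (0 : ℝ) < D := by exact_mod_cast hD
  have hE : (0 : ℝ) < E := by exact_mod_cast hE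
  have hF : (0 : ℝ) < F := by exact_mod_cast hF
  have hx2 : (0 : ℝ) < x1 - x0 := sub_pos.2 hx01
  have ha2 : (0 : ℝ) < a1 - a0 := sub_pos.2 ha01
  have hEy : 0 < E * y := mul_pos hE hy0
  have hxy : (x0 : ℝ) * (E * y) < x1 * (E * y) := mul_lt_mul_of_pos_right hx01 hEy
  have hu := Icc_div hx0 hx1 hxy
  have hv : E * y / y1 ∈ Icc (0 : ℝ) 1 := ⟨by positivity, (div_le_one hy01).2 hy1⟩
  have h1 := BoxK.chk_closed hl h hu hv (Icc_div ha0 ha1 ha01)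
  have e1 : BoxK.ga (cC x0 x1 D y1 E a0 a1 F) ((F * a - a0) / (a1 - a0)) = a := by
    simp only [BoxK.ga, cC]
    field_simp
    ring
  have hne : (x1 : ℝ) * (E * y) - x0 * (E * y) ≠ 0 := (sub_pos.2 hxy).ne'
  have e2 : BoxK.gx (cC x0 x1 D y1 E a0 a1 F)
      ((D * y1 * x - x0 * (E * y)) / (x1 * (E * y) - x0 * (E * y))) (E * y / y1) = x := by
    have h2 : (x1 : ℝ) * (E * y) - x0 * (E * y) = (x1 - x0) * (E * y) := by ring
    simp only [BoxK.gx, cC]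
    rw [h2]
    simp only [Nat.cast_zero, zero_mul, one_ne_zero, if_false, zero_add]
    field_simp
    ring
  have e3 : BoxK.gy (cC x0 x1 D y1 E a0 a1 F) (E * y / y1) = y := by
    simp only [BoxK.gy, cC]
    rw [Nat.cast_zero, zero_mul, zero_add]
    field_simp
  rw [e1, e2, e3] at h1
  have h2 := hu.1
  have h3 := sub_nonneg.2 hu.2
  have h4 := hv.1
  have h5 := sub_nonneg.2 hv.2
  refine nonneg_of_mul_nonneg_right (le_trans (by positivity) h1) (by positivity)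

theorem T2_nonneg' (h2 : 0 < e) (he : e ≤ r) (hr : r ≤ 1) (ha : a ∈ Icc (0 : ℝ) 1) :
    0 ≤ e3 a r e T2 := by
  obtain ⟨h5, h6⟩ := ha
  have hr0 : 0 < r := h2.trans_le he
  rw [e3_eqv T2_eq, e3_kmap_mul, v_1, one_mul, ← e3_tr3 T2_len2]
  refine reg_C_nonneg T2t_lens T2_chk ?_ ?_ ?_ ?_ ?_ ?_ ?_ ?_ ?_ ?_ <;>
    first | exact Or.inl rfl | (refine Or.inr ?_; push_cast; linarith) | (push_cast; linarith) | norm_num

theorem T3_pos' (h2 : 0 < e) (he : e ≤ r) (hr : r ≤ 1) (ha : a ∈ Icc (0 : ℝ) 1) :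
    0 < e3 a r e T3 := by
  obtain ⟨h5, h6⟩ := ha
  have hr0 : 0 < r := h2.trans_le he
  refine pos_of T3_eq (by simp only [e2_smul, v_1]; push_cast; positivity) ?_
  rw [← e3_tr3 T3_len2]
  refine reg_C T3t_lens T3_chk ?_ ?_ ?_ ?_ ?_ ?_ ?_ ?_ ?_ ?_ ?_ ?_ <;>
    first | exact Or.inl rfl | (refine Or.inr ?_; push_cast; linarith) | (push_cast; linarith) | norm_num

/-! ### `ρ ≤ e` -/

theorem J0_pos (h : Dm r e) (h1 : e ≤ 3 * r) (h2 : r ≤ e) (ha : a ∈ Icc (0 : ℝ) 1) :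
    0 < e3 a r e T2 := by
  refine pos_of T2_eq (T2_fac h) ?_
  obtain ⟨h3, h4, h5, h6⟩ := h
  obtain ⟨h7, h8⟩ := ha
  refine reg_C T2_lens T2_chkj ?_ ?_ ?_ ?_ ?_ ?_ ?_ ?_ ?_ ?_ ?_ ?_ <;>
    first | exact Or.inl rfl | (refine Or.inr ?_; push_cast; linarith) | (push_cast; linarith) | norm_num

theorem J1_fac (h : Dm r e) : 0 < e2 r e (smul2 2 p1) := by
  have h0 := h.r0
  have h1 : 0 < 1 - r := sub_pos.2 h.r1
  have h2 := h.e0
  simp only [e2_smul, e2_mul, v_mpow, v_v, v_L0, v_L1, v_r, v_1]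
  push_cast
  positivity

theorem J1_pos (h : Dm r e) (h1 : e ≤ 3 * r) (h2 : r ≤ e) (ha : a ∈ Icc (0 : ℝ) 1) :
    0 < e3 a r e J1 := by
  refine pos_of J1_eq (J1_fac h) ?_
  obtain ⟨h3, h4, h5, h6⟩ := h
  obtain ⟨h7, h8⟩ := ha
  refine reg_C J1_lens J1_chk ?_ ?_ ?_ ?_ ?_ ?_ ?_ ?_ ?_ ?_ ?_ ?_ <;>
    first | exact Or.inl rfl | (refine Or.inr ?_; push_cast; linarith) | (push_cast; linarith) | norm_num

theorem J2_fac (h : Dm r e) : 0 < e2 r e (smul2 2 (mpow pL1 2)) := by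
  have h0 := h.r0
  have h1 : 0 < 1 - r := sub_pos.2 h.r1
  have h2 := h.e0
  simp only [e2_smul, e2_mul, v_mpow, v_v, v_L0, v_L1, v_r, v_1]
  push_cast
  positivity

theorem J2_pos (h : Dm r e) (h1 : e ≤ 3 * r) (h2 : r ≤ e) (ha : a ∈ Icc (0 : ℝ) 1) :
    0 < e3 a r e J2 := by
  refine pos_of J2_eq (J2_fac h) ?_
  obtain ⟨h3, h4, h5, h6⟩ := h
  obtain ⟨h7, h8⟩ := ha
  refine reg_C J2_lens J2_chk ?_ ?_ ?_ ?_ ?_ ?_ ?_ ?_ ?_ ?_ ?_ ?_ <;>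
    first | exact Or.inl rfl | (refine Or.inr ?_; push_cast; linarith) | (push_cast; linarith) | norm_num

theorem V0_fac (h : Dm r e) : 0 < e2 r e (smul2 2 (mpow pv 1)) := by
  have h0 := h.r0
  have h1 : 0 < 1 - r := sub_pos.2 h.r1
  have h2 := h.e0
  simp only [e2_smul, e2_mul, v_mpow, v_v, v_L0, v_L1, v_r, v_1]
  push_cast
  positivity

theorem V0_pos (h : Dm r e) (h2 : 3 * r ≤ e) (ha : a ∈ Icc (0 : ℝ) 1) :
    0 < e3 a r e V0 := by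
  refine pos_of V0_eq (V0_fac h) ?_
  obtain ⟨h3, h4, h5, h6⟩ := h
  obtain ⟨h7, h8⟩ := ha
  refine reg_C V0_lens V0_chk ?_ ?_ ?_ ?_ ?_ ?_ ?_ ?_ ?_ ?_ ?_ ?_ <;>
    first | exact Or.inl rfl | (refine Or.inr ?_; push_cast; linarith) | (push_cast; linarith) | norm_num

theorem V1_fac (h : Dm r e) : 0 < e2 r e (smul2 2 (mul2 (mpow pv 1) (mpow pL1 1))) := by
  have h0 := h.r0
  have h1 : 0 < 1 - r := sub_pos.2 h.r1
  have h2 := h.e0
  simp only [e2_smul, e2_mul, v_mpow, v_v, v_L0, v_L1, v_r, v_1]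
  push_cast
  positivity

theorem V1_pos (h : Dm r e) (h2 : 3 * r ≤ e) (ha : a ∈ Icc (0 : ℝ) 1) :
    0 < e3 a r e V1 := by
  refine pos_of V1_eq (V1_fac h) ?_
  obtain ⟨h3, h4, h5, h6⟩ := h
  obtain ⟨h7, h8⟩ := ha
  refine reg_C V1_lens V1_chk ?_ ?_ ?_ ?_ ?_ ?_ ?_ ?_ ?_ ?_ ?_ ?_ <;>
    first | exact Or.inl rfl | (refine Or.inr ?_; push_cast; linarith) | (push_cast; linarith) | norm_num

/-! ### The variable `p` -/

theorem P0L_fac (h : Dm r e) : 0 < e2 r e (mpow pv 2) := by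
  have h0 := h.r0
  have h1 : 0 < 1 - r := sub_pos.2 h.r1
  have h2 := h.e0
  simp only [e2_smul, e2_mul, v_mpow, v_v, v_L0, v_L1, v_r, v_1]
  push_cast
  positivity

theorem P0H_fac (h : Dm r e) : 0 < e2 r e (mpow pv 2) := by
  have h0 := h.r0
  have h1 : 0 < 1 - r := sub_pos.2 h.r1
  have h2 := h.e0
  simp only [e2_smul, e2_mul, v_mpow, v_v, v_L0, v_L1, v_r, v_1]
  push_cast
  positivity

theorem P0L_pos (h : Dm r e) (he : e ≤ r) (ha : a ∈ Icc (0 : ℝ) 1) :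
    0 < e3 a r e (kaP [] pv P0) := by
  refine pos_of P0L_eq (P0L_fac h) ?_
  rw [← e3_tr3 P0L_len2]
  obtain ⟨h1, h2, h3, h4⟩ := h
  obtain ⟨h5, h6⟩ := ha
  refine reg_C P0Lt_lens P0L_chk ?_ ?_ ?_ ?_ ?_ ?_ ?_ ?_ ?_ ?_ ?_ ?_ <;>
    first | exact Or.inl rfl | (refine Or.inr ?_; push_cast; linarith) | (push_cast; linarith) | norm_num

theorem P0H_pos (h : Dm r e) (he : e ≤ r) (ha : a ∈ Icc (0 : ℝ) 1) :
    0 < e3 a r e (kaP p1 (smul2 (-1) pr) P0) := by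
  refine pos_of P0H_eq (P0H_fac h) ?_
  rw [← e3_tr3 P0H_len2]
  obtain ⟨h1, h2, h3, h4⟩ := h
  obtain ⟨h5, h6⟩ := ha
  rcases le_total (5 * e) (3 * r) with h7 | h7
  · refine reg_C P0Ht_lens P0H_chka ?_ ?_ ?_ ?_ ?_ ?_ ?_ ?_ ?_ ?_ ?_ ?_ <;>
    first | exact Or.inl rfl | (refine Or.inr ?_; push_cast; linarith) | (push_cast; linarith) | norm_num
  rcases le_total (5 * e) (4 * r) with h8 | h8
  · refine reg_C P0Ht_lens P0H_chkb ?_ ?_ ?_ ?_ ?_ ?_ ?_ ?_ ?_ ?_ ?_ ?_ <;>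
    first | exact Or.inl rfl | (refine Or.inr ?_; push_cast; linarith) | (push_cast; linarith) | norm_num
  · refine reg_C P0Ht_lens P0H_chkc ?_ ?_ ?_ ?_ ?_ ?_ ?_ ?_ ?_ ?_ ?_ ?_ <;>
    first | exact Or.inl rfl | (refine Or.inr ?_; push_cast; linarith) | (push_cast; linarith) | norm_num

theorem P0_pos (h : Dm r e) (he : e ≤ r) (ha : a ∈ Icc (0 : ℝ) 1) : 0 < e3 a r e P0 := by
  have h1 : 0 < 1 - r := sub_pos.2 h.r1
  have h2 := h.r0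
  rcases le_total a (1 - r) with h3 | h3
  · have h4 := P0L_pos h he (div_Icc ha.1 h1 h3)
    have h5 : e2 r e [] + e2 r e pv * (a / (1 - r)) = a := by
      rw [v_v]
      simp only [e2, ev_nil]
      field_simp
      ring
    rwa [e3_kaP, h5] at h4
  · have h4 := P0H_pos h he (div_Icc (sub_nonneg.2 ha.2) h2 (by linarith : 1 - a ≤ r))
    have h5 : e2 r e p1 + e2 r e (smul2 (-1) pr) * ((1 - a) / r) = a := by
      rw [v_1, e2_smul, v_r]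
      push_cast
      field_simp
      ring
    rwa [e3_kaP, h5] at h4

theorem P1L_fac (h : Dm r e) : 0 < e2 r e (mul2 (mpow pv 2) (mpow pL1 1)) := by
  have h0 := h.r0
  have h1 : 0 < 1 - r := sub_pos.2 h.r1
  have h2 := h.e0
  simp only [e2_smul, e2_mul, v_mpow, v_v, v_L0, v_L1, v_r, v_1]
  push_cast
  positivity

theorem P1H_fac (h : Dm r e) : 0 < e2 r e (mul2 (mpow pv 2) (mpow pL1 1)) := by
  have h0 := h.r0
  have h1 : 0 < 1 - r := sub_pos.2 h.r1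
  have h2 := h.e0
  simp only [e2_smul, e2_mul, v_mpow, v_v, v_L0, v_L1, v_r, v_1]
  push_cast
  positivity

theorem P1L_pos (h : Dm r e) (he : e ≤ r) (ha : a ∈ Icc (0 : ℝ) 1) :
    0 < e3 a r e (kaP [] pv P1) := by
  refine pos_of P1L_eq (P1L_fac h) ?_
  rw [← e3_tr3 P1L_len2]
  obtain ⟨h1, h2, h3, h4⟩ := h
  obtain ⟨h5, h6⟩ := ha
  refine reg_C P1Lt_lens P1L_chk ?_ ?_ ?_ ?_ ?_ ?_ ?_ ?_ ?_ ?_ ?_ ?_ <;>
    first | exact Or.inl rfl | (refine Or.inr ?_; push_cast; linarith) | (push_cast; linarith) | norm_num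

theorem P1H_pos (h : Dm r e) (he : e ≤ r) (ha : a ∈ Icc (0 : ℝ) 1) :
    0 < e3 a r e (kaP p1 (smul2 (-1) pr) P1) := by
  refine pos_of P1H_eq (P1H_fac h) ?_
  rw [← e3_tr3 P1H_len2]
  obtain ⟨h1, h2, h3, h4⟩ := h
  obtain ⟨h5, h6⟩ := ha
  rcases le_total (5 * e) (3 * r) with h7 | h7
  · refine reg_C P1Ht_lens P1H_chka ?_ ?_ ?_ ?_ ?_ ?_ ?_ ?_ ?_ ?_ ?_ ?_ <;>
    first | exact Or.inl rfl | (refine Or.inr ?_; push_cast; linarith) | (push_cast; linarith) | norm_num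
  rcases le_total (5 * e) (4 * r) with h8 | h8
  · refine reg_C P1Ht_lens P1H_chkb ?_ ?_ ?_ ?_ ?_ ?_ ?_ ?_ ?_ ?_ ?_ ?_ <;>
    first | exact Or.inl rfl | (refine Or.inr ?_; push_cast; linarith) | (push_cast; linarith) | norm_num
  · refine reg_C P1Ht_lens P1H_chkc ?_ ?_ ?_ ?_ ?_ ?_ ?_ ?_ ?_ ?_ ?_ ?_ <;>
    first | exact Or.inl rfl | (refine Or.inr ?_; push_cast; linarith) | (push_cast; linarith) | norm_num

theorem P1_pos (h : Dm r e) (he : e ≤ r) (ha : a ∈ Icc (0 : ℝ) 1) : 0 < e3 a r e P1 := by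
  have h1 : 0 < 1 - r := sub_pos.2 h.r1
  have h2 := h.r0
  rcases le_total a (1 - r) with h3 | h3
  · have h4 := P1L_pos h he (div_Icc ha.1 h1 h3)
    have h5 : e2 r e [] + e2 r e pv * (a / (1 - r)) = a := by
      rw [v_v]
      simp only [e2, ev_nil]
      field_simp
      ring
    rwa [e3_kaP, h5] at h4
  · have h4 := P1H_pos h he (div_Icc (sub_nonneg.2 ha.2) h2 (by linarith : 1 - a ≤ r))
    have h5 : e2 r e p1 + e2 r e (smul2 (-1) pr) * ((1 - a) / r) = a := by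
      rw [v_1, e2_smul, v_r]
      push_cast
      field_simp
      ring
    rwa [e3_kaP, h5] at h4

/-! ### Opposite sides -/

theorem O1a_fac (h : Dm r e) : 0 < e2 r e (smul2 4 (mul2 (mpow pv 3) (mpow pL0 3))) := by
  have h0 := h.r0
  have h1 : 0 < 1 - r := sub_pos.2 h.r1
  have h2 := h.e0
  simp only [e2_smul, e2_mul, v_mpow, v_v, v_L0, v_L1, v_r, v_1]
  push_cast
  positivity

theorem O1a_pos (h : Dm r e) (he : e < r) (h2 : 5 * (r - e) ≤ 4 * (1 - e))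
    (ha : a ∈ Icc (0 : ℝ) 1) : 0 < e3 a r e O1a := by
  refine pos_of O1a_eq (O1a_fac h) ?_
  obtain ⟨h3, h4, h5, h6⟩ := h
  obtain ⟨h7, h8⟩ := ha
  rcases le_total r (1 / 2) with h9 | h9
  · rw [← e3_tr3 O1a_len2]
    refine reg_C O1at_lens O1a_chkt ?_ ?_ ?_ ?_ ?_ ?_ ?_ ?_ ?_ ?_ ?_ ?_ <;>
    first | exact Or.inl rfl | (refine Or.inr ?_; push_cast; linarith) | (push_cast; linarith) | norm_num
  rcases le_total (1 / 4) e with h10 | h10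
  · rcases le_total a (1 / 2) with h11 | h11
    · refine reg_P O1a_lens O1a_chkp ?_ ?_ ?_ ?_ ?_ ?_ ?_ ?_ ?_ ?_ ?_ ?_ ?_ ?_ ?_ ?_ <;>
    first | exact Or.inl rfl | (refine Or.inr ?_; push_cast; linarith) | (push_cast; linarith) | norm_num
    · refine reg_P O1a_lens O1a_chkq ?_ ?_ ?_ ?_ ?_ ?_ ?_ ?_ ?_ ?_ ?_ ?_ ?_ ?_ ?_ ?_ <;>
    first | exact Or.inl rfl | (refine Or.inr ?_; push_cast; linarith) | (push_cast; linarith) | norm_num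
  · refine reg_P O1a_lens O1a_chkr ?_ ?_ ?_ ?_ ?_ ?_ ?_ ?_ ?_ ?_ ?_ ?_ ?_ ?_ ?_ ?_ <;>
    first | exact Or.inl rfl | (refine Or.inr ?_; push_cast; linarith) | (push_cast; linarith) | norm_num

theorem O1b_fac (h : Dm r e) : 0 < e2 r e (smul2 4 (mul2 (mul2 (mpow pv 3) (mpow pL0 3)) (mpow pL1 1))) := by
  have h0 := h.r0
  have h1 : 0 < 1 - r := sub_pos.2 h.r1
  have h2 := h.e0
  simp only [e2_smul, e2_mul, v_mpow, v_v, v_L0, v_L1, v_r, v_1]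
  push_cast
  positivity

theorem O1b_pos (h : Dm r e) (he : e < r) (h2 : 5 * (r - e) ≤ 4 * (1 - e))
    (ha : a ∈ Icc (0 : ℝ) 1) : 0 < e3 a r e O1b := by
  refine pos_of O1b_eq (O1b_fac h) ?_
  obtain ⟨h3, h4, h5, h6⟩ := h
  obtain ⟨h7, h8⟩ := ha
  rcases le_total r (1 / 2) with h9 | h9
  · rw [← e3_tr3 O1b_len2]
    refine reg_C O1bt_lens O1b_chkt ?_ ?_ ?_ ?_ ?_ ?_ ?_ ?_ ?_ ?_ ?_ ?_ <;>
    first | exact Or.inl rfl | (refine Or.inr ?_; push_cast; linarith) | (push_cast; linarith) | norm_num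
  rcases le_total (1 / 4) e with h10 | h10
  · refine reg_P O1b_lens O1b_chkp ?_ ?_ ?_ ?_ ?_ ?_ ?_ ?_ ?_ ?_ ?_ ?_ ?_ ?_ ?_ ?_ <;>
    first | exact Or.inl rfl | (refine Or.inr ?_; push_cast; linarith) | (push_cast; linarith) | norm_num
  · refine reg_P O1b_lens O1b_chkr ?_ ?_ ?_ ?_ ?_ ?_ ?_ ?_ ?_ ?_ ?_ ?_ ?_ ?_ ?_ ?_ <;>
    first | exact Or.inl rfl | (refine Or.inr ?_; push_cast; linarith) | (push_cast; linarith) | norm_num

theorem O2_fac (h : Dm r e) : 0 < e2 r e (smul2 4 (mul2 (mpow pv 1) (mpow pL1 1))) := by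
  have h0 := h.r0
  have h1 : 0 < 1 - r := sub_pos.2 h.r1
  have h2 := h.e0
  simp only [e2_smul, e2_mul, v_mpow, v_v, v_L0, v_L1, v_r, v_1]
  push_cast
  positivity

theorem O2_pos (h : Dm r e) (h1 : 4 * (1 - e) ≤ 5 * (r - e)) (ha : a ∈ Icc (0 : ℝ) 1) :
    0 < e3 a r e O2 := by
  refine pos_of O2_eq (O2_fac h) ?_
  obtain ⟨h3, h4, h5, h6⟩ := h
  obtain ⟨h7, h8⟩ := ha
  refine reg_P O2_lens O2_chk ?_ ?_ ?_ ?_ ?_ ?_ ?_ ?_ ?_ ?_ ?_ ?_ ?_ ?_ ?_ ?_ <;>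
    first | exact Or.inl rfl | (refine Or.inr ?_; push_cast; linarith) | (push_cast; linarith) | norm_num

end Vale.Agent.P219.D6
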