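import Vale.Agent.P219.D6.Pos

/-! # The certificate in dimension 6: real inequalities, first part -/

open Set

namespace Vale.Agent.P219.D6

open Vale.Agent.P219.C5 Vale.Agent.P219.D4

variable {r e a : ℝ}

theorem e3_one (a r e : ℝ) (p : P2) : e3 a r e [p] = e2 r e p := by
  simp [e3]

theorem h01 : (0 : ℝ) ∈ Icc (0 : ℝ) 1 := ⟨le_rfl, zero_le_one⟩

theorem Dm.v (h : Dm r e) : 0 < 1 - r := sub_pos.2 h.r1
theorem Dm.w (h : Dm r e) : 0 < 1 - e := sub_pos.2 h.e1
theorem Dm.Y (h : Dm r e) : 0 < 1 - r ^ 2 := by nlinarith [h.r0, h.r1]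
theorem Dm.T (h : Dm r e) : 0 < 1 - e ^ 2 := by nlinarith [h.e0, h.e1]
theorem Dm.L (h : Dm r e) : 0 < (r + e) := by
  have := h.r0; have := h.e0; positivity
theorem DK_pos (h : Dm r e) : 0 < DK r e := by
  have := h.r0; have := h.e0; unfold DK; positivity

/-- `k2`. -/
noncomputable def k2 (r e : ℝ) : ℝ := e2 r e pk2

theorem k2_eq (r e : ℝ) : k2 r e =
    2 * ((r + e) * ((1 - r ^ 2) ^ 2 * e2 r e bN)) := by
  simp only [k2, pk2, e2_smul, e2_mul, v_L, v_Y]; push_cast; ring

theorem bN_pos (h : Dm r e) : 0 < e2 r e bN := by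
  have := S6b_pos h h01
  rwa [S6b, e3_one] at this

theorem uN_pos (h : Dm r e) : 0 < e2 r e uN := by
  have := S6u_pos h h01
  rwa [S6u, e3_one] at this

theorem k2_nonneg (h : Dm r e) : 0 ≤ k2 r e := by
  rw [k2_eq]
  have := bN_pos h
  have := h.L
  positivity

theorem B_pos (h : Dm r e) : 0 < e2 r e pB := by
  rw [r_B]
  have := bN_pos h
  have := h.L
  have := h.r0
  positivity

theorem base (h : Dm r e) : (KK r e).Base (k2 r e) where
  tan1 := by
    have := e2_eqv tan1 r e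
    simp only [e2_add, e2_smul] at this
    push_cast at this
    simp only [KK]
    linarith
  tan2 := by
    have := e2_eqv tan2 r e
    simp only [e2_add, e2_smul] at this
    push_cast at this
    simp only [KK]
    linarith
  hk2 := k2_nonneg h
  hpp := by
    have := S1_pos h h01
    rw [S1, e3_one] at this
    simp only [e2_add, e2_smul] at this
    push_cast at this
    simp only [KK, k2]
    linarith
  h0 := by
    have := S2_pos h h01
    rw [S2, e3_one] at this
    simp only [e2_add, e2_smul] at this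
    push_cast at this
    simp only [KK, k2]
    linarith
  h1 := by
    have := S3_pos h h01
    rw [S3, e3_one] at this
    simp only [e2_add, e2_smul] at this
    push_cast at this
    simp only [KK]
    linarith
  h2 := by
    have := S4_pos h h01
    rw [S4, e3_one] at this
    simp only [e2_add, e2_smul] at this
    push_cast at this
    simp only [KK]
    linarith
  hr := by
    have := S5_pos h h01
    rw [S5, e3_one] at this
    simp only [e2_add, e2_smul] at this
    push_cast at this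
    simp only [KK]
    linarith
  hccp := by
    have := e2_eqv kccp_eq r e
    simp only [e2_mul, e2_smul, v_Y] at this
    push_cast at this
    simp only [KK]
    rw [this]
    have := B_pos h
    have := h.Y
    positivity

/-! ### `Uh` -/

/-- `Y (2 L u + b) - T² b`. -/
theorem u1_pos (h : Dm r e) : 0 < (1 - r ^ 2) *
    (2 * ((r + e) * e2 r e uN) + e2 r e bN) - (1 - e ^ 2) * e2 r e bN := by
  have := S11_pos h h01
  rw [S11, e3_one, pu1] at this
  simp only [e2_add, e2_smul, e2_mul, v_Y, v_L, v_T] at this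
  push_cast at this
  linarith

/-- `Uh` at `A² = T²/Y`. -/
theorem Uh_ge (h : Dm r e) {A : ℝ} (hA : (1 - r ^ 2) * A ^ 2 ≤ 1 - e ^ 2) :
    r ^ 2 * (r + e) * ((1 - r ^ 2) *
    (2 * ((r + e) * e2 r e uN) + e2 r e bN) - (1 - e ^ 2) * e2 r e bN) ≤
      (1 - r ^ 2) * Uh r e A := by
  have h1 : (1 - r ^ 2) * Uh r e A = r ^ 2 * (r + e) * ((1 - r ^ 2) *
    (2 * ((r + e) * e2 r e uN) + e2 r e bN) - (1 - r ^ 2) * A ^ 2 *
      e2 r e bN) := by
    unfold Uh; ring
  rw [h1]
  have h2 := h.L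
  have h3 := h.r0
  refine mul_le_mul_of_nonneg_left ?_ (by positivity)
  have := mul_le_mul_of_nonneg_right hA (bN_pos h).le
  linarith

theorem Uh_pos (h : Dm r e) {A : ℝ} (hA : (1 - r ^ 2) * A ^ 2 ≤ 1 - e ^ 2) : 0 < Uh r e A := by
  have h1 := Uh_ge h hA
  have h2 := h.L
  have h3 := h.r0
  have h4 := u1_pos h
  have h5 : 0 < (1 - r ^ 2) * Uh r e A := lt_of_lt_of_le (by positivity) h1
  exact pos_of_mul_pos_right h5 h.Y.le

/-- `25 Uh(A) ≥ ρ² Uh(B)`. -/
theorem Uh_comp (h : Dm r e) {A : ℝ} (hA : (1 - r ^ 2) * A ^ 2 ≤ 1 - e ^ 2) (B : ℝ) :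
    r ^ 2 * Uh r e B ≤ 25 * Uh r e A := by
  have h1 := Uh_ge h hA
  have h0 := S13_pos h h01
  rw [S13, e3_one, pu1] at h0
  simp only [e2_add, e2_smul, e2_mul, v_Y, v_L, v_T, v_r2] at h0
  push_cast at h0
  have h2 := h.L
  have h3 := h.r0
  have h4 : 0 < r ^ 2 * (r + e) := by positivity
  have h5 := mul_pos h4 h0
  have h6 : Uh r e B ≤ r ^ 2 * (r + e) *
      (2 * ((r + e) * e2 r e uN) + e2 r e bN) := by
    unfold Uh
    refine mul_le_mul_of_nonneg_left ?_ h4.le
    have := mul_nonneg (sq_nonneg B) (bN_pos h).le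
    linarith
  have h7 := mul_le_mul_of_nonneg_left h6 (mul_nonneg h.Y.le (sq_nonneg r))
  have h8 : (1 - r ^ 2) * (r ^ 2 * Uh r e B) ≤ (1 - r ^ 2) * (25 * Uh r e A) := by linarith
  exact le_of_mul_le_mul_left h8 h.Y

theorem Uh_anti (h : Dm r e) {A B : ℝ} (hA : 0 ≤ A) (hAB : A ≤ B) : Uh r e B ≤ Uh r e A := by
  have h2 := h.L
  have h3 := h.r0
  unfold Uh
  refine mul_le_mul_of_nonneg_left ?_ (by positivity)
  have h4 : A ^ 2 ≤ B ^ 2 := by gcongr
  have := mul_le_mul_of_nonneg_right h4 (bN_pos h).le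
  linarith

/-- (C3). -/
theorem c3_ineq (h : Dm r e) {A : ℝ} (hA : (1 - r ^ 2) * A ^ 2 ≤ 1 - e ^ 2) :
    0 < e2 r e pV + A ^ 2 * e2 r e cN + (2 - r ^ 2) / r ^ 2 * Uh r e A := by
  have h0 := S12a_pos h h01
  have h1 := S12b_pos h h01
  rw [S12a, e3_one] at h0
  rw [S12b, e3_one] at h1
  simp only [e2_add, e2_smul, e2_mul, v_Y, v_T, v_C] at h0 h1
  push_cast at h0 h1
  have h2 := h.r0
  have h3 : (2 - r ^ 2) / r ^ 2 * Uh r e A = (2 - r ^ 2) *
      (e2 r e pMW / 5 - A ^ 2 * e2 r e pMB / 10) := by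
    unfold Uh
    rw [r_MW, r_MB]
    field_simp
  rw [h3]
  have h4 := h.T
  have h5 := h.Y
  have h6 : 0 ≤ (1 - e ^ 2 - (1 - r ^ 2) * A ^ 2) := by linarith
  have h7 := mul_nonneg h6 h0.le
  rcases (sq_nonneg A).eq_or_lt with h8 | h8
  · rw [← h8]
    linarith
  · have h9 := mul_pos h8 h1
    refine pos_of_mul_pos_right (a := 10 * (1 - e ^ 2)) ?_ (by positivity)
    linarith

end Vale.Agent.P219.D6
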