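import Vale.Agent.P219.D4.Tools

/-! # Positivity tests with binary subdivision of the cube -/

open Set

namespace Vale.Agent.P219.D6

open Vale.Agent.P219.C5 Vale.Agent.P219.D4

/-! ### Halving -/

/-- `2^(n-1) p(u/2, v)`, `n` the length. -/
def hl (p : P2) : P2 :=
  List.rec (motive := fun _ => P2) [] (fun a p ih =>
    kmap (Int.mul (Int.ofNat (Nat.pow 2 (klen p)))) a :: ih) p

/-- `p(1+u, v)`. -/
def ts (p : P2) : P2 :=
  List.rec (motive := fun _ => P2) [] (fun a _ ih => add2 (add2 [a] ih) ([] :: ih)) p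

theorem ev_hl (u v : ℝ) (p : P2) :
    2 * e2 u v (hl p) = 2 ^ p.length * e2 (u / 2) v p := by
  induction p with
  | nil => simp [hl, e2]
  | cons a p ih =>
    have h3 : ((Int.ofNat (Nat.pow 2 p.length) : ℤ) : ℝ) = (2 : ℝ) ^ p.length := by
      simp
    have h1 : e2 u v (hl (a :: p)) =
        2 ^ p.length * ev evz v a + u * e2 u v (hl p) := by
      change e2 u v (kmap (Int.mul (Int.ofNat (Nat.pow 2 (klen p)))) a :: hl p) = _
      rw [klen_eq]
      unfold e2
      rw [ev_cons, ev_kmap]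
      simp only [evz_mul]
      rw [ev_mul_left]
      congr 2
    have h2 : e2 (u / 2) v (a :: p) = ev evz v a + u / 2 * e2 (u / 2) v p := rfl
    rw [h1, h2, List.length_cons, pow_succ]
    linear_combination u * ih

theorem ev_ts (u v : ℝ) (p : P2) : e2 u v (ts p) = e2 (1 + u) v p := by
  induction p with
  | nil => simp [ts, e2]
  | cons a p ih =>
    change e2 u v (add2 (add2 [a] (ts p)) ([] :: ts p)) = _
    have h1 : e2 u v [a] = ev evz v a := by simp [e2]
    have h2 : e2 u v ([] :: ts p) = u * e2 u v (ts p) := by simp [e2]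
    have h3 : e2 (1 + u) v (a :: p) = ev evz v a + (1 + u) * e2 (1 + u) v p := rfl
    rw [e2_add, e2_add, h1, h2, h3, ih]
    ring

/-- Left half in the outer variable. -/
def cl (N : ℕ) (Q : List P2) : List P2 := kmap (fun p => hl (padP N p)) Q
/-- Right half in the outer variable. -/
def cr (N : ℕ) (Q : List P2) : List P2 := kmap (fun p => ts (hl (padP N p))) Q

theorem e3_cl {N : ℕ} {Q : List P2} (h : len1 N Q = true) (a u v : ℝ) :
    2 * e3 a u v (cl N Q) = 2 ^ N * e3 a (u / 2) v Q := by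
  have hL := len1_spec h
  clear h
  unfold e3 cl
  rw [ev_kmap]
  induction Q with
  | nil => simp
  | cons p Q ih =>
    have h1 := ih fun r hr => hL r (by simp [hr])
    have h2 := ev_hl u v (padP N p)
    rw [length_padP (hL p (by simp)), ev_padP] at h2
    rw [ev_cons, ev_cons]
    linear_combination h2 + a * h1

theorem e3_cr {N : ℕ} {Q : List P2} (h : len1 N Q = true) (a u v : ℝ) :
    2 * e3 a u v (cr N Q) = 2 ^ N * e3 a ((1 + u) / 2) v Q := by
  have hL := len1_spec h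
  clear h
  unfold e3 cr
  rw [ev_kmap]
  induction Q with
  | nil => simp
  | cons p Q ih =>
    have h1 := ih fun r hr => hL r (by simp [hr])
    have h2 := ev_hl (1 + u) v (padP N p)
    rw [length_padP (hL p (by simp)), ev_padP, ← ev_ts] at h2
    rw [ev_cons, ev_cons]
    linear_combination h2 + a * h1

theorem cl_nonneg {N : ℕ} {Q : List P2} (h : len1 N Q = true) {a u v : ℝ}
    (h0 : 0 ≤ e3 a (2 * u) v (cl N Q)) : 0 ≤ e3 a u v Q := by
  have h1 := e3_cl h a (2 * u) v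
  rw [mul_div_cancel_left₀ _ (two_ne_zero' ℝ)] at h1
  have h2 : 0 ≤ 2 ^ N * e3 a u v Q := by rw [← h1]; positivity
  exact nonneg_of_mul_nonneg_right h2 (by positivity)

theorem cr_nonneg {N : ℕ} {Q : List P2} (h : len1 N Q = true) {a u v : ℝ}
    (h0 : 0 ≤ e3 a (2 * u - 1) v (cr N Q)) : 0 ≤ e3 a u v Q := by
  have h1 := e3_cr h a (2 * u - 1) v
  rw [add_sub_cancel, mul_div_cancel_left₀ _ (two_ne_zero' ℝ)] at h1
  have h2 : 0 ≤ 2 ^ N * e3 a u v Q := by rw [← h1]; positivity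
  exact nonneg_of_mul_nonneg_right h2 (by positivity)

theorem ka_nonneg {i j : ℤ} {D : ℕ} {Q : List P2} (hD : 0 < D) {a b x T : ℝ}
    (hb : (i : ℝ) + j * a = D * b) (h : 0 ≤ e3 a x T (ka i j D Q)) : 0 ≤ e3 b x T Q := by
  have hD' : (0 : ℝ) < D := by exact_mod_cast hD
  have h1 := e3_ka i j hD'.ne' a x T Q
  rw [hb, mul_div_cancel_left₀ _ hD'.ne'] at h1
  have h2 : 0 ≤ (D : ℝ) ^ Q.length * e3 b x T Q := by rw [← h1]; positivity
  exact nonneg_of_mul_nonneg_right h2 (by positivity)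

/-! ### Trees -/

/-- Binary subdivisions of the cube `(a, u, v)`. -/
inductive Tr
  | lf
  | a (l r : Tr)
  | u (l r : Tr)
  | v (l r : Tr)

/-- Back to the original order of the variables. -/
def bk (N : ℕ) (c : List P2 → Bool) (R : List P2) : Bool := and (len2 N R) (c (tr3 N R))

/-- Test of nonnegativity; `L` bounds the inner lengths, `N` the outer ones. -/
noncomputable def chkT (L N : ℕ) (t : Tr) : List P2 → Bool :=
  Tr.rec (motive := fun _ => List P2 → Bool) (fun Q => t3 (chk2 L) Q)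
    (fun _ _ l r Q => and (l (ka 0 1 2 Q)) (r (ka 1 1 2 Q)))
    (fun _ _ l r Q => and (len1 N Q) (and (l (cl N Q)) (r (cr N Q))))
    (fun _ _ l r Q => and (len2 L Q)
      (and (bk N l (cl L (tr3 L Q))) (bk N r (cr L (tr3 L Q))))) t

theorem bk_nonneg {N : ℕ} {c : List P2 → Bool} {R : List P2} {a u v : ℝ}
    (hc : ∀ Q, c Q = true → 0 ≤ e3 a u v Q) (h : bk N c R = true) : 0 ≤ e3 a v u R := by
  rw [bk, Bool.and_eq_true] at h
  rw [← e3_tr3 h.1]
  exact hc _ h.2

theorem chkT_nonneg {L N : ℕ} (t : Tr) : ∀ Q : List P2, chkT L N t Q = true → ∀ a ∈ Icc (0 : ℝ) 1,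
    ∀ u ∈ Icc (0 : ℝ) 1, ∀ v ∈ Icc (0 : ℝ) 1, 0 ≤ e3 a u v Q := by
  induction t with
  | lf =>
    intro Q h a ha u hu v hv
    exact t3_nonneg (fun p q hpq => chk2_le hpq hu hv) h ha
  | a l r hl hr =>
    intro Q h a ha u hu v hv
    change and (chkT L N l (ka 0 1 2 Q)) (chkT L N r (ka 1 1 2 Q)) = true at h
    rw [Bool.and_eq_true] at h
    rcases le_total a (1 / 2) with h1 | h1
    · refine ka_nonneg (i := 0) (j := 1) (D := 2) two_pos (a := 2 * a) ?_
        (hl _ h.1 _ ⟨by linarith [ha.1], by linarith⟩ _ hu _ hv)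
      push_cast; ring
    · refine ka_nonneg (i := 1) (j := 1) (D := 2) two_pos (a := 2 * a - 1) ?_
        (hr _ h.2 _ ⟨by linarith, by linarith [ha.2]⟩ _ hu _ hv)
      push_cast; ring
  | u l r hl hr =>
    intro Q h a ha u hu v hv
    change and (len1 N Q) (and (chkT L N l (cl N Q)) (chkT L N r (cr N Q))) = true at h
    rw [Bool.and_eq_true, Bool.and_eq_true] at h
    rcases le_total u (1 / 2) with h1 | h1
    · exact cl_nonneg h.1 (hl _ h.2.1 _ ha _ ⟨by linarith [hu.1], by linarith⟩ _ hv)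
    · exact cr_nonneg h.1 (hr _ h.2.2 _ ha _ ⟨by linarith, by linarith [hu.2]⟩ _ hv)
  | v l r hl hr =>
    intro Q h a ha u hu v hv
    change and (len2 L Q) (and (bk N (chkT L N l) (cl L (tr3 L Q)))
      (bk N (chkT L N r) (cr L (tr3 L Q)))) = true at h
    rw [Bool.and_eq_true, Bool.and_eq_true] at h
    rw [← e3_tr3 h.1]
    rcases le_total v (1 / 2) with h1 | h1
    · exact cl_nonneg (len1_tr3 L Q) (bk_nonneg (fun R hR =>
        hl R hR _ ha _ hu _ ⟨by linarith [hv.1], by linarith⟩) h.2.1)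
    · exact cr_nonneg (len1_tr3 L Q) (bk_nonneg (fun R hR =>
        hr R hR _ ha _ hu _ ⟨by linarith, by linarith [hv.2]⟩) h.2.2)

/-- Test of positivity on the unit cube. -/
noncomputable def okS (t : Tr) (N L i j k l : ℕ) (Q : List P2) : Bool :=
  chkT L N t (kadd add2 Q [smul2 (-1) (mon i j k l)])

theorem okS_pos {t : Tr} {N L i j k l : ℕ} {Q : List P2} (h : okS t N L i j k l Q = true)
    {a u v : ℝ} (ha : a ∈ Icc (0 : ℝ) 1) (hu : u ∈ Icc (0 : ℝ) 1) (hv : v ∈ Icc (0 : ℝ) 1)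
    (hm : 0 < u ^ i * (1 - u) ^ j * (v ^ k * (1 - v) ^ l)) : 0 < e3 a u v Q := by
  have h1 := chkT_nonneg t _ h a ha u hu v hv
  rw [e3_add] at h1
  have h2 : e3 a u v [smul2 (-1) (mon i j k l)] =
      -(u ^ i * (1 - u) ^ j * (v ^ k * (1 - v) ^ l)) := by
    unfold e3
    rw [ev_cons, ev_nil, mul_zero, add_zero, e2_smul, v_mon]
    push_cast
    ring
  rw [h2] at h1
  linarith

/-- Test after the substitution of `q/D`, linear in the outer variable. -/
noncomputable def okCS (t : Tr) (q : P2) (D N L i j k l : ℕ) (Q : List P2) : Bool :=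
  and (len1 N Q) (okS t N L i j k l (ch q D N Q))

theorem okCS_pos {t : Tr} {q : P2} {D N L i j k l : ℕ} {Q : List P2}
    (h : okCS t q D N L i j k l Q = true)
    (hD : 0 < D) {a u v x : ℝ} (hx : e2 u v q = D * x)
    (ha : a ∈ Icc (0 : ℝ) 1) (hu : u ∈ Icc (0 : ℝ) 1) (hv : v ∈ Icc (0 : ℝ) 1)
    (hm : 0 < u ^ i * (1 - u) ^ j * (v ^ k * (1 - v) ^ l)) : 0 < e3 a x v Q := by
  rw [okCS, Bool.and_eq_true] at h
  exact ch_pos h.1 hD hx (okS_pos h.2 ha hu hv hm)

/-- Test on `e = k ρ`. -/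
noncomputable def okTS (t : Tr) (M L i j k l : ℕ) (Q : List P2) : Bool :=
  and (len2 M Q) (okS t M L i j k l (ch [[], [.ofNat 0, .ofNat 1]] 1 M (tr3 M Q)))

theorem okTS_pos {t : Tr} {M L i j k l : ℕ} {Q : List P2} (h : okTS t M L i j k l Q = true)
    {a x y : ℝ}
    (ha : a ∈ Icc (0 : ℝ) 1) (hx : x ∈ Icc (0 : ℝ) 1) (hy : y ∈ Icc (0 : ℝ) 1)
    (hm : 0 < y ^ i * (1 - y) ^ j * (x ^ k * (1 - x) ^ l)) : 0 < e3 a x (y * x) Q := by
  rw [okTS, Bool.and_eq_true] at h
  rw [← e3_tr3 h.1]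
  exact ch_pos (len1_tr3 M Q) one_pos (v_uv y x) (okS_pos h.2 ha hy hx hm)

/-- Test on `e = k ρ`, `D ρ = α + β u`. -/
noncomputable def okTBS (t : Tr) (α β : ℤ) (D M N L i j k l : ℕ) (Q : List P2) : Bool :=
  and (and (len2 M Q) (len2 N (ch [[], [.ofNat 0, .ofNat 1]] 1 M (tr3 M Q))))
    (okS t N L i j k l (ch [[α], [β]] D N (tr3 N (ch [[], [.ofNat 0, .ofNat 1]] 1 M (tr3 M Q)))))

theorem okTBS_pos {t : Tr} {α β : ℤ} {D M N L i j k l : ℕ} {Q : List P2}
    (h : okTBS t α β D M N L i j k l Q = true) (hD : 0 < D) {a u x y : ℝ}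
    (hx : (α : ℝ) + β * u = D * x) (ha : a ∈ Icc (0 : ℝ) 1) (hu : u ∈ Icc (0 : ℝ) 1)
    (hy : y ∈ Icc (0 : ℝ) 1) (hm : 0 < u ^ i * (1 - u) ^ j * (y ^ k * (1 - y) ^ l)) :
    0 < e3 a x (y * x) Q := by
  rw [okTBS, Bool.and_eq_true, Bool.and_eq_true] at h
  have h0 := okS_pos h.2 ha hu hy hm
  have hq : e2 u y [[α], [β]] = D * x := by
    rw [← hx]; simp [e2, evz]; ring
  have h1 := ch_pos (len1_tr3 _ _) hD hq h0
  rw [e3_tr3 h.1.2] at h1
  have h2 := ch_pos (len1_tr3 M Q) one_pos (v_uv y x) h1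
  rwa [e3_tr3 h.1.1] at h2

end Vale.Agent.P219.D6
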